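import Vale.Agent.P073.H581.OutCl
import Vale.Agent.P073.H212.Round
import Vale.Agent.P073.H193.EdgCx

/-!
# P073, A14.15 (OUT-CLAUSES), part 2: one round

`h` is the reference map, `h₀` the input of the round, `h₂` the map after the moves in the target
(`Θ`, exchange), `g₀` the output of the insertion (`Pre κ`), `g = Φ ∘ g₀` the final map.
The theorems can be applied in each of the two rounds.
-/

open Set Metric Topology Filter

namespace Vale.Agent.P073.H581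

open Vale.Agent.P073.St (V)
open _root_.P073 (ConHomeo ConBall)
open _root_.P073.Net (dyc dyo IsTile SizeFn)
open _root_.P073.KW
open _root_.P073.H579 (Pre)
open Vale.Agent.P073.H73

variable {Ω Λ : Set V} {ρ : V → ℝ} {w : V} {M : Mesh Ω} {h : ConHomeo Ω Λ} {P : Set M.ι}

/-- `g` preserves the tiles on the boundaries of the protected cells, with respect to `h` -/
def TileAt (ρ : V → ℝ) (w : V) (M : Mesh Ω) (P : Set M.ι) (h g : V → V) : Prop :=
  ∀ i ∈ P, ∀ x ∈ frontier (M.Q i), ∀ m z, IsTile ρ w m z → h x ∈ dyc w m z → g x ∈ dyc w m z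

/-- `g` has the same images of the protected cells -/
def ImgAt (M : Mesh Ω) (P : Set M.ι) (h g : V → V) : Prop := ∀ i ∈ P, g '' M.Q i = h '' M.Q i

/-- `g` is comparable with `h` on the faces -/
def NearAt (C : ℝ) (ρ : V → ℝ) (M : Mesh Ω) (h g : V → V) : Prop :=
  ∀ k, ∀ x ∈ M.F k, Near C ρ (h x) (g x)

theorem TileAt.refl : TileAt ρ w M P h.toFun h.toFun := fun _ _ _ _ _ _ _ h => h

theorem ImgAt.refl : ImgAt M P h.toFun h.toFun := fun _ _ => rfl

theorem NearAt.refl (hρ : SizeFn Λ ρ) : NearAt 2 ρ M h.toFun h.toFun := fun k x hx =>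
  Near.of_dist hρ (by
    rw [sub_self, norm_zero]
    have := (hρ.pos _ (h.mapsTo (H193.mesh_sub M k hx))).le
    positivity) (hρ.pos _ (h.mapsTo (H193.mesh_sub M k hx))).le

/-- **one round, tiles** -/
theorem round_tile (hΩ : IsOpen Ω) (hρ : SizeFn Λ ρ) (hA : Aligned w ρ M h.toFun P)
    (E : H193.Edges M) (hgen : ∀ i ∈ P, OneGen ρ w (h.toFun '' M.Q i))
    {h₀ : V → V} (h0 : TileAt ρ w M P h.toFun h₀)
    {h₂ : ConHomeo Ω Λ} (h2 : ∀ i ∈ P, ∀ x ∈ frontier (M.Q i), h₂.toFun x = h₀ x)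
    {κ : V → V} (hκ : TileIff Λ ρ w κ) {g₀ : ConHomeo Ω Λ}
    (hF : ∀ k, g₀.toFun '' M.F k = Pre κ Λ h₂ (M.F k))
    (hE : ∀ e k, E.seg e ⊆ M.F k → g₀.toFun '' E.seg e = Pre κ Λ h₂ (E.seg e))
    (hN : ∀ x ∈ E.verts, ∀ k, x ∈ M.F k → κ (g₀.toFun x) = h₂.toFun x)
    {Φ g : V → V} (hΦ : TileIff Λ ρ w Φ) (hg : ∀ x ∈ Ω, g x = Φ (g₀.toFun x)) :
    TileAt ρ w M P h.toFun g := by
  intro i hi x hx m z ht hxt
  have hQc : IsClosed (M.Q i) := (M.poly i).cpt.isClosed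
  have hxQ : x ∈ M.Q i := hQc.frontier_subset hx
  have hxΩ : x ∈ Ω := M.sub i hxQ
  rw [hg x hxΩ]
  refine (hΦ.iff m z ht _ (g₀.mapsTo hxΩ)).2 ?_
  -- it suffices to find a stratum
  have key : ∀ X : Set V, x ∈ X → X ⊆ frontier (M.Q i) → h.toFun '' X ⊆ dyc w m z →
      g₀.toFun '' X = Pre κ Λ h₂ X → g₀.toFun x ∈ dyc w m z := by
    intro X hxX hX hXt hpre
    have h3 : h₂.toFun '' X ⊆ dyc w m z := by
      rintro _ ⟨u, hu, rfl⟩
      rw [h2 i hi u (hX hu)]
      exact h0 i hi u (hX hu) m z ht (hXt ⟨u, hu, rfl⟩)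
    have h4 : g₀.toFun x ∈ Pre κ Λ h₂ X := by rw [← hpre]; exact ⟨x, hxX, rfl⟩
    exact pre_sub_tile hκ ht h3 h4
  obtain ⟨k, hxk, hk⟩ := M.bd i x hx
  have hkfr := H244.face_subset_frontier M hk
  by_cases hint : x ∈ intrinsicInterior ℝ (M.F k)
  · exact key (M.F k) hxk hkfr (hA.one i hi k hk m z ht ⟨_, ⟨x, hint, rfl⟩, hxt⟩) (hF k)
  · have hxfr : x ∈ intrinsicFrontier ℝ (M.F k) := by
      rw [(H193.pgn_of_fat (M.fat k)).fr_eq]; exact ⟨hxk, hint⟩
    obtain ⟨e, hxe, hek⟩ := E.bd k x hxfr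
    by_cases hop : x ∈ openSegment ℝ (E.a e) (E.b e)
    · exact key (E.seg e) hxe (Subset.trans hek hkfr)
        (strat_edge hΩ hA E hρ hi (hgen i hi) hek hk hop ht hxt) (hE e k hek)
    · -- a vertex
      have hv : x ∈ E.verts := by
        rw [← insert_endpoints_openSegment] at hxe
        rcases hxe with rfl | rfl | h
        · exact Or.inl ⟨e, rfl⟩
        · exact Or.inr ⟨e, rfl⟩
        · exact absurd h hop
      have h3 := hN x hv k hxk
      have h4 : κ (g₀.toFun x) ∈ dyc w m z := by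
        rw [h3, h2 i hi x hx]
        exact h0 i hi x hx m z ht hxt
      exact (hκ.iff m z ht _ (g₀.mapsTo hxΩ)).1 h4

/-- **one round, images** -/
theorem round_image (hρ : SizeFn Λ ρ) (hA : Aligned w ρ M h.toFun P)
    {h₂ : ConHomeo Ω Λ} (h2 : ImgAt M P h.toFun h₂.toFun)
    {κ : V → V} (hκ : TileIff Λ ρ w κ) {g₀ : ConHomeo Ω Λ}
    (hQ : ∀ i, g₀.toFun '' M.Q i = Pre κ Λ h₂ (M.Q i))
    (Φ : ConHomeo Λ Λ) {g : V → V} (hΦ : TileIff Λ ρ w Φ.toFun)
    (hg : ∀ x ∈ Ω, g x = Φ.toFun (g₀.toFun x)) : ImgAt M P h.toFun g := by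
  intro i hi
  have hB := tbox_of_aligned (h := h) hA hi
  have h3 : g₀.toFun '' M.Q i = h.toFun '' M.Q i := by
    rw [hQ i]; exact pre_eq_of_tbox hρ hκ hB (h2 i hi)
  have h4 : g '' M.Q i = Φ.toFun '' (g₀.toFun '' M.Q i) := by
    rw [image_image]
    exact image_congr fun x hx => hg x (M.sub i hx)
  rw [h4, h3]
  exact hΦ.image_homeo hρ Φ hB

/-- **one round, closeness** -/
theorem round_near (hρ : SizeFn Λ ρ) {C₀ C₁ C₂ : ℝ} (hC₀ : 1 ≤ C₀) (hC₁ : 1 ≤ C₁) (hC₂ : 1 ≤ C₂)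
    {h₀ : ConHomeo Ω Λ} (h0 : NearAt C₀ ρ M h.toFun h₀.toFun)
    (h1 : ∀ k, ∀ x ∈ M.F k, ∀ x' ∈ M.F k, Near C₁ ρ (h.toFun x) (h.toFun x'))
    {h₂ : ConHomeo Ω Λ} (h2 : NearAt C₂ ρ M h₀.toFun h₂.toFun)
    {κ : V → V} (hκ : TileIff Λ ρ w κ) {g₀ : ConHomeo Ω Λ}
    (hF : ∀ k, g₀.toFun '' M.F k = Pre κ Λ h₂ (M.F k))
    {Φ g : V → V} (hΦ : TileIff Λ ρ w Φ) (hg : ∀ x ∈ Ω, g x = Φ (g₀.toFun x)) :
    NearAt (2 ^ 12 * (C₀ * C₁ * C₂)) ρ M h.toFun g := by
  intro k x hx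
  have hxΩ : x ∈ Ω := H193.mesh_sub M k hx
  have h3 : g₀.toFun x ∈ Pre κ Λ h₂ (M.F k) := by rw [← hF]; exact ⟨x, hx, rfl⟩
  obtain ⟨hyΛ, x', hx', he⟩ := h3
  have hx'Ω : x' ∈ Ω := H193.mesh_sub M k hx'
  have n1 := h1 k x hx x' hx'
  have n2 := h0 k x' hx'
  have n3 := h2 k x' hx'
  have n4 : Near 16 ρ (h₂.toFun x') (g₀.toFun x) := by
    rw [he]; exact Near.of_tileIff' hρ hκ hyΛ
  have n5 : Near 16 ρ (g₀.toFun x) (g x) := by
    rw [hg x hxΩ]; exact Near.of_tileIff hρ hΦ hyΛ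
  have hp : ∀ y ∈ Λ, 0 ≤ ρ y := fun y hy => (hρ.pos y hy).le
  have hgΛ : g x ∈ Λ := by rw [hg x hxΩ]; exact hΦ.maps hyΛ
  have m1 := n4.trans n5 (by norm_num) (by norm_num) (hp _ (h₂.mapsTo hx'Ω)) (hp _ hgΛ)
  have m2 := n3.trans m1 hC₂ (by norm_num) (hp _ (h₀.mapsTo hx'Ω)) (hp _ hgΛ)
  have m3 := n2.trans m2 hC₀ (by nlinarith) (hp _ (h.mapsTo hx'Ω)) (hp _ hgΛ)
  have hC02 : 1 ≤ C₀ * C₂ := by nlinarith
  have m4 := n1.trans m3 hC₁ (by nlinarith) (hp _ (h.mapsTo hxΩ)) (hp _ hgΛ)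
  refine m4.mono (le_of_eq ?_) (hp _ (h.mapsTo hxΩ)) (hp _ hgΛ)
  ring

/-- the clause `close` of `Out` -/
theorem close_of_nearAt (hρ : SizeFn Λ ρ) {C : ℝ} (hC : 0 ≤ C) {g : V → V}
    (H : NearAt C ρ M h.toFun g) : ∀ k, ∀ x ∈ M.F k, ∀ m z, IsTile ρ w m z →
      h.toFun x ∈ dyc w m z → ‖g x - h.toFun x‖ ≤ 4 * C / 2 ^ m :=
  fun k x hx _ _ ht hxt => (H k x hx).close hρ hC ht hxt

/-- exchange inside of plates: a point stays in the union of two touching tiles -/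
theorem near_of_two_tiles (hρ : SizeFn Λ ρ) {y y' : V} (h : y' = y ∨ ∃ m z m' z',
    IsTile ρ w m z ∧ IsTile ρ w m' z' ∧ (dyc w m z ∩ dyc w m' z').Nonempty ∧
      y ∈ dyc w m z ∪ dyc w m' z' ∧ y' ∈ dyc w m z ∪ dyc w m' z') (hy : y ∈ Λ) :
    Near 16 ρ y y' := by
  rcases h with rfl | ⟨m, z, m', z', ht, ht', hne, hy1, hy2⟩
  · obtain ⟨m, z, ht, h1⟩ := _root_.P073.KW.exists_tile (v := w) hρ hy
    exact Near.of_tile hρ ht h1 h1
  · rcases hy1 with h1 | h1 <;> rcases hy2 with h2 | h2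
    · exact Near.of_tile hρ ht h1 h2
    · exact Near.of_tiles hρ ht ht' hne h1 h2
    · exact Near.of_tiles hρ ht' ht (by rwa [inter_comm]) h1 h2
    · exact Near.of_tile hρ ht' h1 h2

/-- the images of the faces are small -/
theorem near_of_osc (hρ : SizeFn Λ ρ) {δ : ℝ} (hδ : δ ≤ 1 / 2)
    (H : ∀ k, ∀ x ∈ M.F k, ∀ y ∈ M.F k, ∀ m z, IsTile ρ w m z → h.toFun x ∈ dyc w m z →
      ‖h.toFun x - h.toFun y‖ ≤ δ / 2 ^ m) :
    ∀ k, ∀ x ∈ M.F k, ∀ x' ∈ M.F k, Near 2 ρ (h.toFun x) (h.toFun x') := by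
  intro k x hx x' hx'
  have hxΛ := h.mapsTo (H193.mesh_sub M k hx)
  obtain ⟨m, z, ht, h1⟩ := _root_.P073.KW.exists_tile (v := w) hρ hxΛ
  refine Near.of_dist hρ ?_ (hρ.pos _ hxΛ).le
  rw [norm_sub_rev]
  refine (H k x hx x' hx' m z ht h1).trans ?_
  have h2 := (tile_bounds hρ ht h1).1
  have h3 : (0:ℝ) < 1 / 2 ^ m := by positivity
  calc δ / 2 ^ m = δ * (1 / 2 ^ m) := by ring
    _ ≤ 1 / 2 * (1 / 2 ^ m) := mul_le_mul_of_nonneg_right hδ h3.le
    _ ≤ 1 / 2 * ρ (h.toFun x) := mul_le_mul_of_nonneg_left h2 (by norm_num)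
    _ = _ := by ring

/-! ### Ambient homeomorphisms which are the identity near the boundary of a protected box -/

/-- if an ambient homeomorphism of `Λ` fixes the frontier of a closed convex set, and moves the
points only a little, the set is preserved -/
theorem image_eq_of_fix {B : Set V} (hB : IsClosed B) (hBΛ : B ⊆ Λ) (hΛ : IsOpen Λ)
    (hc : IsPreconnected (interior B)) (Θ : ConHomeo Λ Λ)
    (hfix : ∀ y ∈ frontier B, Θ.toFun y = y)
    (hmeet : ∃ y ∈ interior B, Θ.toFun y ∈ interior B) : Θ.toFun '' B = B := by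
  -- the image of the interior is contained in the interior
  have key : ∀ T : Set V, IsPreconnected T → T ⊆ Λ → Disjoint (Θ.toFun '' T) (frontier B) →
      (Θ.toFun '' T ∩ interior B).Nonempty → Θ.toFun '' T ⊆ interior B := by
    intro T hT hTΛ hdis hne
    have hTc : IsPreconnected (Θ.toFun '' T) := hT.image _ (Θ.cont.mono hTΛ)
    refine hTc.subset_left_of_subset_union isOpen_interior hB.isOpen_compl ?_ ?_ hne
    · exact Set.disjoint_left.2 fun x hx hx' => hx' (interior_subset hx)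
    · intro y hy
      by_cases h1 : y ∈ interior B
      · exact Or.inl h1
      · refine Or.inr fun h2 => Set.disjoint_left.1 hdis hy ?_
        rw [hB.frontier_eq]; exact ⟨h2, h1⟩
  have hsub1 : Θ.toFun '' interior B ⊆ interior B := by
    obtain ⟨y, hy, hy'⟩ := hmeet
    refine key _ hc (interior_subset.trans hBΛ) ?_ ⟨_, ⟨y, hy, rfl⟩, hy'⟩
    rw [Set.disjoint_left]
    rintro _ ⟨u, hu, rfl⟩ hf
    have h1 := hfix _ hf
    have h2 : Θ.toFun u ∈ Λ := Θ.mapsTo (hBΛ (interior_subset hu))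
    have h3 := Θ.injOn h2 (hBΛ (interior_subset hu)) h1
    rw [h3, hB.frontier_eq] at hf
    exact hf.2 hu
  have hfr : Θ.toFun '' frontier B = frontier B := by
    ext y
    constructor
    · rintro ⟨u, hu, rfl⟩; rw [hfix u hu]; exact hu
    · exact fun hy => ⟨y, hy, hfix y hy⟩
  have hBeq : B = interior B ∪ frontier B := by
    rw [hB.frontier_eq, union_sdiff_self, union_eq_self_of_subset_left interior_subset]
  -- the inverse
  have hsub2 : interior B ⊆ Θ.toFun '' interior B := by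
    -- the image of the interior is open and relatively closed in the interior
    have hopen : IsOpen (Θ.toFun '' interior B) := by
      have : Θ.toFun '' interior B = Λ ∩ Θ.invFun ⁻¹' interior B := by
        ext y
        constructor
        · rintro ⟨u, hu, rfl⟩
          refine ⟨Θ.mapsTo (hBΛ (interior_subset hu)), ?_⟩
          rw [mem_preimage, Θ.left_inv (hBΛ (interior_subset hu))]; exact hu
        · rintro ⟨h1, h2⟩
          exact ⟨_, h2, Θ.right_inv h1⟩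
      rw [this]
      exact Θ.cont_inv.isOpen_inter_preimage hΛ isOpen_interior
    have hcomp : IsOpen (interior B \ Θ.toFun '' interior B) := by
      have : interior B \ Θ.toFun '' interior B = interior B ∩ (Λ ∩ Θ.invFun ⁻¹' Bᶜ) := by
        ext y
        constructor
        · rintro ⟨h1, h2⟩
          have hyΛ : y ∈ Λ := hBΛ (interior_subset h1)
          refine ⟨h1, hyΛ, fun h3 => ?_⟩
          rw [hBeq] at h3
          rcases h3 with h3 | h3
          · exact h2 ⟨_, h3, Θ.right_inv hyΛ⟩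
          · have h4 := hfix _ h3
            rw [Θ.right_inv hyΛ] at h4
            rw [← h4, hB.frontier_eq] at h3
            exact h3.2 h1
        · rintro ⟨h1, h2, h3⟩
          refine ⟨h1, ?_⟩
          rintro ⟨u, hu, rfl⟩
          rw [mem_preimage, Θ.left_inv (hBΛ (interior_subset hu))] at h3
          exact h3 (interior_subset hu)
      rw [this]
      exact isOpen_interior.inter (Θ.cont_inv.isOpen_inter_preimage hΛ hB.isOpen_compl)
    refine hc.subset_left_of_subset_union hopen hcomp ?_ ?_ ?_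
    · exact Set.disjoint_left.2 fun x hx hx' => hx'.2 hx
    · intro y hy
      by_cases h1 : y ∈ Θ.toFun '' interior B
      · exact Or.inl h1
      · exact Or.inr ⟨hy, h1⟩
    · obtain ⟨y, hy, hy'⟩ := hmeet
      exact ⟨_, hy', y, hy, rfl⟩
  have hint : Θ.toFun '' interior B = interior B := Subset.antisymm hsub1 hsub2
  calc Θ.toFun '' B = Θ.toFun '' interior B ∪ Θ.toFun '' frontier B := by
        rw [← image_union, ← hBeq]
    _ = B := by rw [hint, hfr, ← hBeq]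

end Vale.Agent.P073.H581
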