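import Vale.Agent.P073.H581.OutCl
import Vale.Agent.P073.H236.GeoT
import Vale.Agent.P073.H267.Geo4
import Vale.Agent.P073.H471.Kill

/-!
# P073, A14.15: `TileIff` for the maps of the two rounds

`Sat Λ ρ w K J`: along the directions `J`, the box `K` does not leave a tile.
* `tileIff_of_boxes`: a map of `Λ` which is the identity off the boxes `K b`, and moves the points of
  `K b` inside `K b` in the directions `J b` only, preserves the tiles;
* `tileIff_isS`, `tileIff_glue`: the staircase maps and the insertion maps;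
* `sat_TB`, `sat_PB`: the boxes of the rounds;
* `tileIff_kill`.
-/

open Set Metric Topology Filter

namespace Vale.Agent.P073.H581

open Vale.Agent.P073.St (V)
open _root_.P073 (ConHomeo)
open _root_.P073.Net (dyc dyo IsTile SizeFn)
open _root_.P073.PA691 (BoxCx)
open _root_.P073.H236
open Vale.Agent.P073.H471 Vale.Agent.P073.H267

section Abs

variable {Λ : Set V} {ρ : V → ℝ} {w : V}

/-- along the directions `J`, the set `K` does not leave a tile -/
def Sat (ρ : V → ℝ) (w : V) (K : Set V) (J : Set (Fin 3)) : Prop :=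
  ∀ m z, IsTile ρ w m z → ∀ y ∈ K, ∀ y' ∈ K, (∀ k, k ∉ J → y' k = y k) → y ∈ dyc w m z →
    y' ∈ dyc w m z

theorem Sat.mono {K K' : Set V} {J J' : Set (Fin 3)} (h : Sat ρ w K J) (hK : K' ⊆ K)
    (hJ : J' ⊆ J) : Sat ρ w K' J' :=
  fun m z ht y hy y' hy' hk hm => h m z ht y (hK hy) y' (hK hy') (fun k hkJ => hk k fun h' =>
    hkJ (hJ h')) hm

/-- maps which move points inside the boxes, in the saturated directions -/
theorem tileIff_of_boxes {ι : Type*} {κ : V → V} (K : ι → Set V) (J : ι → Set (Fin 3))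
    (hsat : ∀ b, Sat ρ w (K b) (J b)) (hsub : ∀ b, K b ⊆ Λ)
    (hoff : ∀ y ∈ Λ, (∀ b, y ∉ K b) → κ y = y)
    (hon : ∀ b, ∀ y ∈ K b, κ y ∈ K b ∧ ∀ k, k ∉ J b → κ y k = y k) : TileIff Λ ρ w κ := by
  refine ⟨fun y hy => ?_, fun m z ht y hy => ?_⟩
  · by_cases h : ∃ b, y ∈ K b
    · obtain ⟨b, hb⟩ := h
      exact hsub b (hon b y hb).1
    · push Not at h
      rw [hoff y hy h]
      exact hy
  · by_cases h : ∃ b, y ∈ K b
    · obtain ⟨b, hb⟩ := h
      obtain ⟨h1, h2⟩ := hon b y hb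
      exact ⟨hsat b m z ht _ h1 _ hb fun k hk => (h2 k hk).symm, hsat b m z ht _ hb _ h1 h2⟩
    · push Not at h
      rw [hoff y hy h]

/-- the identity off the boxes; a composition of one-directional maps in a box -/
theorem tileIff_glue {ι : Type*} {κ : V → V} {f : ι → V → V} (K : ι → Set V)
    (J : ι → Set (Fin 3)) (hsat : ∀ b, Sat ρ w (K b) (J b)) (hsub : ∀ b, K b ⊆ Λ)
    (hS : ∀ b, Supp (f b) (K b)) (hne : ∀ b y k, k ∉ J b → f b y k = y k)
    (hκ : ∀ b, ∀ y ∈ K b, κ y = f b y) (hκ' : ∀ y, (∀ b, y ∉ K b) → κ y = y) :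
    TileIff Λ ρ w κ :=
  tileIff_of_boxes K J hsat hsub (fun y _ h => hκ' y h) fun b y hy => by
    rw [hκ b y hy]
    exact ⟨(hS b).maps hy, hne b y⟩

variable {ι : Type*}

/-- the staircase map of a family -/
theorem tileIff_isS {F : BFam 3 ι Λ} {S : ConHomeo Λ Λ} (hS : F.IsS S)
    (hsat : ∀ b, Sat ρ w (F.B b).K {(F.B b).j}) : TileIff Λ ρ w S.toFun :=
  tileIff_of_boxes (fun b => (F.B b).K) (fun b => {(F.B b).j}) hsat F.sub
    (fun y _ h => hS.off y h) fun b y hy => ⟨hS.mem hy, fun k hk => hS.ne hy (by simpa using hk)⟩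

/-- the inverse of a homeomorphism which preserves the tiles -/
theorem TileIff.symm {Φ : ConHomeo Λ Λ} (h : TileIff Λ ρ w Φ.toFun) : TileIff Λ ρ w Φ.invFun := by
  refine ⟨Φ.mapsTo_inv, fun m z ht y hy => ?_⟩
  rw [← h.iff m z ht _ (Φ.mapsTo_inv hy), Φ.right_inv hy]

/-- the insertion maps of a family of boxes, glued -/
theorem tileIff_Q {κ : V → V} (B : ι → BX 3) (hsub : ∀ b, (B b).K ⊆ Λ)
    (hsat : ∀ b, Sat ρ w (B b).K {(B b).j}) (hκ : ∀ b, ∀ y ∈ (B b).K, κ y = (B b).Q y)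
    (hκ' : ∀ y, (∀ b, y ∉ (B b).K) → κ y = y) : TileIff Λ ρ w κ :=
  tileIff_glue (fun b => (B b).K) (fun b => {(B b).j}) hsat hsub (fun b => (B b).suppQ)
    (fun b y k hk => (B b).Q_ne (by simpa using hk) y) hκ hκ'

end Abs

section Geo

variable {Λ : Set V} {ρ : V → ℝ} {v : V} {K : BoxCx Λ v} {S : Rad K} {W : Wid K S} {B : Boxes W}
  {G : Geo B} {y y' : V}

/-- saturation for the cubes -/
theorem sat_of_cube (C : Cells ρ v K) {X : Set V} {J : Set (Fin 3)}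
    (h : ∀ q, ∀ y ∈ X, ∀ y' ∈ X, y ∈ K.cube q → ∀ k ∈ J, K.lo q k ≤ y' k ∧ y' k ≤ K.hi q k) :
    Sat ρ v X J := by
  intro m z ht y hy y' hy' hk hm
  obtain ⟨q, hq, -⟩ := exists_tile_of C ht
  rw [← hq] at hm ⊢
  have key : ∀ k, K.lo q k ≤ y' k ∧ y' k ≤ K.hi q k := by
    intro k
    by_cases hkJ : k ∈ J
    · exact h q y hy y' hy' hm k hkJ
    · rw [hk k hkJ]
      exact ⟨hm.1 k, hm.2 k⟩
  exact ⟨fun k => (key k).1, fun k => (key k).2⟩

theorem sq_sub_cube {s : K.S} {q : K.T} (h : q = K.sm s ∨ q = K.sp s) : K.sq s ⊆ K.cube q := by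
  intro x hx
  have h1 : x ∈ Icc (K.slo s) (K.shi s) := hx
  rw [K.s_eq s] at h1
  rcases h with rfl | rfl
  · exact h1.1
  · exact h1.2

theorem cube_of_sq {s : K.S} {q : K.T} (h : q = K.sm s ∨ q = K.sp s) (k : Fin 3) :
    K.lo q k ≤ K.slo s k ∧ K.shi s k ≤ K.hi q k := by
  have h1 : K.slo s ∈ K.sq s := ⟨le_rfl, fun j => _root_.P073.TM.slo_le_shi K s j⟩
  have h2 : K.shi s ∈ K.sq s := ⟨fun j => _root_.P073.TM.slo_le_shi K s j, le_rfl⟩
  exact ⟨(sq_sub_cube h h1).1 k, (sq_sub_cube h h2).2 k⟩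

/-- **boxes of round T** -/
theorem sat_TB (C : Cells ρ v K) (G : Geo B) (b : TBx K) : Sat ρ v (G.TB false b) {b.ax} := by
  refine sat_of_cube C fun q y hy y' hy' hq k hk => ?_
  rw [mem_singleton_iff] at hk
  subst hk
  rcases b with e | h
  · have hsub := Geo.tile_TB_inl hy hq
    have h1 := (hsub (_root_.P073.TM.wa_mem K e)).1 (K.dir e)
    have h2 := (hsub (_root_.P073.TM.wb_mem K e)).2 (K.dir e)
    rw [Geo.mem_inl] at hy'
    have h3 := G.be_pos (K.a e)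
    have h4 := G.be_pos (K.b e)
    show K.lo q (K.dir e) ≤ y' (K.dir e) ∧ y' (K.dir e) ≤ K.hi q (K.dir e)
    constructor <;> linarith [hy'.1.1, hy'.1.2]
  · have hq' := Geo.tile_TB_inr hy hq
    have h1 := cube_of_sq hq' h.l
    rw [Geo.mem_inr] at hy'
    have h2 := abs_le.1 hy'.1
    have h3 := Geo.hang_far S h
    have h4 := G.be_r h.i
    have h5 := G.be_pos h.i
    show K.lo q h.l ≤ y' h.l ∧ y' h.l ≤ K.hi q h.l
    constructor <;> linarith

/-- **plates** -/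
theorem sat_PB (C : Cells ρ v K) (G : Geo B) {c : ℝ} (hc : 1 / 2 ≤ c) (s : K.S) :
    Sat ρ v (G.PB c s) {k | k ≠ K.nrm s} := by
  refine sat_of_cube C fun q y hy y' hy' hq k hk => ?_
  have h1 := cube_of_sq (Geo.tile_PB hc hy hq) k
  have h2 := (Geo.mem_PB.1 hy').1 k hk
  have h3 : 0 ≤ c * G.p s := mul_nonneg (by linarith) (Geo.p_pos s).le
  constructor <;> linarith

/-- **the staircase map of round T** -/
theorem tileIff_ST (C : Cells ρ v K) {G : Geo B} {L : TLev G} (P : TPar L) {Φ : ConHomeo Λ Λ}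
    (hΦ : P.fam.IsS Φ) : TileIff Λ ρ v Φ.toFun ∧ TileIff Λ ρ v Φ.invFun := by
  have h : TileIff Λ ρ v Φ.toFun :=
    tileIff_isS hΦ fun b => (sat_TB C G b).mono (L.K_sub b) Subset.rfl
  exact ⟨h, h.symm⟩

/-- **the insertion map of round T** -/
theorem tileIff_QT (C : Cells ρ v K) {G : Geo B} (L : TLev G) {κ : V → V}
    (hκ : ∀ b, ∀ y ∈ (L.bx b).K, κ y = (L.bx b).Q y) (hκ' : ∀ y, (∀ b, y ∉ (L.bx b).K) → κ y = y) :
    TileIff Λ ρ v κ :=
  tileIff_Q L.bx (fun b => (L.K_sub b).trans (G.TB_sub b))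
    (fun b => (sat_TB C G b).mono (L.K_sub b) Subset.rfl) hκ hκ'

/-- **the last map of round P** -/
theorem tileIff_kill (C : Cells ρ v K) (hρ : SizeFn Λ ρ) {F : Fac K} {Φ : ConHomeo Λ Λ}
    (hΦ : IsKill W F Φ) : TileIff Λ ρ v Φ.toFun := by
  refine TileIff.of_homeo hρ Φ fun m z ht y hy => ?_
  obtain ⟨q, hq, -⟩ := exists_tile_of C ht
  rw [← hq] at hy ⊢
  rw [← hΦ.cube q]
  exact ⟨y, hy, rfl⟩

end Geo

end Vale.Agent.P073.H581
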