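import Vale.Agent.P073.H581.T5a
import Vale.Agent.P073.H196.Croft4
import Vale.Agent.P073.H471.Stage

/-!
# P073, ROUNDS T and P: the sharp estimate in the full zone, for one coordinate

`y` = one coordinate of the new curve, `k (y t) = z (γ t)` with `γ` monotone; `σ` = staircase.
-/

open Set Metric Topology Filter MeasureTheory
open scoped ENNReal

namespace Vale.Agent.P073.H581

open _root_.P073 _root_.P073.H236 _root_.P073.Croft
open Vale.Agent.P073.St (V)
open _root_.P073.Net (len)

/-- **sharp form, one coordinate** -/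
theorem evar_full1 {k σ y z γ : ℝ → ℝ} {L Wd : Set ℝ} {ω ε : ℝ} (hε : 0 ≤ ε) (hL : IsClosed L)
    (kc : Continuous k) (km : Monotone k) (σc : Continuous σ) (σm : Monotone σ)
    (hσ : ∀ s ∈ Wd, ∀ t ∈ Wd, s ≤ t → (∀ a ∈ L, a ∉ Icc (k s) (k t)) →
      σ t - σ s ≤ ε * (k t - k s))
    (hfl : ∀ s t, s < t → k s = k t → σ t - σ s ≤ ω)
    (γm : MonotoneOn γ (Icc 0 1)) (γc : ContinuousOn γ (Icc 0 1))
    (hy : ContinuousOn y (Icc 0 1)) (hyW : ∀ t ∈ Icc (0:ℝ) 1, y t ∈ Wd)
    (hk : ∀ t ∈ Icc (0:ℝ) 1, k (y t) = z (γ t)) (X : Finset ℝ)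
    (hX : ∀ t ∈ Icc (0:ℝ) 1, z (γ t) ∈ L → γ t ∈ X)
    (hinj : ∀ x ∈ X, InjOn y (Icc 0 1 ∩ γ ⁻¹' {x})) :
    eVariationOn (fun t => σ (y t)) (Icc 0 1) ≤ X.card * ENNReal.ofReal ω +
      ENNReal.ofReal ε * eVariationOn (fun t => z (γ t)) (Icc 0 1) := by
  have hG : ContinuousOn (fun t => σ (y t)) (Icc 0 1) := σc.comp_continuousOn hy
  have key := evar_le_cross (Finset.univ : Finset Unit) (Z := fun _ s => ε * z s) γm γc
    (G := fun t => σ (y t)) hG X (fun _ => ENNReal.ofReal ω) ?_ ?_
  · refine key.trans (add_le_add ?_ ?_)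
    · rw [Finset.sum_const, nsmul_eq_mul]
    · rw [Finset.univ_unique, Finset.sum_singleton]
      exact evar_smul ε hε _ _
  · intro x hx
    have hin := hinj x hx
    rcases (Icc (0:ℝ) 1 ∩ γ ⁻¹' {x}).eq_empty_or_nonempty with he | hne
    · rw [he]; simp
    obtain ⟨p, q, hpq, hI⟩ := fibre_Icc γm γc hne
    rw [hI] at hin ⊢
    have hsub : Icc p q ⊆ Icc (0:ℝ) 1 := by rw [← hI]; exact inter_subset_left
    have hv : ∀ t ∈ Icc p q, k (y t) = z x := fun t ht => by
      have h1 : t ∈ Icc (0:ℝ) 1 ∩ γ ⁻¹' {x} := by rw [hI]; exact ht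
      rw [hk t h1.1, show γ t = x from h1.2]
    have hyc := hy.mono hsub
    have hincr : ∀ t ∈ Icc p q, ∀ t' ∈ Icc p q, y t ≤ y t' →
        eVariationOn σ (Icc (y t) (y t')) ≤ ENNReal.ofReal ω := by
      intro t ht t' ht' hle
      rcases hle.lt_or_eq with hlt | heq
      · have h := (σm.monotoneOn (Icc (y t) (y t'))).eVariationOn_eq
          (left_mem_Icc.2 hle) (right_mem_Icc.2 hle)
        rw [inter_self] at h
        exact h.le.trans (ENNReal.ofReal_le_ofReal
          (hfl _ _ hlt ((hv t ht).trans (hv t' ht').symm)))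
      · rw [heq, Icc_self]; simp
    have hcomp : eVariationOn (fun t => σ (y t)) (Icc p q) =
        eVariationOn (σ ∘ y) (Icc p q) := rfl
    rw [hcomp]
    rcases hyc.strictMonoOn_of_injOn_Icc' hpq hin with hm | hm
    · refine (eVariationOn.comp_le_of_monotoneOn _ _ hm.monotoneOn
        (t := Icc p q) (s := Icc (y p) (y q)) ?_).trans
        (hincr p (left_mem_Icc.2 hpq) q (right_mem_Icc.2 hpq)
          (hm.monotoneOn (left_mem_Icc.2 hpq) (right_mem_Icc.2 hpq) hpq))
      intro t ht
      exact ⟨hm.monotoneOn (left_mem_Icc.2 hpq) ht ht.1,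
        hm.monotoneOn ht (right_mem_Icc.2 hpq) ht.2⟩
    · refine (eVariationOn.comp_le_of_antitoneOn _ _ hm.antitoneOn
        (t := Icc p q) (s := Icc (y q) (y p)) ?_).trans
        (hincr q (right_mem_Icc.2 hpq) p (left_mem_Icc.2 hpq)
          (hm.antitoneOn (left_mem_Icc.2 hpq) (right_mem_Icc.2 hpq) hpq))
      intro t ht
      exact ⟨hm.antitoneOn ht (right_mem_Icc.2 hpq) ht.2,
        hm.antitoneOn (left_mem_Icc.2 hpq) ht ht.1⟩
  · intro t ht htX
    have h0 : z (γ t) ∉ L := fun h => htX (hX t ht h)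
    obtain ⟨δ, hδ, hball⟩ := Metric.isOpen_iff.1 hL.isOpen_compl _ h0
    have hZc : ContinuousOn (fun t => k (y t)) (Icc 0 1) := kc.comp_continuousOn hy
    have h1 : ∀ᶠ t' in 𝓝[Icc 0 1] t, dist (k (y t')) (k (y t)) < δ :=
      Metric.tendsto_nhds.1 (hZc t ht) δ hδ
    have e0 : k (y t) = z (γ t) := hk t ht
    filter_upwards [h1, self_mem_nhdsWithin] with t' h2 ht'
    have e1 : k (y t') = z (γ t') := hk t' ht'
    rw [Finset.univ_unique, Finset.sum_singleton]
    show edist (σ (y t)) (σ (y t')) ≤ edist (ε * z (γ t)) (ε * z (γ t'))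
    rw [edist_dist, edist_dist, Real.dist_eq, Real.dist_eq,
      ← mul_sub, abs_mul, abs_of_nonneg hε, ← e0, ← e1]
    refine ENNReal.ofReal_le_ofReal ?_
    have hno : ∀ a ∈ L, a ∉ uIcc (k (y t)) (k (y t')) := by
      intro a ha h4
      have h5 : a ∈ Metric.ball (z (γ t)) δ := by
        rw [Metric.mem_ball]
        refine lt_of_le_of_lt ?_ h2
        rw [Real.dist_eq, Real.dist_eq, ← e0]
        exact abs_sub_left_of_mem_uIcc h4
      exact hball h5 ha
    rcases le_total (y t) (y t') with h | h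
    · rw [uIcc_of_le (km h)] at hno
      have h3 := hσ _ (hyW t ht) _ (hyW t' ht') h hno
      rw [abs_sub_comm, abs_of_nonneg (sub_nonneg.2 (σm h)),
        abs_sub_comm (k (y t)), abs_of_nonneg (sub_nonneg.2 (km h))]
      exact h3
    · rw [uIcc_of_ge (km h)] at hno
      have h3 := hσ _ (hyW t' ht') _ (hyW t ht) h hno
      rw [abs_of_nonneg (sub_nonneg.2 (σm h)), abs_of_nonneg (sub_nonneg.2 (km h))]
      exact h3

section lvs

variable {N : ℕ} {a : ℕ → ℝ} {c al be e : ℝ}

/-- **the staircase in the window, between two levels** -/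
theorem sm_sharp (h : Lvs N a c al be) (he : 0 < e) (heo : 2 * e < stp N al be) {s t : ℝ}
    (hs : s ∈ Icc al be) (ht : t ∈ Icc al be) (hst : s ≤ t)
    (hno : ∀ b ∈ (h.L : Set ℝ), b ∉ Icc (qm h.L c s) (qm h.L c t)) :
    sm N a c al be al (stp N al be) e t - sm N a c al be al (stp N al be) e s ≤
      e / c * (qm h.L c t - qm h.L c s) := by
  have hc := h.c0
  have h1 := abs_sm_sub_le_win h he heo ht hs
  have hfl : ∀ k < N, fl c (a k) t = fl c (a k) s := by
    intro k hk
    have ha : a k ∈ h.L := h.mem_L.2 ⟨k, hk, rfl⟩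
    have h2 := hno (a k) (Finset.mem_coe.2 ha)
    rw [mem_Icc, not_and_or, not_le, not_le] at h2
    rcases h2 with h2 | h2
    · have h3 : a k + c < s := by
        by_contra hcon
        push Not at hcon
        have := qm_monotone hc.le h.sepd hcon
        rw [qm_flat hc.le h.sepd ha (t := a k + c) (by
          rw [add_sub_cancel_left, abs_of_nonneg hc.le])] at this
        linarith
      rw [fl_of_ge hc.le h3.le, fl_of_ge hc.le (h3.le.trans hst)]
    · have h3 : t < a k - c := by
        by_contra hcon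
        push Not at hcon
        have := qm_monotone hc.le h.sepd hcon
        rw [qm_flat hc.le h.sepd ha (t := a k - c) (by
          rw [show a k - c - a k = -c by ring, abs_neg, abs_of_nonneg hc.le])] at this
        linarith
      rw [fl_of_le h3.le, fl_of_le (hst.trans h3.le)]
  have h0 : ∑ k ∈ Finset.range N, |fl c (a k) t - fl c (a k) s| = 0 := by
    refine Finset.sum_eq_zero fun k hk => ?_
    rw [hfl k (Finset.mem_range.1 hk), sub_self, abs_zero]
  rw [h0, mul_zero, zero_add, abs_of_nonneg (sub_nonneg.2 hst)] at h1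
  refine (le_abs_self _).trans (h1.trans ?_)
  have h2 := expd_qm hc.le h.sepd s t hst hno
  gcongr

/-- the increment of the staircase over a flat -/
theorem sm_flat (h : Lvs N a c al be) (he : 0 < e) (heo : 2 * e < stp N al be) {s t : ℝ}
    (hst : s < t) (hk : qm h.L c s = qm h.L c t) :
    sm N a c al be al (stp N al be) e t - sm N a c al be al (stp N al be) e s ≤
      stp N al be := by
  have hc := h.c0
  have hL : qm h.L c s ∈ h.L := by
    by_contra hcon
    exact hst.ne (qm_inj hc h.sepd hk hcon)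
  have h1 := (qm_eq_iff hc h.sepd hL s).1 rfl
  have h2 := (qm_eq_iff hc h.sepd hL t).1 hk.symm
  obtain ⟨k, hk', hke⟩ := h.mem_L.1 hL
  rw [← hke] at h1 h2
  have h3 : t - s ≤ 2 * c := by linarith [h1.1, h2.2]
  have hfirst := h.first_le hk'
  have hlast := h.le_last hk'
  have hs : s ∈ Icc al be := ⟨by linarith [h1.1], by linarith [h1.2]⟩
  have ht : t ∈ Icc al be := ⟨by linarith [h2.1], by linarith [h2.2]⟩
  have h5 := abs_sm_sub_band h he heo ht hs hk' (c := c)
    (abs_le.2 ⟨by linarith [h2.1], by linarith [h2.2]⟩)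
    (abs_le.2 ⟨by linarith [h1.1], by linarith [h1.2]⟩)
  rw [abs_of_nonneg (sub_nonneg.2 hst.le)] at h5
  have h6 : 0 ≤ stp N al be / (2 * c) := by
    have := four_mul_le_stp h
    apply div_nonneg <;> linarith
  have h7 := mul_le_mul_of_nonneg_left h3 h6
  have : stp N al be / (2 * c) * (2 * c) = stp N al be := by field_simp
  rw [this] at h7
  exact (le_abs_self _).trans (h5.trans h7)

end lvs

/-- the integral of the derivative is at most the variation -/
theorem varIn_le_evar {q : ℝ → V} {a b : ℝ} (hab : a ≤ b) (hq : ConicalOn q (Icc a b))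
    (i : Fin 3) {P : Set V} (hP : Convex ℝ P) :
    varIn q i P a b ≤ eVariationOn (fun t => q t i) (Icc a b) := by
  have piece : ∀ x y : ℝ, x ≤ y → ∀ w : V, (∀ s ∈ Icc x y, q s = q x + (s - x) • w) →
      varIn q i P x y ≤ eVariationOn (fun t => q t i) (Icc x y) := by
    intro x y hxy w hw
    rw [piece_varIn hw hP]
    have h1 : volume ((q ⁻¹' P) ∩ Ioc x y) ≤ ENNReal.ofReal (y - x) := by
      rw [← Real.volume_Ioc]
      exact measure_mono inter_subset_right
    have h2 : edist (q x i) (q y i) ≤ eVariationOn (fun t => q t i) (Icc x y) :=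
      eVariationOn.edist_le (fun t => q t i) (left_mem_Icc.2 hxy) (right_mem_Icc.2 hxy)
    refine le_trans ?_ h2
    have h3 : q y i = q x i + (y - x) * w i := by
      rw [hw y (right_mem_Icc.2 hxy)]; simp
    rw [ofReal_abs_edist, h3, show q x i - (q x i + (y - x) * w i) = -((y - x) * w i) by ring,
      abs_neg, abs_mul, abs_of_nonneg (sub_nonneg.2 hxy), mul_comm (y - x),
      ENNReal.ofReal_mul (abs_nonneg _), ← Real.enorm_eq_ofReal_abs]
    gcongr
  refine _root_.P073.Net.icc_chain (P := fun x y => varIn q i P x y ≤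
    eVariationOn (fun t => q t i) (Icc x y)) hab ?_ ?_ ?_ ?_
  · exact piece a a le_rfl 0 fun s hs => by
      rw [Icc_self, mem_singleton_iff] at hs
      subst hs; simp
  · intro x y z _ hxy hyz _ h1 h2
    rw [varIn_add q i P hxy hyz]
    refine (add_le_add h1 h2).trans ?_
    have h3 := eVariationOn.add_le_union (fun t => q t i) (s := Icc x y) (t := Icc y z)
      (fun u hu v hv => hu.2.trans hv.1)
    refine h3.trans (eVariationOn.mono _ (union_subset (Icc_subset_Icc_right hyz)
      (Icc_subset_Icc_left hxy)))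
  · intro x hx hxb
    obtain ⟨r, hr, hrb, w, hw⟩ := _root_.P073.Net.conical_right' hq hx hxb
    exact ⟨r, hr, hrb, piece x (x + r) (by linarith) w hw⟩
  · intro x hx hax
    obtain ⟨r, hr, hra, w, hw⟩ := _root_.P073.Net.conical_left' hq hx hax
    refine ⟨r, hr, hra, fun y hy => piece y x hy.2.le (w := w) ?_⟩
    intro s hs
    rw [hw s ⟨hy.1.le.trans hs.1, hs.2⟩, hw y ⟨hy.1.le, hy.2.le⟩]
    module

/-- a coordinate against the length -/
theorem evar_coord_le_len (q : ℝ → V) (s : Set ℝ) (l : Fin 3) :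
    eVariationOn (fun t => q t l) s ≤ len q s :=
  (evar_coord_le s l).trans (Vale.Agent.P073.H471.var_le_len q s)

end Vale.Agent.P073.H581
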