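import Vale.Agent.P073.H193.Edg
import Vale.Agent.P073.H244.CxMesh
import Vale.Agent.P073.TM907.Cells
import Vale.Agent.P073.KW720.Tiles
import Vale.Agent.P073.H579.Ins

/-!
# P073, A14.15 (OUT-CLAUSES): close, image, tile

* `TileIff Λ ρ w κ`: `κ` preserves every tile, together with its complement;
* `strat`: the images of the strata (faces, edges) of a protected cell are contained in all tiles
  which meet their relative interiors;
* `Near`: comparable points of the target.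
-/

open Set Metric Topology Filter

namespace Vale.Agent.P073.H581

open Vale.Agent.P073.St (V)
open _root_.P073 (ConHomeo ConBall)
open _root_.P073.Net (dyc dyo IsTile SizeFn)
open _root_.P073.KW
open _root_.P073.H579 (Pre)
open Vale.Agent.P073.H73

/-! ### Tiles -/

section Tiles

variable {Λ : Set V} {ρ : V → ℝ} {w : V}

/-- `κ` preserves every tile and its complement -/
structure TileIff (Λ : Set V) (ρ : V → ℝ) (w : V) (κ : V → V) : Prop where
  maps : MapsTo κ Λ Λ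
  iff : ∀ m z, IsTile ρ w m z → ∀ y ∈ Λ, (κ y ∈ dyc w m z ↔ y ∈ dyc w m z)

theorem TileIff.id' : TileIff Λ ρ w (fun y => y) := ⟨fun _ h => h, fun _ _ _ _ _ => Iff.rfl⟩

theorem TileIff.comp {κ κ' : V → V} (h : TileIff Λ ρ w κ) (h' : TileIff Λ ρ w κ') :
    TileIff Λ ρ w (κ ∘ κ') :=
  ⟨h.maps.comp h'.maps, fun m z ht y hy =>
    (h.iff m z ht _ (h'.maps hy)).trans (h'.iff m z ht y hy)⟩

theorem interior_dyc_sub (m : ℕ) (z : Fin 3 → ℤ) : dyo w m z ⊆ interior (dyc w m z) :=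
  interior_maximal (fun _ hx k => ⟨(hx k).1.le, (hx k).2.le⟩) (isOpen_dyo w m z)

/-- closed tile is the closure of the open one -/
theorem dyc_sub_closure (m : ℕ) (z : Fin 3 → ℤ) : dyc w m z ⊆ closure (dyo w m z) := by
  intro x hx
  rw [mem_closure_iff_nhds]
  exact fun U hU => open_meets_dyo hx hU

/-- a homeomorphism which maps every tile into itself preserves the tiles -/
theorem TileIff.of_homeo (hρ : SizeFn Λ ρ) (Φ : ConHomeo Λ Λ)
    (h : ∀ m z, IsTile ρ w m z → ∀ y ∈ dyc w m z, Φ.toFun y ∈ dyc w m z) :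
    TileIff Λ ρ w Φ.toFun := by
  refine ⟨Φ.mapsTo, fun m z ht y hy => ⟨fun h1 => ?_, h m z ht y⟩⟩
  -- the image of the tile is the tile
  have himg : dyc w m z ⊆ Φ.toFun '' dyc w m z := by
    have hcl : IsClosed (Φ.toFun '' dyc w m z) :=
      ((isCompact_dyc w m z).image_of_continuousOn
        (Φ.cont.mono (tile_subset hρ ht))).isClosed
    refine (dyc_sub_closure m z).trans (closure_minimal ?_ hcl)
    intro p hp
    have hpΛ : p ∈ Λ := tile_subset hρ ht fun k => ⟨(hp k).1.le, (hp k).2.le⟩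
    obtain ⟨m', z', ht', hq⟩ := _root_.P073.KW.exists_tile (v := w) hρ (Φ.mapsTo_inv hpΛ)
    have h2 := h m' z' ht' _ hq
    rw [Φ.right_inv hpΛ] at h2
    have heq : (m, z) = (m', z') := by
      by_contra hne
      exact Set.disjoint_left.1 (disjoint_dyo_dyc ht ht' hne) hp h2
    obtain ⟨rfl, rfl⟩ := Prod.mk.inj heq
    exact ⟨_, hq, Φ.right_inv hpΛ⟩
  obtain ⟨y', hy', he⟩ := himg h1
  have := Φ.injOn (tile_subset hρ ht hy') hy he
  rwa [← this]

/-- a box which is a union of tiles -/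
structure TBox (Λ : Set V) (ρ : V → ℝ) (w : V) (B : Set V) : Prop where
  sub : B ⊆ Λ
  reg : B ⊆ closure (interior B)
  closed : IsClosed B
  tile : ∀ m z, IsTile ρ w m z → dyc w m z ⊆ B ∨ Disjoint (dyo w m z) B

theorem TBox.exists_tile {B : Set V} (hρ : SizeFn Λ ρ) (hB : TBox Λ ρ w B) {y : V} (hy : y ∈ B) :
    ∃ m z, IsTile ρ w m z ∧ y ∈ dyc w m z ∧ dyc w m z ⊆ B := by
  obtain ⟨m, z, ht, h1, p, hp, hp'⟩ :=
    _root_.P073.TM.exists_tile_near (v := w) hρ (hB.sub hy) (hB.reg hy)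
  refine ⟨m, z, ht, h1, ?_⟩
  rcases hB.tile m z ht with h | h
  · exact h
  · obtain ⟨q, hq, hq'⟩ := open_meets_dyo hp' (isOpen_interior.mem_nhds hp)
    exact absurd (interior_subset hq) (Set.disjoint_left.1 h hq')

theorem TileIff.mem_iff {κ : V → V} {B : Set V} (hρ : SizeFn Λ ρ) (hκ : TileIff Λ ρ w κ)
    (hB : TBox Λ ρ w B) {y : V} (hy : y ∈ Λ) : κ y ∈ B ↔ y ∈ B := by
  constructor
  · intro h
    obtain ⟨m, z, ht, h1, h2⟩ := hB.exists_tile hρ h
    exact h2 ((hκ.iff m z ht y hy).1 h1)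
  · intro h
    obtain ⟨m, z, ht, h1, h2⟩ := hB.exists_tile hρ h
    exact h2 ((hκ.iff m z ht y hy).2 h1)

theorem TileIff.image_homeo {B : Set V} (hρ : SizeFn Λ ρ) (Φ : ConHomeo Λ Λ)
    (hκ : TileIff Λ ρ w Φ.toFun) (hB : TBox Λ ρ w B) : Φ.toFun '' B = B := by
  apply Subset.antisymm
  · rintro _ ⟨y, hy, rfl⟩
    exact (hκ.mem_iff hρ hB (hB.sub hy)).2 hy
  · intro y hy
    refine ⟨Φ.invFun y, ?_, Φ.right_inv (hB.sub hy)⟩
    rw [← hκ.mem_iff hρ hB (Φ.mapsTo_inv (hB.sub hy)), Φ.right_inv (hB.sub hy)]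
    exact hy

variable {E : Type*} [NormedAddCommGroup E] [NormedSpace ℝ E] {Ω : Set E}

/-- insertion, image of a cell -/
theorem pre_eq_of_tbox {κ : V → V} {B : Set V} (hρ : SizeFn Λ ρ) (hκ : TileIff Λ ρ w κ)
    (hB : TBox Λ ρ w B) {h : ConHomeo Ω Λ} {X : Set E} (hX : h.toFun '' X = B) :
    Pre κ Λ h X = B := by
  ext y
  constructor
  · rintro ⟨h1, h2⟩
    rw [mem_preimage, hX] at h2
    exact (hκ.mem_iff hρ hB h1).1 h2
  · intro h1
    refine ⟨hB.sub h1, ?_⟩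
    rw [mem_preimage, hX]
    exact (hκ.mem_iff hρ hB (hB.sub h1)).2 h1

/-- insertion, strata in tiles -/
theorem pre_sub_tile {κ : V → V} (hκ : TileIff Λ ρ w κ) {h : ConHomeo Ω Λ} {X : Set E} {m : ℕ}
    {z : Fin 3 → ℤ} (ht : IsTile ρ w m z) (hX : h.toFun '' X ⊆ dyc w m z) :
    Pre κ Λ h X ⊆ dyc w m z := fun y hy => (hκ.iff m z ht y hy.1).1 (hX hy.2)

end Tiles

/-! ### Strata of the protected cells -/

section Strat

variable {Ω Λ : Set V} {ρ : V → ℝ} {w : V} {M : Mesh Ω} {h : ConHomeo Ω Λ} {P : Set M.ι}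

theorem tbox_of_aligned (hA : Aligned w ρ M h.toFun P) {i : M.ι} (hi : i ∈ P) :
    TBox Λ ρ w (h.toFun '' M.Q i) := by
  obtain ⟨lo, hi', hlt, he⟩ := hA.box i hi
  refine ⟨?_, ?_, ?_, fun m z ht => hA.tile i hi m z ht⟩
  · rintro _ ⟨x, hx, rfl⟩; exact h.mapsTo (M.sub i hx)
  · have hne : (interior (Icc lo hi')).Nonempty := by
      rw [← pi_univ_Icc, interior_pi_set finite_univ]
      refine ⟨fun k => (lo k + hi' k) / 2, fun k _ => ?_⟩
      simp only [interior_Icc]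
      constructor <;> linarith [hlt k]
    rw [he]
    have hc := (convex_Icc lo hi' (𝕜 := ℝ)).closure_interior_eq_closure_of_nonempty_interior hne
    rw [hc]; exact subset_closure
  · rw [he]; exact isClosed_Icc

theorem eq_of_combo {a b c s t : ℝ} (hs : 0 < s) (ht : 0 < t) (hst : s + t = 1)
    (h : c = s * a + t * b) (ha : c ≤ a) (hb : c ≤ b) : a = c ∧ b = c := by
  have h1 : s * (a - c) + t * (b - c) = 0 := by
    have : s * (a - c) + t * (b - c) = s * a + t * b - (s + t) * c := by ring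
    rw [this, hst, ← h]; ring
  have h2 : 0 ≤ s * (a - c) := mul_nonneg hs.le (by linarith)
  have h3 : 0 ≤ t * (b - c) := mul_nonneg ht.le (by linarith)
  have h4 : s * (a - c) = 0 := by linarith
  have h5 : t * (b - c) = 0 := by linarith
  constructor
  · rcases mul_eq_zero.1 h4 with h | h <;> linarith
  · rcases mul_eq_zero.1 h5 with h | h <;> linarith

theorem eq_of_combo' {a b c s t : ℝ} (hs : 0 < s) (ht : 0 < t) (hst : s + t = 1)
    (h : c = s * a + t * b) (ha : a ≤ c) (hb : b ≤ c) : a = c ∧ b = c := by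
  obtain ⟨h1, h2⟩ := eq_of_combo (a := -a) (b := -b) (c := -c) hs ht hst (by rw [h]; ring)
    (by linarith) (by linarith)
  exact ⟨by linarith, by linarith⟩

theorem mem_frontier_image (hΩ : IsOpen Ω) {Q : Set V} (hQ : Q ⊆ Ω) (hQc : IsClosed Q) {x : V}
    (hx : x ∈ frontier Q) : h.toFun x ∈ frontier (h.toFun '' Q) := by
  rw [hQc.frontier_eq] at hx
  refine ⟨subset_closure ⟨x, hx.1, rfl⟩, fun h1 => hx.2 ?_⟩
  have h2 : {u ∈ Ω | h.toFun u ∈ interior (h.toFun '' Q)} ⊆ Q := by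
    rintro u ⟨hu, hu2⟩
    obtain ⟨q, hq, he⟩ := interior_subset hu2
    rwa [← h.injOn (hQ hq) hu he]
  have h3 : IsOpen {u ∈ Ω | h.toFun u ∈ interior (h.toFun '' Q)} :=
    h.cont.isOpen_inter_preimage hΩ isOpen_interior
  exact interior_maximal h2 h3 ⟨hQ hx.1, h1⟩

/-- all tiles which touch the boundary of a set have the same generation -/
def OneGen (ρ : V → ℝ) (w : V) (B : Set V) : Prop :=
  ∀ m z m' z', IsTile ρ w m z → IsTile ρ w m' z' → (dyc w m z ∩ frontier B).Nonempty →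
    (dyc w m' z' ∩ frontier B).Nonempty → m = m'

/-- **the strata lemma**: if the tiles at the boundary have one generation, an edge of a protected
cell, whose relative interior meets a tile, is mapped into the tile -/
theorem strat_edge (hΩ : IsOpen Ω) (hA : Aligned w ρ M h.toFun P) (E : H193.Edges M)
    (hρ : SizeFn Λ ρ) {i : M.ι} (hi : i ∈ P) (hgen : OneGen ρ w (h.toFun '' M.Q i))
    {e : E.ε} {k : M.κ} (hek : E.seg e ⊆ M.F k) (hk : M.F k ⊆ M.Q i) {x : V}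
    (hx : x ∈ openSegment ℝ (E.a e) (E.b e)) {m : ℕ} {z : Fin 3 → ℤ} (ht : IsTile ρ w m z)
    (hxt : h.toFun x ∈ dyc w m z) : h.toFun '' E.seg e ⊆ dyc w m z := by
  have hkfr := H244.face_subset_frontier M hk
  have hxe : x ∈ E.seg e := openSegment_subset_segment _ _ _ hx
  have hQc : IsClosed (M.Q i) := (M.poly i).cpt.isClosed
  -- a tile which contains the image of the face
  obtain ⟨p, hp⟩ : (intrinsicInterior ℝ (M.F k)).Nonempty :=
    Set.Nonempty.intrinsicInterior (H193.pgn_of_fat (M.fat k)).convex ⟨x, hek hxe⟩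
  have hpF : p ∈ M.F k := intrinsicInterior_subset hp
  obtain ⟨m', z', ht', hpt⟩ := _root_.P073.KW.exists_tile (v := w) hρ
    (h.mapsTo (M.sub i (hk hpF)))
  have hF := hA.one i hi k hk m' z' ht' ⟨_, ⟨p, hp, rfl⟩, hpt⟩
  have hxt' : h.toFun x ∈ dyc w m' z' := hF ⟨x, hek hxe, rfl⟩
  have hyfr := mem_frontier_image (h := h) hΩ (M.sub i) hQc (hkfr (hek hxe))
  obtain rfl : m = m' := hgen m z m' z' ht ht' ⟨_, hxt, hyfr⟩ ⟨_, hxt', hyfr⟩
  obtain ⟨A, hAe⟩ := hA.aff i hi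
  have hpow : (0:ℝ) < 2 ^ m := by positivity
  -- affine on the edge
  obtain ⟨s, t, hs, ht0, hst, hxs⟩ := hx
  have ha : E.a e ∈ M.F k := hek (left_mem_segment ℝ _ _)
  have hb : E.b e ∈ M.F k := hek (right_mem_segment ℝ _ _)
  have hcomb : ∀ u ∈ E.seg e, ∃ s t : ℝ, 0 ≤ s ∧ 0 ≤ t ∧ s + t = 1 ∧ ∀ j,
      h.toFun u j = s * h.toFun (E.a e) j + t * h.toFun (E.b e) j := by
    rintro u ⟨s, t, hs, ht, hst, rfl⟩
    refine ⟨s, t, hs, ht, hst, fun j => ?_⟩
    have hu : s • E.a e + t • E.b e ∈ M.F k := hek ⟨s, t, hs, ht, hst, rfl⟩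
    rw [hAe (hkfr hu), hAe (hkfr ha), hAe (hkfr hb)]
    have := Convex.combo_affine_apply (f := (A : V →ᵃ[ℝ] V)) (x := E.a e) (y := E.b e) hst
    have h2 := congrFun this j
    simpa using h2
  have hxj : ∀ j, h.toFun x j = s * h.toFun (E.a e) j + t * h.toFun (E.b e) j := by
    intro j
    rw [← hxs, hAe (hkfr (hek ⟨s, t, hs.le, ht0.le, hst, rfl⟩)), hAe (hkfr ha), hAe (hkfr hb)]
    have := Convex.combo_affine_apply (f := (A : V →ᵃ[ℝ] V)) (x := E.a e) (y := E.b e) hst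
    have h2 := congrFun this j
    simpa using h2
  have hta := hF ⟨_, ha, rfl⟩
  have htb := hF ⟨_, hb, rfl⟩
  rintro _ ⟨u, hu, rfl⟩ j
  obtain ⟨s', t', hs', ht'', hst', hu'⟩ := hcomb u hu
  rw [hu']
  have hxj' := hxj j
  obtain ⟨b1, b2⟩ := hxt j
  obtain ⟨c1, c2⟩ := hxt' j
  obtain ⟨d1, d2⟩ := hta j
  obtain ⟨e1, e2⟩ := htb j
  -- the relation between the two cubes
  have hz1 : z j ≤ z' j + 1 := by
    have : (z j : ℝ) / 2 ^ m ≤ (z' j + 1) / 2 ^ m := by linarith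
    rw [div_le_div_iff_of_pos_right hpow] at this
    exact_mod_cast this
  have hz2 : z' j ≤ z j + 1 := by
    have : (z' j : ℝ) / 2 ^ m ≤ (z j + 1) / 2 ^ m := by linarith
    rw [div_le_div_iff_of_pos_right hpow] at this
    exact_mod_cast this
  have hst1 : s' = 1 - t' := by linarith
  rcases lt_trichotomy (z j) (z' j) with hlt | heq | hgt
  · -- `z' = z + 1`
    have hz : z' j = z j + 1 := by omega
    rw [hz] at c1 c2 d1 d2 e1 e2
    push_cast at c1 c2 d1 d2 e1 e2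
    have hy : h.toFun x j = w j + (z j + 1) / 2 ^ m := by linarith
    rw [hy] at hxj'
    obtain ⟨ea, eb⟩ := eq_of_combo hs ht0 hst hxj' d1 e1
    rw [ea, eb, hst1]
    have : (z j : ℝ) / 2 ^ m ≤ (z j + 1) / 2 ^ m := by
      apply div_le_div_of_nonneg_right _ hpow.le; linarith
    constructor <;> nlinarith
  · rw [← heq] at d1 d2 e1 e2
    have hs0 : 0 ≤ 1 - t' := by linarith
    rw [hst1]
    constructor <;> nlinarith
  · have hz : z j = z' j + 1 := by omega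
    rw [hz] at b1 b2
    rw [hz]
    push_cast at b1 b2 ⊢
    have hy : h.toFun x j = w j + (z' j + 1) / 2 ^ m := by linarith
    rw [hy] at hxj'
    obtain ⟨ea, eb⟩ := eq_of_combo' hs ht0 hst hxj' d2 e2
    rw [ea, eb, hst1]
    have : ((z' j : ℝ) + 1) / 2 ^ m ≤ (z' j + 1 + 1) / 2 ^ m := by
      apply div_le_div_of_nonneg_right _ hpow.le; linarith
    constructor <;> nlinarith

end Strat

/-! ### Near points of the target -/

/-- `y` and `y'` are comparable -/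
structure Near (C : ℝ) (ρ : V → ℝ) (y y' : V) : Prop where
  dist : ‖y' - y‖ ≤ C * ρ y
  le : ρ y' ≤ C * ρ y
  ge : ρ y ≤ C * ρ y'

namespace Near

variable {Λ : Set V} {ρ : V → ℝ} {w : V} {C C' : ℝ} {y y' y'' : V}

theorem mono (h : Near C ρ y y') (hC : C ≤ C') (h0 : 0 ≤ ρ y) (h0' : 0 ≤ ρ y') :
    Near C' ρ y y' :=
  ⟨h.dist.trans (mul_le_mul_of_nonneg_right hC h0), h.le.trans (mul_le_mul_of_nonneg_right hC h0),
    h.ge.trans (mul_le_mul_of_nonneg_right hC h0')⟩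

theorem symm (h : Near C ρ y y') (hC : 1 ≤ C) (h0 : 0 ≤ ρ y) (h0' : 0 ≤ ρ y') :
    Near (C * C) ρ y' y := by
  refine ⟨?_, ?_, ?_⟩
  · rw [norm_sub_rev]
    refine h.dist.trans ?_
    rw [mul_assoc]
    exact mul_le_mul_of_nonneg_left h.ge (by linarith)
  · exact h.ge.trans (mul_le_mul_of_nonneg_right (by nlinarith) h0')
  · exact h.le.trans (mul_le_mul_of_nonneg_right (by nlinarith) h0)

theorem trans (h : Near C ρ y y') (h' : Near C' ρ y' y'') (hC : 1 ≤ C) (hC' : 1 ≤ C')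
    (h0 : 0 ≤ ρ y) (h2 : 0 ≤ ρ y'') : Near (2 * (C * C')) ρ y y'' := by
  refine ⟨?_, ?_, ?_⟩
  · have e : y'' - y = (y'' - y') + (y' - y) := by abel
    rw [e]
    refine (norm_add_le _ _).trans ?_
    have h1 : C' * ρ y' ≤ C' * (C * ρ y) := mul_le_mul_of_nonneg_left h.le (by linarith)
    have h3 : C * ρ y ≤ C * C' * ρ y := by
      apply mul_le_mul_of_nonneg_right _ h0; nlinarith
    nlinarith [h.dist, h'.dist]
  · have h1 : C' * ρ y' ≤ C' * (C * ρ y) := mul_le_mul_of_nonneg_left h.le (by linarith)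
    have h3 : 0 ≤ C * C' * ρ y := by positivity
    nlinarith [h'.le]
  · have h1 : C * ρ y' ≤ C * (C' * ρ y'') := mul_le_mul_of_nonneg_left h'.ge (by linarith)
    have h3 : 0 ≤ C * C' * ρ y'' := by positivity
    nlinarith [h.ge]

/-- two touching tiles -/
theorem of_tiles (hρ : SizeFn Λ ρ) {m m' : ℕ} {z z' : Fin 3 → ℤ} (ht : IsTile ρ w m z)
    (ht' : IsTile ρ w m' z') (hne : (dyc w m z ∩ dyc w m' z').Nonempty) (hy : y ∈ dyc w m z)
    (hy' : y' ∈ dyc w m' z') : Near 16 ρ y y' := by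
  obtain ⟨p, hp, hp'⟩ := hne
  obtain ⟨a1, a2⟩ := tile_bounds hρ ht hy
  obtain ⟨b1, b2⟩ := tile_bounds hρ ht hp
  obtain ⟨c1, c2⟩ := tile_bounds hρ ht' hp'
  obtain ⟨d1, d2⟩ := tile_bounds hρ ht' hy'
  have hd : ∀ {m : ℕ} {z : Fin 3 → ℤ} {x y : V}, x ∈ dyc w m z → y ∈ dyc w m z →
      ‖x - y‖ ≤ 1 / 2 ^ m := by
    intro m z x y hx hy
    rw [pi_norm_le_iff_of_nonneg (by positivity)]
    intro k
    have a := hx k
    have b := hy k
    have e : ((z k : ℝ) + 1) / 2 ^ m = z k / 2 ^ m + 1 / 2 ^ m := by rw [add_div]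
    rw [e] at a b
    rw [Real.norm_eq_abs, Pi.sub_apply, abs_le]
    constructor <;> linarith [a.1, a.2, b.1, b.2]
  have h4 : ∀ m : ℕ, (4:ℝ) / 2 ^ m = 4 * (1 / 2 ^ m) := fun m => by ring
  rw [h4] at a2 b2 c2 d2
  have h5 : (0:ℝ) < 1 / 2 ^ m := by positivity
  have h6 : (0:ℝ) < 1 / 2 ^ m' := by positivity
  refine ⟨?_, by linarith, by linarith⟩
  have e : y' - y = (y' - p) + (p - y) := by abel
  rw [e]
  refine (norm_add_le _ _).trans ?_
  have e1 := hd hy' hp'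
  have e2 := hd hp hy
  linarith

theorem of_tile (hρ : SizeFn Λ ρ) {m : ℕ} {z : Fin 3 → ℤ} (ht : IsTile ρ w m z)
    (hy : y ∈ dyc w m z) (hy' : y' ∈ dyc w m z) : Near 16 ρ y y' :=
  of_tiles hρ ht ht ⟨y, hy, hy⟩ hy hy'

/-- small distance -/
theorem of_dist (hρ : SizeFn Λ ρ) (h : ‖y' - y‖ ≤ ρ y / 2) (h0 : 0 ≤ ρ y) : Near 2 ρ y y' := by
  have h1 := hρ.lip y y'
  have h2 := hρ.lip y' y
  rw [norm_sub_rev] at h1
  exact ⟨by linarith, by linarith, by linarith⟩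

theorem of_tileIff (hρ : SizeFn Λ ρ) {κ : V → V} (hκ : TileIff Λ ρ w κ) (hy : y ∈ Λ) :
    Near 16 ρ y (κ y) := by
  obtain ⟨m, z, ht, h1⟩ := _root_.P073.KW.exists_tile (v := w) hρ hy
  exact of_tile hρ ht h1 ((hκ.iff m z ht y hy).2 h1)

theorem of_tileIff' (hρ : SizeFn Λ ρ) {κ : V → V} (hκ : TileIff Λ ρ w κ) (hy : y ∈ Λ) :
    Near 16 ρ (κ y) y := by
  obtain ⟨m, z, ht, h1⟩ := _root_.P073.KW.exists_tile (v := w) hρ hy
  exact of_tile hρ ht ((hκ.iff m z ht y hy).2 h1) h1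

/-- the conclusion -/
theorem close (hρ : SizeFn Λ ρ) (h : Near C ρ y y') (hC : 0 ≤ C) {m : ℕ} {z : Fin 3 → ℤ}
    (ht : IsTile ρ w m z) (hy : y ∈ dyc w m z) : ‖y' - y‖ ≤ 4 * C / 2 ^ m := by
  refine h.dist.trans ?_
  have h1 := (tile_bounds hρ ht hy).2
  calc C * ρ y ≤ C * (4 / 2 ^ m) := mul_le_mul_of_nonneg_left h1 hC
    _ = 4 * C / 2 ^ m := by ring

end Near

end Vale.Agent.P073.H581
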