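import Vale.Agent.P073.H581.Tve
import Vale.Agent.P073.H236.Clip

/-!
# P073, A14.11 (TVE), part 2: variation along edges, for vertical clip maps

`Y` is the new curve, `Z` the old one, `κ (Y t) = Z (γ t)` with `γ` monotone, `κ` locally equal to
vertical clip maps; `S` is locally a vertical clip map as well. Then the variation of the
coordinates of `S ∘ Y` is controlled by the number of crossings and the variation of `Z`.
-/

open Set Filter Topology
open scoped ENNReal

namespace Vale.Agent.P073.H581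

open _root_.P073 _root_.P073.H236

/-- `k` is expanding between two consecutive levels -/
def Expd (L : Set ℝ) (k : ℝ → ℝ) : Prop :=
  ∀ t t', t ≤ t' → (∀ a ∈ L, a ∉ Icc (k t) (k t')) → t' - t ≤ k t' - k t

/-- the inverse of a clip is `1`-Lipschitz off the levels -/
theorem abs_sub_le_cl {k : ℝ → ℝ} {L : Set ℝ} (hk : Monotone k) (hL : Expd L k)
    {m m' t t' : ℝ} (hm : 0 ≤ m) (hm' : 0 ≤ m')
    (hz : ∀ a ∈ L, a ∉ uIcc (cl k m t) (cl k m' t')) :
    |t - t'| ≤ |cl k m t - cl k m' t'| + |m - m'| := by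
  -- the ordered case
  have key : ∀ {m m' t t' : ℝ}, 0 ≤ m → 0 ≤ m' → t ≤ t' →
      (∀ a ∈ L, a ∉ uIcc (cl k m t) (cl k m' t')) →
      t' - t ≤ |cl k m' t' - cl k m t| + |m' - m| := by
    intro m m' t t' hm hm' ht hz
    have h0 := le_abs_self (cl k m' t' - cl k m t)
    have h1 := le_abs_self (m' - m)
    have h2 := neg_abs_le (m' - m)
    have hkt := hk ht
    have tri : ∀ {m t : ℝ}, 0 ≤ m → (cl k m t = t - m ∧ k t ≤ t - m) ∨
        (cl k m t = t + m ∧ t + m ≤ k t) ∨ (cl k m t = k t ∧ |k t - t| ≤ m) := by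
      intro m t hm
      rcases le_or_gt (|k t - t|) m with h | h
      · exact Or.inr (Or.inr ⟨cl_eq h, h⟩)
      · rcases lt_abs.1 h with h | h
        · refine Or.inr (Or.inl ⟨?_, by linarith⟩)
          unfold cl
          rw [min_eq_left (by linarith), max_eq_right (by linarith)]
        · refine Or.inl ⟨?_, by linarith⟩
          unfold cl
          rw [min_eq_right (by linarith), max_eq_left (by linarith)]
    -- expansion if the images are between
    have hexp : cl k m t ≤ k t → k t' ≤ cl k m' t' → t' - t ≤ k t' - k t := by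
      intro h3 h4
      refine hL t t' ht fun a ha h5 => hz a ha ?_
      rw [uIcc_of_le (h3.trans (hkt.trans h4))]
      exact ⟨h3.trans h5.1, h5.2.trans h4⟩
    rcases tri (t := t) hm with ⟨e, h⟩ | ⟨e, h⟩ | ⟨e, h⟩ <;>
      rcases tri (t := t') hm' with ⟨e', h'⟩ | ⟨e', h'⟩ | ⟨e', h'⟩
    · linarith
    · linarith
    · linarith [(abs_le.1 h').1, (abs_le.1 h').2]
    · have h5 := hexp (by linarith) (by linarith)
      linarith
    · linarith
    · have h5 := hexp (by linarith) (by linarith)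
      linarith
    · have h5 := hexp (by linarith) (by linarith)
      linarith [(abs_le.1 h).1, (abs_le.1 h).2]
    · linarith [(abs_le.1 h).1, (abs_le.1 h).2]
    · have h5 := hexp (by linarith) (by linarith)
      linarith [(abs_le.1 h).1, (abs_le.1 h).2, abs_nonneg (m' - m)]
  rcases le_total t t' with h | h
  · have h1 := key hm hm' h hz
    rw [abs_sub_comm t t', abs_of_nonneg (sub_nonneg.2 h), abs_sub_comm (cl k m t),
      abs_sub_comm m m']
    exact h1
  · have h1 := key hm' hm h (by rwa [uIcc_comm])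
    rw [abs_of_nonneg (sub_nonneg.2 h)]
    exact h1

/-- the increment of a clip over an interval is at most the larger one of the two increments -/
theorem cl_sub_cl_le {s : ℝ → ℝ} {m t t' ω : ℝ} (h1 : t' - t ≤ ω) (h2 : s t' - s t ≤ ω) :
    cl s m t' - cl s m t ≤ ω := by
  unfold cl
  have a1 : t' - m ≤ ω + (t - m) := by linarith
  have a2 : t' + m ≤ ω + (t + m) := by linarith
  have a3 : s t' ≤ ω + s t := by linarith
  have : max (t' - m) (min (t' + m) (s t')) ≤ ω + max (t - m) (min (t + m) (s t)) := by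
    rw [← max_add_add_left, ← min_add_add_left]
    exact max_le_max a1 (min_le_min a2 a3)
  linarith

variable {n : ℕ}

/-- **the local estimate** at a point `y₀` whose image is not on a level -/
theorem local_clip {j : Fin n} {k σ : ℝ → ℝ} {m m₁ : (Fin n → ℝ) → ℝ} {L : Set ℝ}
    (hV : VD j k m) (hLc : IsClosed L) (hL : Expd L k)
    {Λ : ℝ} (hΛ : 1 ≤ Λ) (hσ : ∀ t t', |σ t - σ t'| ≤ Λ * |t - t'|)
    (hm₁ : ∀ y t, m₁ (Function.update y j t) = m₁ y)
    {κ S : (Fin n → ℝ) → Fin n → ℝ} {y₀ : Fin n → ℝ} (hκ : κ =ᶠ[𝓝 y₀] vc j k m)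
    (hS : S =ᶠ[𝓝 y₀] vc j σ m₁) (h₀ : κ y₀ j ∉ L) :
    ∀ᶠ y in 𝓝 y₀, (∀ i, i ≠ j → S y i - S y₀ i = κ y i - κ y₀ i) ∧
      |S y j - S y₀ j| ≤ Λ * (|κ y j - κ y₀ j| + |m (κ y) - m (κ y₀)|) +
        |m₁ (κ y) - m₁ (κ y₀)| := by
  have hc : Continuous fun y => vc j k m y j := (continuous_apply j).comp hV.continuous
  rw [hκ.self_of_nhds] at h₀
  obtain ⟨ε, hε, hball⟩ := Metric.isOpen_iff.1 hLc.isOpen_compl _ h₀
  have hnear : ∀ᶠ y in 𝓝 y₀, dist (vc j k m y j) (vc j k m y₀ j) < ε :=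
    Metric.tendsto_nhds.1 hc.continuousAt ε hε
  filter_upwards [hκ, hS, hnear] with y h1 h2 h3
  rw [h1, h2, hκ.self_of_nhds, hS.self_of_nhds]
  refine ⟨fun i hi => by simp only [vc_ne hi], ?_⟩
  have hz : ∀ a ∈ L, a ∉ uIcc (cl k (m y) (y j)) (cl k (m y₀) (y₀ j)) := by
    intro a ha h4
    have h5 : a ∈ Metric.ball (vc j k m y₀ j) ε := by
      rw [Metric.mem_ball]
      refine lt_of_le_of_lt ?_ h3
      rw [vc_same, vc_same, Real.dist_eq, Real.dist_eq]
      have h8 := abs_sub_right_of_mem_uIcc h4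
      rw [abs_sub_comm a]
      exact h8.trans_eq (abs_sub_comm _ _)
    exact hball h5 ha
  have h6 := abs_sub_le_cl hV.km hL (hV.m0 y) (hV.m0 y₀) hz
  have hmm : ∀ y, m₁ (vc j k m y) = m₁ y := fun y => hm₁ _ _
  rw [hV.m_vc, hV.m_vc, hmm, hmm]
  simp only [vc_same]
  have h7 := abs_cl_sub_cl_le (k := σ) (m := m₁ y) (m' := m₁ y₀) hΛ (hσ (y j) (y₀ j))
  refine h7.trans (add_le_add ?_ le_rfl)
  exact mul_le_mul_of_nonneg_left h6 (by linarith)

/-- two points of one vertical line with the same image lie in one flat of `k` -/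
theorem flat_of_cl_eq {k : ℝ → ℝ} (hk : Monotone k) {m t t' : ℝ} (hm : 0 ≤ m) (ht : t < t')
    (h : cl k m t = cl k m t') : k t = k t' := by
  refine le_antisymm (hk ht.le) ?_
  have h1 : t - m < cl k m t := by
    rw [h]
    exact lt_of_lt_of_le (by linarith) (le_max_left (t' - m) _)
  have h2 : cl k m t' < t' + m := by
    rw [← h]
    by_contra hcon
    rw [not_lt] at hcon
    have h3 : cl k m t ≤ max (t - m) (t + m) := by
      unfold cl; exact max_le_max le_rfl (min_le_left _ _)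
    rcases le_max_iff.1 (hcon.trans h3) with h4 | h4
    · linarith
    · linarith
  have h3 : cl k m t ≤ k t := by
    unfold cl at h1 ⊢
    rcases lt_max_iff.1 h1 with h4 | h4
    · exact absurd h4 (lt_irrefl _)
    · exact max_le (h4.le.trans (min_le_right _ _)) (min_le_right _ _)
  have h4 : k t' ≤ cl k m t' := by
    unfold cl at h2 ⊢
    have h5 : min (t' + m) (k t') < t' + m := lt_of_le_of_lt (le_max_right _ _) h2
    rcases min_lt_iff.1 h5 with h6 | h6
    · exact absurd h6 (lt_irrefl _)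
    · rw [min_eq_right h6.le]; exact le_max_right _ _
  exact h4.trans (h.symm.le.trans h3)

/-- the data of one box along an edge -/
structure EBx (n : ℕ) where
  /-- direction -/
  j : Fin n
  /-- insertion map -/
  k : ℝ → ℝ
  /-- cut-off for `k` -/
  m : (Fin n → ℝ) → ℝ
  /-- staircase -/
  σ : ℝ → ℝ
  /-- cut-off for `σ` -/
  m₁ : (Fin n → ℝ) → ℝ
  /-- levels -/
  L : Set ℝ
  /-- weight of the levels -/
  ω : ℝ

/-- hypotheses on one box -/
structure EBx.Ok (b : EBx n) (Λ : ℝ) : Prop where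
  vd : VD b.j b.k b.m
  closed : IsClosed b.L
  expd : Expd b.L b.k
  lip : ∀ t t', |b.σ t - b.σ t'| ≤ Λ * |t - t'|
  mono : Monotone b.σ
  mj : ∀ y t, b.m₁ (Function.update y b.j t) = b.m₁ y
  flat : ∀ t t', t < t' → b.k t = b.k t' → t' - t ≤ b.ω ∧ b.σ t' - b.σ t ≤ b.ω

theorem ofReal_abs_edist (x y : ℝ) : edist x y = ENNReal.ofReal |x - y| := by
  rw [edist_dist, Real.dist_eq]

theorem evar_smul (c : ℝ) (hc : 0 ≤ c) (f : ℝ → ℝ) (s : Set ℝ) :
    eVariationOn (fun t => c * f t) s ≤ ENNReal.ofReal c * eVariationOn f s := by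
  refine iSup_le ?_
  rintro ⟨N, u, hu, hm⟩
  calc ∑ i ∈ Finset.range N, edist (c * f (u (i + 1))) (c * f (u i))
      = ∑ i ∈ Finset.range N, ENNReal.ofReal c * edist (f (u (i + 1))) (f (u i)) := by
        refine Finset.sum_congr rfl fun i _ => ?_
        rw [edist_dist, edist_dist, ← ENNReal.ofReal_mul hc, Real.dist_eq, Real.dist_eq,
          ← mul_sub, abs_mul, abs_of_nonneg hc]
    _ = ENNReal.ofReal c * ∑ i ∈ Finset.range N, edist (f (u (i + 1))) (f (u i)) := by
        rw [Finset.mul_sum]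
    _ ≤ _ := mul_le_mul_right (eVariationOn.sum_le hu hm) _

theorem fibre_Icc {γ : ℝ → ℝ} {a b x : ℝ} (hγ : MonotoneOn γ (Icc a b))
    (hγc : ContinuousOn γ (Icc a b)) (hne : (Icc a b ∩ γ ⁻¹' {x}).Nonempty) :
    ∃ l r, l ≤ r ∧ Icc a b ∩ γ ⁻¹' {x} = Icc l r := by
  have hc : IsCompact (Icc a b ∩ γ ⁻¹' {x}) :=
    isCompact_Icc.of_isClosed_subset
      (hγc.preimage_isClosed_of_isClosed isClosed_Icc isClosed_singleton) inter_subset_left
  have hl := hc.sInf_mem hne
  have hr := hc.sSup_mem hne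
  refine ⟨_, _, csInf_le_csSup hne hc.bddBelow hc.bddAbove, Subset.antisymm ?_ ?_⟩
  · exact fun s hs => ⟨csInf_le hc.bddBelow hs, le_csSup hc.bddAbove hs⟩
  · intro s hs
    have h1 : s ∈ Icc a b := ⟨hl.1.1.trans hs.1, hs.2.trans hr.1.2⟩
    refine ⟨h1, le_antisymm ?_ ?_⟩
    · exact (hγ h1 hr.1 hs.2).trans_eq hr.2
    · exact hl.2.symm.le.trans (hγ hl.1 h1 hs.1)

/-- **the variation on a fibre** -/
theorem evar_fibre {b : EBx n} {Λ : ℝ} (hb : b.Ok Λ) {κ S : (Fin n → ℝ) → Fin n → ℝ}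
    {Y : ℝ → Fin n → ℝ} {γ : ℝ → ℝ} {a₀ a₁ x : ℝ} {z : Fin n → ℝ}
    (hγ : MonotoneOn γ (Icc a₀ a₁)) (hγc : ContinuousOn γ (Icc a₀ a₁))
    (hY : ContinuousOn Y (Icc a₀ a₁)) (hYi : InjOn Y (Icc a₀ a₁))
    (hfib : ∀ t ∈ Icc a₀ a₁, γ t = x → κ (Y t) = z ∧ κ (Y t) = vc b.j b.k b.m (Y t) ∧
      S (Y t) = vc b.j b.σ b.m₁ (Y t)) (l : Fin n) :
    eVariationOn (fun t => S (Y t) l) (Icc a₀ a₁ ∩ γ ⁻¹' {x}) ≤
      if b.j = l then ENNReal.ofReal b.ω else 0 := by
  rcases (Icc a₀ a₁ ∩ γ ⁻¹' {x}).eq_empty_or_nonempty with he | hne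
  · rw [he]; simp
  have hne' : ∀ t ∈ Icc a₀ a₁ ∩ γ ⁻¹' {x}, ∀ i, i ≠ b.j → Y t i = z i := by
    intro t ht i hi
    obtain ⟨h1, h2, _⟩ := hfib t ht.1 ht.2
    rw [← h1, h2, vc_ne hi]
  split_ifs with hj
  · subst hj
    obtain ⟨p, q, hpq, hI⟩ := fibre_Icc hγ hγc hne
    rw [hI]
    have hsub : Icc p q ⊆ Icc a₀ a₁ := by rw [← hI]; exact inter_subset_left
    have hmem : ∀ t ∈ Icc p q, t ∈ Icc a₀ a₁ ∩ γ ⁻¹' {x} := fun t ht => by rw [hI]; exact ht
    have hYj : ContinuousOn (fun t => Y t b.j) (Icc p q) :=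
      (continuous_apply b.j).comp_continuousOn (hY.mono hsub)
    have hinj : InjOn (fun t => Y t b.j) (Icc p q) := by
      intro t ht t' ht' h
      refine hYi (hsub ht) (hsub ht') ?_
      ext i
      by_cases hi : i = b.j
      · rw [hi]; exact h
      · rw [hne' t (hmem t ht) i hi, hne' t' (hmem t' ht') i hi]
    -- the cut-off is constant
    have hM : ∀ t ∈ Icc p q, b.m₁ (Y t) = b.m₁ z := by
      intro t ht
      have : Y t = Function.update z b.j (Y t b.j) := by
        ext i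
        by_cases hi : i = b.j
        · subst hi; simp
        · simp [hi, hne' t (hmem t ht) i hi]
      rw [this, hb.mj]
    have hMk : ∀ t ∈ Icc p q, b.m (Y t) = b.m z := by
      intro t ht
      have : Y t = Function.update z b.j (Y t b.j) := by
        ext i
        by_cases hi : i = b.j
        · subst hi; simp
        · simp [hi, hne' t (hmem t ht) i hi]
      rw [this, hb.vd.mj]
    have hcomp : eVariationOn (fun t => S (Y t) b.j) (Icc p q) =
        eVariationOn ((cl b.σ (b.m₁ z)) ∘ (fun t => Y t b.j)) (Icc p q) := by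
      refine eVariationOn.congr fun t ht => ?_
      obtain ⟨_, _, h3⟩ := hfib t (hsub ht) (hmem t ht).2
      show S (Y t) b.j = cl b.σ (b.m₁ z) (Y t b.j)
      rw [h3, vc_same, hM t ht]
    -- the increment
    have hincr : ∀ t ∈ Icc p q, ∀ t' ∈ Icc p q, Y t b.j ≤ Y t' b.j →
        eVariationOn (cl b.σ (b.m₁ z)) (Icc (Y t b.j) (Y t' b.j)) ≤ ENNReal.ofReal b.ω := by
      intro t ht t' ht' hle
      rcases hle.lt_or_eq with hlt | heq
      · refine ((cl_mono hb.mono (b.m₁ z)).monotoneOn (Icc (Y t b.j) (Y t' b.j))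
          |>.eVariationOn_eq (left_mem_Icc.2 hle) (right_mem_Icc.2 hle) |> fun h => ?_)
        rw [inter_self] at h
        refine h.le.trans (ENNReal.ofReal_le_ofReal ?_)
        obtain ⟨h1, h2, _⟩ := hfib t (hsub ht) (hmem t ht).2
        obtain ⟨h3, h4, _⟩ := hfib t' (hsub ht') (hmem t' ht').2
        have h5 : cl b.k (b.m z) (Y t b.j) = cl b.k (b.m z) (Y t' b.j) := by
          have e1 : cl b.k (b.m z) (Y t b.j) = z b.j := by
            rw [← hMk t ht, ← vc_same, ← h2, h1]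
          have e2 : cl b.k (b.m z) (Y t' b.j) = z b.j := by
            rw [← hMk t' ht', ← vc_same, ← h4, h3]
          rw [e1, e2]
        obtain ⟨h6, h7⟩ := hb.flat _ _ hlt (flat_of_cl_eq hb.vd.km (hb.vd.m0 z) hlt h5)
        exact cl_sub_cl_le h6 h7
      · rw [heq, Icc_self]; simp
    rw [hcomp]
    rcases hYj.strictMonoOn_of_injOn_Icc' hpq hinj with hm | hm
    · refine (eVariationOn.comp_le_of_monotoneOn _ _ hm.monotoneOn
        (t := Icc p q) (s := Icc (Y p b.j) (Y q b.j)) ?_).trans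
        (hincr p (left_mem_Icc.2 hpq) q (right_mem_Icc.2 hpq)
          (hm.monotoneOn (left_mem_Icc.2 hpq) (right_mem_Icc.2 hpq) hpq))
      intro t ht
      exact ⟨hm.monotoneOn (left_mem_Icc.2 hpq) ht ht.1,
        hm.monotoneOn ht (right_mem_Icc.2 hpq) ht.2⟩
    · refine (eVariationOn.comp_le_of_antitoneOn _ _ hm.antitoneOn
        (t := Icc p q) (s := Icc (Y q b.j) (Y p b.j)) ?_).trans
        (hincr q (right_mem_Icc.2 hpq) p (left_mem_Icc.2 hpq)
          (hm.antitoneOn (left_mem_Icc.2 hpq) (right_mem_Icc.2 hpq) hpq))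
      intro t ht
      exact ⟨hm.antitoneOn ht (right_mem_Icc.2 hpq) ht.2,
        hm.antitoneOn (left_mem_Icc.2 hpq) ht ht.1⟩
  · refine le_of_eq (eVariationOn.constant_on ?_)
    rintro _ ⟨t, ht, rfl⟩ _ ⟨t', ht', rfl⟩
    obtain ⟨_, _, h3⟩ := hfib t ht.1 ht.2
    obtain ⟨_, _, h4⟩ := hfib t' ht'.1 ht'.2
    have hl : l ≠ b.j := fun h => hj h.symm
    show S (Y t) l = S (Y t') l
    rw [h3, h4, vc_ne hl, vc_ne hl, hne' t ht l hl, hne' t' ht' l hl]

/-- **[TVE]** Variation of the coordinates of `S ∘ Y` along an edge, where `κ ∘ Y = Z ∘ γ`. -/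
theorem tve {ι : Type*} (T : Finset ι) (b : ι → EBx n) {Λ : ℝ} (hΛ : 1 ≤ Λ)
    (hb : ∀ i ∈ T, (b i).Ok Λ) {κ S : (Fin n → ℝ) → Fin n → ℝ} {Y Z : ℝ → Fin n → ℝ}
    {γ : ℝ → ℝ} {a₀ a₁ : ℝ}
    (hγ : MonotoneOn γ (Icc a₀ a₁)) (hγc : ContinuousOn γ (Icc a₀ a₁))
    (hY : ContinuousOn Y (Icc a₀ a₁)) (hYi : InjOn Y (Icc a₀ a₁))
    (hS : ContinuousOn (fun t => S (Y t)) (Icc a₀ a₁))
    (hκ : ∀ t ∈ Icc a₀ a₁, κ (Y t) = Z (γ t))
    (X : Finset ℝ)
    (hloc : ∀ t ∈ Icc a₀ a₁, γ t ∉ X → ∃ i ∈ T, κ =ᶠ[𝓝 (Y t)] vc (b i).j (b i).k (b i).m ∧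
      S =ᶠ[𝓝 (Y t)] vc (b i).j (b i).σ (b i).m₁ ∧ Z (γ t) (b i).j ∉ (b i).L)
    (β : ℝ → ι) (hβ : ∀ x ∈ X, β x ∈ T)
    (hfib : ∀ x ∈ X, ∀ t ∈ Icc a₀ a₁, γ t = x →
      κ (Y t) = vc (b (β x)).j (b (β x)).k (b (β x)).m (Y t) ∧
      S (Y t) = vc (b (β x)).j (b (β x)).σ (b (β x)).m₁ (Y t)) (l : Fin n) :
    eVariationOn (fun t => S (Y t) l) (Icc a₀ a₁) ≤
      ∑ x ∈ X, (if (b (β x)).j = l then ENNReal.ofReal (b (β x)).ω else 0) +
      ENNReal.ofReal Λ * eVariationOn (fun t => Z (γ t) l) (Icc a₀ a₁) +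
      ∑ i ∈ T, (if (b i).j = l then
        ENNReal.ofReal Λ * eVariationOn (fun t => (b i).m (Z (γ t))) (Icc a₀ a₁) +
          eVariationOn (fun t => (b i).m₁ (Z (γ t))) (Icc a₀ a₁) else 0) := by
  classical
  -- the cost functions
  let W : Option (ι × Bool) → ℝ → ℝ := fun o => match o with
    | none => fun s => Λ * Z s l
    | some (i, true) => fun s => if (b i).j = l then Λ * (b i).m (Z s) else 0
    | some (i, false) => fun s => if (b i).j = l then (b i).m₁ (Z s) else 0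
  let T' : Finset (Option (ι × Bool)) := Finset.insertNone (T ×ˢ Finset.univ)
  have key := evar_le_cross T' (Z := W) hγ hγc (G := fun t => S (Y t) l)
    ((continuous_apply l).comp_continuousOn hS) X
    (fun x => if (b (β x)).j = l then ENNReal.ofReal (b (β x)).ω else 0) ?_ ?_
  · refine key.trans ?_
    rw [add_assoc]
    refine add_le_add le_rfl ?_
    rw [Finset.sum_insertNone, Finset.sum_product]
    refine add_le_add ?_ (Finset.sum_le_sum fun i _ => ?_)
    · exact evar_smul Λ (by linarith) _ _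
    · rw [Fintype.sum_bool]
      split_ifs with hj
      · refine add_le_add ?_ (le_of_eq ?_)
        · show eVariationOn (fun t => if (b i).j = l then Λ * (b i).m (Z (γ t)) else 0) _ ≤ _
          simp only [hj, if_true]
          exact evar_smul Λ (by linarith) _ _
        · show eVariationOn (fun t => if (b i).j = l then (b i).m₁ (Z (γ t)) else 0) _ = _
          simp only [hj, if_true]
      · show eVariationOn (fun t => if (b i).j = l then Λ * (b i).m (Z (γ t)) else 0) _ +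
          eVariationOn (fun t => if (b i).j = l then (b i).m₁ (Z (γ t)) else 0) _ ≤ _
        simp only [hj, if_false]
        rw [eVariationOn.constant_on, add_zero]
        rintro _ ⟨_, _, rfl⟩ _ ⟨_, _, rfl⟩; rfl
  · intro x hx
    exact evar_fibre (hb _ (hβ x hx)) hγ hγc hY hYi (z := Z x)
      (fun t ht htx => ⟨by rw [hκ t ht, htx], hfib x hx t ht htx⟩) l
  · intro t ht htX
    obtain ⟨i, hi, h1, h2, h3⟩ := hloc t ht htX
    have hOk := hb i hi
    have h4 := local_clip hOk.vd hOk.closed hOk.expd hΛ hOk.lip hOk.mj h1 h2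
      (by rw [hκ t ht]; exact h3)
    have h5 := (hY t ht).eventually h4
    filter_upwards [h5, self_mem_nhdsWithin] with t' h6 ht'
    rw [hκ t ht, hκ t' ht'] at h6
    show edist (S (Y t) l) (S (Y t') l) ≤ _
    have hnone : edist (W none (γ t)) (W none (γ t')) =
        ENNReal.ofReal (Λ * |Z (γ t') l - Z (γ t) l|) := by
      show edist (Λ * Z (γ t) l) (Λ * Z (γ t') l) = _
      rw [edist_dist, Real.dist_eq, ← mul_sub, abs_mul, abs_of_nonneg (by linarith : 0 ≤ Λ),
        abs_sub_comm]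
    rw [Finset.sum_insertNone]
    by_cases hj : (b i).j = l
    · subst hj
      have hle : edist (S (Y t) (b i).j) (S (Y t') (b i).j) ≤
          edist (W none (γ t)) (W none (γ t')) + (edist (W (some (i, true)) (γ t))
            (W (some (i, true)) (γ t')) + edist (W (some (i, false)) (γ t))
            (W (some (i, false)) (γ t'))) := by
        have e1 : edist (W (some (i, true)) (γ t)) (W (some (i, true)) (γ t')) =
            ENNReal.ofReal (Λ * |(b i).m (Z (γ t')) - (b i).m (Z (γ t))|) := by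
          show edist (if (b i).j = (b i).j then Λ * (b i).m (Z (γ t)) else 0)
            (if (b i).j = (b i).j then Λ * (b i).m (Z (γ t')) else 0) = _
          rw [if_pos rfl, if_pos rfl, edist_dist, Real.dist_eq, ← mul_sub, abs_mul,
            abs_of_nonneg (by linarith : 0 ≤ Λ), abs_sub_comm]
        have e2 : edist (W (some (i, false)) (γ t)) (W (some (i, false)) (γ t')) =
            ENNReal.ofReal |(b i).m₁ (Z (γ t')) - (b i).m₁ (Z (γ t))| := by
          show edist (if (b i).j = (b i).j then (b i).m₁ (Z (γ t)) else 0)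
            (if (b i).j = (b i).j then (b i).m₁ (Z (γ t')) else 0) = _
          rw [if_pos rfl, if_pos rfl, edist_dist, Real.dist_eq, abs_sub_comm]
        rw [hnone, e1, e2, ← ENNReal.ofReal_add (by positivity) (by positivity),
          ← ENNReal.ofReal_add (by positivity) (by positivity), edist_dist, Real.dist_eq,
          abs_sub_comm]
        refine ENNReal.ofReal_le_ofReal (h6.2.trans (le_of_eq ?_))
        ring
      refine hle.trans (add_le_add le_rfl ?_)
      calc edist (W (some (i, true)) (γ t)) (W (some (i, true)) (γ t')) +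
            edist (W (some (i, false)) (γ t)) (W (some (i, false)) (γ t'))
          = ∑ u : Bool, edist (W (some (i, u)) (γ t)) (W (some (i, u)) (γ t')) := by
            rw [Fintype.sum_bool]
        _ = ∑ o ∈ ({i} : Finset ι) ×ˢ (Finset.univ : Finset Bool),
              edist (W (some o) (γ t)) (W (some o) (γ t')) := by
            rw [Finset.sum_product, Finset.sum_singleton]
        _ ≤ _ := Finset.sum_le_sum_of_subset
            (Finset.product_subset_product (Finset.singleton_subset_iff.2 hi) le_rfl)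
    · refine le_trans ?_ le_self_add
      rw [hnone, edist_dist, Real.dist_eq, abs_sub_comm, h6.1 l (fun h => hj h.symm)]
      refine ENNReal.ofReal_le_ofReal ?_
      nlinarith [abs_nonneg (Z (γ t') l - Z (γ t) l)]

/-- **[TVE], sharp form in the full zone of one box**: the map `σ` is `ι`-Lipschitz between
consecutive levels. -/
theorem tve_full {b : EBx n} {Λ ε : ℝ} (hb : b.Ok Λ) (hε : 0 ≤ ε)
    (hσ : ∀ t t', t ≤ t' → (∀ a ∈ b.L, a ∉ Icc (b.k t) (b.k t')) → b.σ t' - b.σ t ≤ ε * (t' - t))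
    {κ S : (Fin n → ℝ) → Fin n → ℝ} {Y Z : ℝ → Fin n → ℝ} {γ : ℝ → ℝ} {a₀ a₁ : ℝ}
    (hγ : MonotoneOn γ (Icc a₀ a₁)) (hγc : ContinuousOn γ (Icc a₀ a₁))
    (hY : ContinuousOn Y (Icc a₀ a₁)) (hYi : InjOn Y (Icc a₀ a₁))
    (hκ : ∀ t ∈ Icc a₀ a₁, κ (Y t) = Z (γ t))
    (hk : ∀ t ∈ Icc a₀ a₁, κ (Y t) = vc b.j b.k b.m (Y t) ∧ S (Y t) = vc b.j b.σ b.m₁ (Y t) ∧
      κ (Y t) b.j = b.k (Y t b.j) ∧ S (Y t) b.j = b.σ (Y t b.j))
    (hσc : Continuous b.σ)
    (X : Finset ℝ) (hX : ∀ t ∈ Icc a₀ a₁, Z (γ t) b.j ∈ b.L → γ t ∈ X) :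
    eVariationOn (fun t => S (Y t) b.j) (Icc a₀ a₁) ≤ X.card * ENNReal.ofReal b.ω +
      ENNReal.ofReal ε * eVariationOn (fun t => Z (γ t) b.j) (Icc a₀ a₁) := by
  have hG : ContinuousOn (fun t => S (Y t) b.j) (Icc a₀ a₁) := by
    have h1 : ContinuousOn (fun t => b.σ (Y t b.j)) (Icc a₀ a₁) :=
      hσc.comp_continuousOn ((continuous_apply b.j).comp_continuousOn hY)
    exact h1.congr fun t ht => (hk t ht).2.2.2
  have key := evar_le_cross (Finset.univ : Finset Unit) (Z := fun _ s => ε * Z s b.j) hγ hγc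
    (G := fun t => S (Y t) b.j) hG X (fun _ => ENNReal.ofReal b.ω) ?_ ?_
  · refine key.trans (add_le_add ?_ ?_)
    · rw [Finset.sum_const, nsmul_eq_mul]
    · rw [Finset.univ_unique, Finset.sum_singleton]
      exact evar_smul ε hε _ _
  · intro x _
    have := evar_fibre hb hγ hγc hY hYi (z := Z x) (x := x) (κ := κ) (S := S)
      (fun t ht htx => ⟨by rw [hκ t ht, htx], (hk t ht).1, (hk t ht).2.1⟩) b.j
    rwa [if_pos rfl] at this
  · intro t ht htX
    have h0 : Z (γ t) b.j ∉ b.L := fun h => htX (hX t ht h)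
    -- nearby values are in the same gap
    obtain ⟨δ, hδ, hball⟩ := Metric.isOpen_iff.1 hb.closed.isOpen_compl _ h0
    have hZc : ContinuousOn (fun t => b.k (Y t b.j)) (Icc a₀ a₁) :=
      hb.vd.kc.comp_continuousOn ((continuous_apply b.j).comp_continuousOn hY)
    have h1 : ∀ᶠ t' in 𝓝[Icc a₀ a₁] t, dist (b.k (Y t' b.j)) (b.k (Y t b.j)) < δ :=
      Metric.tendsto_nhds.1 (hZc t ht) δ hδ
    have e0 : b.k (Y t b.j) = Z (γ t) b.j := by rw [← hκ t ht, (hk t ht).2.2.1]
    filter_upwards [h1, self_mem_nhdsWithin] with t' h2 ht'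
    have e1 : b.k (Y t' b.j) = Z (γ t') b.j := by rw [← hκ t' ht', (hk t' ht').2.2.1]
    rw [Finset.univ_unique, Finset.sum_singleton]
    show edist (S (Y t) b.j) (S (Y t') b.j) ≤ edist (ε * Z (γ t) b.j) (ε * Z (γ t') b.j)
    rw [(hk t ht).2.2.2, (hk t' ht').2.2.2, edist_dist, edist_dist, Real.dist_eq, Real.dist_eq,
      ← mul_sub, abs_mul, abs_of_nonneg hε, ← e0, ← e1]
    refine ENNReal.ofReal_le_ofReal ?_
    -- no level between
    have hno : ∀ a ∈ b.L, a ∉ uIcc (b.k (Y t b.j)) (b.k (Y t' b.j)) := by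
      intro a ha h4
      have h5 : a ∈ Metric.ball (Z (γ t) b.j) δ := by
        rw [Metric.mem_ball]
        refine lt_of_le_of_lt ?_ h2
        rw [Real.dist_eq, Real.dist_eq, ← e0]
        exact abs_sub_left_of_mem_uIcc h4
      exact hball h5 ha
    rcases le_total (Y t b.j) (Y t' b.j) with h | h
    · rw [uIcc_of_le (hb.vd.km h)] at hno
      have h3 := hσ _ _ h hno
      have h4 := hb.expd _ _ h hno
      rw [abs_sub_comm, abs_of_nonneg (sub_nonneg.2 (hb.mono h)),
        abs_sub_comm (b.k (Y t b.j)), abs_of_nonneg (sub_nonneg.2 (hb.vd.km h))]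
      exact h3.trans (mul_le_mul_of_nonneg_left h4 hε)
    · rw [uIcc_of_ge (hb.vd.km h)] at hno
      have h3 := hσ _ _ h hno
      have h4 := hb.expd _ _ h hno
      rw [abs_of_nonneg (sub_nonneg.2 (hb.mono h)), abs_of_nonneg (sub_nonneg.2 (hb.vd.km h))]
      exact h3.trans (mul_le_mul_of_nonneg_left h4 hε)

theorem evar_coord_le {q : ℝ → Fin n → ℝ} (s : Set ℝ) (l : Fin n) :
    eVariationOn (fun t => q t l) s ≤ eVariationOn q s := by
  refine iSup_le ?_
  rintro ⟨N, u, hu, hm⟩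
  refine (Finset.sum_le_sum fun i _ => ?_).trans (eVariationOn.sum_le hu hm)
  exact edist_le_pi_edist _ _ l

theorem evar_le_sum_coord {q : ℝ → Fin n → ℝ} (s : Set ℝ) :
    eVariationOn q s ≤ ∑ l, eVariationOn (fun t => q t l) s := by
  refine iSup_le ?_
  rintro ⟨N, u, hu, hm⟩
  calc ∑ i ∈ Finset.range N, edist (q (u (i + 1))) (q (u i))
      ≤ ∑ i ∈ Finset.range N, ∑ l, edist (q (u (i + 1)) l) (q (u i) l) := by
        refine Finset.sum_le_sum fun i _ => ?_
        rw [edist_pi_def]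
        exact Finset.sup_le fun l _ => Finset.single_le_sum
          (f := fun l => edist (q (u (i + 1)) l) (q (u i) l)) (fun _ _ => zero_le)
          (Finset.mem_univ l)
    _ = ∑ l, ∑ i ∈ Finset.range N, edist (q (u (i + 1)) l) (q (u i) l) := Finset.sum_comm
    _ ≤ _ := Finset.sum_le_sum fun l _ =>
        eVariationOn.sum_le (f := fun t => q t l) hu hm

end Vale.Agent.P073.H581
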