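import Vale.Agent.P073.H581.T5b
import Vale.Agent.P073.H196.Croft6
import Vale.Agent.P073.H579.EdgeMap

/-!
# P073, ROUND T, (T5): the parameter change of an edge; the bands around the crossings
-/

open Set Metric Topology Filter
open scoped ENNReal

namespace Vale.Agent.P073.H581

open _root_.P073 _root_.P073.H236 _root_.P073.Croft
open Vale.Agent.P073.St (V)
open _root_.P073.Net (len)

/-! ### the fibres of `κ` -/

section fib

variable {γ : Type*} {Λ : Set V} {B : γ → BX 3} {κ : V → V}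

/-- the fibres of `κ` are points or vertical segments -/
theorem fib_convex (hκ : H345.IsQ B κ) (H : H345.Fam Λ B) (w : V) : Convex ℝ {y | κ y = w} := by
  by_cases h1 : ∃ g, w ∈ (B g).K
  · obtain ⟨g, hg⟩ := h1
    have key : ∀ y, κ y = w ↔ y ∈ (B g).K ∧ (B g).Q y = w := by
      intro y
      constructor
      · intro h
        have h2 : y ∈ (B g).K := (hκ.mem_iff H).1 (h.symm ▸ hg)
        exact ⟨h2, by rw [← hκ.on g y h2, h]⟩
      · rintro ⟨h2, h3⟩
        rw [hκ.on g y h2, h3]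
    have main : ∀ y, κ y = w → ∀ y', κ y' = w → y (B g).j ≤ y' (B g).j →
        ∀ p q : ℝ, 0 ≤ p → 0 ≤ q → p + q = 1 → κ (p • y + q • y') = w := by
      intro y hy y' hy' hle p q hp hq hpq
      obtain ⟨h2, h3⟩ := (key y).1 hy
      obtain ⟨h2', h3'⟩ := (key y').1 hy'
      have hne : ∀ i, i ≠ (B g).j → y i = y' i := fun i hi => by
        rw [← (B g).Q_ne hi y, ← (B g).Q_ne hi y', h3, h3']
      set t := p * y (B g).j + q * y' (B g).j with ht
      have hq1 : p = 1 - q := by linarith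
      have htI : t ∈ Icc (y (B g).j) (y' (B g).j) := by
        have h4 := mul_nonneg hq (sub_nonneg.2 hle)
        have h5 := mul_nonneg hp (sub_nonneg.2 hle)
        rw [ht, hq1]
        rw [hq1] at h5
        constructor <;> nlinarith
      have e1 : p • y + q • y' = Function.update y (B g).j t := by
        ext i
        by_cases hi : i = (B g).j
        · subst hi; simp [ht]
        · simp only [Pi.add_apply, Pi.smul_apply, smul_eq_mul, Function.update_of_ne hi]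
          rw [← hne i hi, ← add_mul, hpq, one_mul]
      rw [e1]
      refine (key _).2 ⟨?_, ?_⟩
      · refine ⟨?_, fun i hi => ?_⟩
        · rw [Function.update_self]
          exact ⟨h2.1.1.trans htI.1, htI.2.trans h2'.1.2⟩
        · rw [Function.update_of_ne hi]
          exact h2.2 i hi
      · rw [← h3]
        exact (B g).vdQ.fibre (h3.trans h3'.symm) htI
    intro y hy y' hy' p q hp hq hpq
    rcases le_total (y (B g).j) (y' (B g).j) with h | h
    · exact main y hy y' hy' h p q hp hq hpq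
    · rw [add_comm]
      exact main y' hy' y hy h q p hq hp (by rw [add_comm]; exact hpq)
  · push Not at h1
    have h2 : ∀ y, κ y = w → y = w := by
      intro y hy
      rwa [hκ.off y fun g hg => h1 g (hy ▸ hκ.mapsK hg)] at hy
    intro y hy y' hy' p q hp hq hpq
    rw [mem_ofPred_eq] at hy hy'
    have e1 := h2 y hy
    have e2 := h2 y' hy'
    rw [mem_ofPred_eq, e1, e2, ← add_smul, hpq, one_smul]
    rw [e1] at hy
    exact hy

end fib

/-! ### the parameter change -/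

/-- **the parameter change of an edge** -/
theorem exists_par {Ω Λ : Set V} {κ : V → V} {h g : ConHomeo Ω Λ} {a b : V} (hab : a ≠ b)
    (hs : segment ℝ a b ⊆ Ω) (hκ : ContinuousOn κ Λ)
    (himg : g.toFun '' segment ℝ a b = H579.Pre κ Λ h (segment ℝ a b))
    (ha : κ (g.toFun a) = h.toFun a) (hb : κ (g.toFun b) = h.toFun b)
    (hfib : ∀ x ∈ segment ℝ a b, IsPreconnected {y | y ∈ Λ ∧ κ y = h.toFun x}) :
    ∃ γ : ℝ → ℝ, MonotoneOn γ (Icc 0 1) ∧ ContinuousOn γ (Icc 0 1) ∧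
      MapsTo γ (Icc 0 1) (Icc 0 1) ∧
      ∀ t ∈ Icc (0:ℝ) 1, κ (onS g.toFun a b t) = onS h.toFun a b (γ t) := by
  have eL : ∀ t : ℝ, (H579.segC hab).toFun t = a + t • (b - a) := fun t => by
    rw [H579.segC_toFun, AffineMap.lineMap_apply, vsub_eq_sub, vadd_eq_add, add_comm]
  set sc := H579.segC hab with hsc
  have hsm : ∀ t ∈ Icc (0:ℝ) 1, sc.toFun t ∈ segment ℝ a b := fun t ht => sc.mapsTo ht
  have hm1 : ∀ t ∈ Icc (0:ℝ) 1, κ (g.toFun (sc.toFun t)) ∈ h.toFun '' segment ℝ a b := by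
    intro t ht
    have : g.toFun (sc.toFun t) ∈ H579.Pre κ Λ h (segment ℝ a b) := by
      rw [← himg]; exact mem_image_of_mem _ (hsm t ht)
    exact this.2
  have hinvseg : ∀ y ∈ h.toFun '' segment ℝ a b, h.invFun y ∈ segment ℝ a b := by
    rintro _ ⟨x, hx, rfl⟩
    rwa [h.left_inv (hs hx)]
  have hmΛ : ∀ y ∈ h.toFun '' segment ℝ a b, y ∈ Λ := by
    rintro _ ⟨x, hx, rfl⟩
    exact h.mapsTo (hs hx)
  obtain ⟨τ, hτ⟩ : ∃ τ : ℝ → ℝ, ∀ t, τ t =
      sc.invFun (h.invFun (κ (g.toFun (sc.toFun t)))) := ⟨_, fun _ => rfl⟩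
  have hmem : MapsTo τ (Icc 0 1) (Icc 0 1) := fun t ht => by
    rw [hτ]; exact sc.mapsTo_inv (hinvseg _ (hm1 t ht))
  have heq : ∀ t ∈ Icc (0:ℝ) 1, κ (g.toFun (sc.toFun t)) = h.toFun (sc.toFun (τ t)) := by
    intro t ht
    have h1 : sc.toFun (τ t) = h.invFun (κ (g.toFun (sc.toFun t))) := by
      rw [hτ]
      exact sc.right_inv (hinvseg _ (hm1 t ht))
    rw [h1, h.right_inv (hmΛ _ (hm1 t ht))]
  have hinv : ∀ t ∈ Icc (0:ℝ) 1, ∀ s' ∈ Icc (0:ℝ) 1,
      κ (g.toFun (sc.toFun t)) = h.toFun (sc.toFun s') → τ t = s' := by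
    intro t ht s' hs' he
    have h1 := h.injOn (hs (hsm _ (hmem ht))) (hs (hsm _ hs')) ((heq t ht).symm.trans he)
    exact sc.injOn (hmem ht) hs' h1
  have c1 : ContinuousOn (fun t => g.toFun (sc.toFun t)) (Icc 0 1) :=
    g.cont.comp sc.cont fun t ht => hs (hsm t ht)
  have c2 : ContinuousOn (fun t => κ (g.toFun (sc.toFun t))) (Icc 0 1) :=
    hκ.comp c1 fun t ht => g.mapsTo (hs (hsm t ht))
  have c3 : ContinuousOn (fun t => h.invFun (κ (g.toFun (sc.toFun t)))) (Icc 0 1) :=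
    h.cont_inv.comp c2 fun t ht => hmΛ _ (hm1 t ht)
  have hcont : ContinuousOn τ (Icc 0 1) :=
    (sc.cont_inv.comp c3 fun t ht => hinvseg _ (hm1 t ht)).congr fun t _ => hτ t
  have i0 : (0:ℝ) ∈ Icc (0:ℝ) 1 := ⟨le_refl _, zero_le_one⟩
  have i1 : (1:ℝ) ∈ Icc (0:ℝ) 1 := ⟨zero_le_one, le_refl _⟩
  have e0 : sc.toFun 0 = a := by rw [eL]; simp
  have e1 : sc.toFun 1 = b := by rw [eL]; simp
  have h0 : τ 0 = 0 := hinv 0 i0 0 i0 (by rw [e0]; exact ha)
  have h1 : τ 1 = 1 := hinv 1 i1 1 i1 (by rw [e1]; exact hb)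
  refine ⟨τ, H579.monotone_of_fibres hcont hmem h0 h1 fun s' hs' => ?_, hcont, hmem,
    fun t ht => ?_⟩
  · have hsub : {y | y ∈ Λ ∧ κ y = h.toFun (sc.toFun s')} ⊆ g.toFun '' segment ℝ a b := by
      rintro y ⟨hyΛ, hy⟩
      rw [himg]
      exact ⟨hyΛ, _, hsm s' hs', hy.symm⟩
    have hginv : ∀ y ∈ g.toFun '' segment ℝ a b, g.invFun y ∈ segment ℝ a b := by
      rintro _ ⟨x, hx, rfl⟩
      rwa [g.left_inv (hs hx)]
    have e : {t | t ∈ Icc (0:ℝ) 1 ∧ τ t = s'} =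
        (fun y => sc.invFun (g.invFun y)) '' {y | y ∈ Λ ∧ κ y = h.toFun (sc.toFun s')} := by
      ext t
      constructor
      · rintro ⟨ht, hts⟩
        refine ⟨g.toFun (sc.toFun t), ⟨g.mapsTo (hs (hsm t ht)), by rw [heq t ht, hts]⟩, ?_⟩
        show sc.invFun (g.invFun (g.toFun (sc.toFun t))) = t
        rw [g.left_inv (hs (hsm t ht)), sc.left_inv ht]
      · rintro ⟨y, hy, rfl⟩
        have hyQ := hsub hy
        have h2 : sc.invFun (g.invFun y) ∈ Icc (0:ℝ) 1 := sc.mapsTo_inv (hginv y hyQ)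
        refine ⟨h2, hinv _ h2 _ hs' ?_⟩
        rw [sc.right_inv (hginv y hyQ), g.right_inv hy.1]
        exact hy.2
    rw [e]
    refine (hfib _ (hsm s' hs')).image _ ?_
    exact sc.cont_inv.comp (g.cont_inv.mono fun y hy => hy.1) fun y hy => hginv y (hsub hy)
  · have := heq t ht
    rw [eL, eL] at this
    exact this

/-! ### the bands around the crossings -/

/-- variation of a Lipschitz function on an interval -/
theorem evar_lip {f : ℝ → ℝ} {l r C : ℝ} (hC : 0 ≤ C) (hlr : l ≤ r)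
    (h : ∀ s ∈ Icc l r, ∀ t ∈ Icc l r, |f s - f t| ≤ C * |s - t|) :
    eVariationOn f (Icc l r) ≤ ENNReal.ofReal (C * (r - l)) := by
  have h1 : LipschitzOnWith (Real.toNNReal C) f (Icc l r) := by
    refine LipschitzOnWith.of_dist_le_mul fun s hs t ht => ?_
    rw [Real.dist_eq, Real.dist_eq, Real.coe_toNNReal _ hC]
    exact h s hs t ht
  have h2 := h1.comp_eVariationOn_le (g := (id : ℝ → ℝ)) (s := Icc l r) (fun t ht => ht)
  have h3 : eVariationOn (id : ℝ → ℝ) (Icc l r) ≤ ENNReal.ofReal (r - l) := by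
    have := (monotone_id.monotoneOn (Icc l r)).eVariationOn_eq (left_mem_Icc.2 hlr)
      (right_mem_Icc.2 hlr)
    rw [inter_self] at this
    exact this.le
  refine h2.trans ?_
  rw [ENNReal.ofReal_mul hC]
  exact mul_le_mul_right h3 _

/-- **the bands around the crossings**, for small thickness -/
theorem exists_bands {Z : ℝ → V} (hZ : ContinuousOn Z (Icc 0 1)) {K : Set V} (hK : IsClosed K)
    {j : Fin 3} {N : ℕ} {a : ℕ → ℝ} {c₀ A : ℝ} (hc₀ : 0 < c₀) (hA : 0 ≤ A)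
    (sep : ∀ k < N, ∀ k' < N, k ≠ k' → 4 * c₀ ≤ |a k - a k'|) {X : Set ℝ} (hX : X.Finite)
    (hcr : ∀ s ∈ Icc (0:ℝ) 1, Z s ∈ K → (∃ k < N, Z s j = a k) → s ∈ X)
    (htr : ∀ x ∈ X, TransAt Z j x) (hlev : ∀ x ∈ X, ∃ k < N, Z x j = a k)
    {m : ℝ → V → ℝ} (hm : ∀ c, 0 ≤ c → ∀ y y', |m c y - m c y'| ≤ c * (A * ‖y - y'‖)) :
    ∀ᶠ c in 𝓝[>] (0:ℝ), ∃ l r : ℝ → ℝ, (∀ x ∈ X, l x ≤ r x) ∧
      (∀ x ∈ X, eVariationOn (fun s => Z s j) (Icc (l x) (r x)) ≤ ENNReal.ofReal (4 * c)) ∧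
      (∀ x ∈ X, eVariationOn (fun s => m c (Z s)) (Icc (l x) (r x)) ≤ ENNReal.ofReal (2 * c)) ∧
      ∀ s ∈ Icc (0:ℝ) 1, Z s ∈ K → (∃ k < N, |Z s j - a k| ≤ 2 * c) →
        ∃ x ∈ X, s ∈ Icc (l x) (r x) := by
  classical
  choose! r hr w hw h0 h1 haff using htr
  -- smaller radii
  set ρ : ℝ → ℝ := fun x => min (r x) (2 * c₀ / |w x j|) with hρ
  have hw' : ∀ x ∈ X, 0 < |w x j| := fun x hx => abs_pos.2 (hw x hx)
  have hρ0 : ∀ x ∈ X, 0 < ρ x := fun x hx => lt_min (hr x hx)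
    (div_pos (by linarith) (hw' x hx))
  -- away from the crossings
  set C : Set ℝ := {s | s ∈ Icc (0:ℝ) 1 ∧ Z s ∈ K} \ ⋃ x ∈ X, Ioo (x - ρ x) (x + ρ x) with hC
  have hCc : IsCompact C := by
    have h2 : IsClosed {s | s ∈ Icc (0:ℝ) 1 ∧ Z s ∈ K} :=
      hZ.preimage_isClosed_of_isClosed isClosed_Icc hK
    exact isCompact_Icc.of_isClosed_subset
      (h2.sdiff (isOpen_biUnion fun x _ => isOpen_Ioo)) fun s hs => hs.1.1
  have hfar : ∀ k < N, ∃ ε > 0, ∀ s ∈ C, ε < |Z s j - a k| := by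
    intro k hk
    rcases C.eq_empty_or_nonempty with he | hne
    · exact ⟨1, one_pos, by simp [he]⟩
    · have hcont : ContinuousOn (fun s => |Z s j - a k|) C :=
        (((continuous_apply j).comp_continuousOn (hZ.mono fun s hs => hs.1.1)).sub
          continuousOn_const).abs
      obtain ⟨s₀, hs₀, hmin⟩ := hCc.exists_isMinOn hne hcont
      have hpos : 0 < |Z s₀ j - a k| := by
        refine abs_pos.2 (sub_ne_zero.2 fun h => ?_)
        have h3 := hcr s₀ hs₀.1.1 hs₀.1.2 ⟨k, hk, h⟩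
        exact hs₀.2 (mem_biUnion h3 ⟨by linarith [hρ0 s₀ h3], by linarith [hρ0 s₀ h3]⟩)
      refine ⟨|Z s₀ j - a k| / 2, by linarith, fun s hs => ?_⟩
      have := isMinOn_iff.1 hmin s hs
      linarith
  have hfar' : ∀ᶠ c in 𝓝[>] (0:ℝ), ∀ k ∈ {k | k < N}, ∀ s ∈ C, 2 * c < |Z s j - a k| := by
    refine (eventually_all_finite (finite_lt_nat N)).2 fun k hk => ?_
    obtain ⟨ε, hε, h2⟩ := hfar k hk
    have h3 : ∀ᶠ c in 𝓝[>] (0:ℝ), c < ε / 2 :=
      mem_nhdsWithin_of_mem_nhds (Iio_mem_nhds (by linarith))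
    filter_upwards [h3] with c hc s hs
    linarith [h2 s hs]
  have hsm : ∀ᶠ c in 𝓝[>] (0:ℝ), ∀ x ∈ X, 2 * c ≤ ρ x * |w x j| ∧
      2 * c * (A * ‖w x‖) ≤ |w x j| := by
    refine (eventually_all_finite hX).2 fun x hx => ?_
    have hp := mul_pos (hρ0 x hx) (hw' x hx)
    have h2 : ∀ᶠ c in 𝓝[>] (0:ℝ), c < ρ x * |w x j| / 2 :=
      mem_nhdsWithin_of_mem_nhds (Iio_mem_nhds (by linarith))
    have hAw : 0 ≤ A * ‖w x‖ := mul_nonneg hA (norm_nonneg _)
    have h3 : ∀ᶠ c in 𝓝[>] (0:ℝ), c < |w x j| / (2 * (A * ‖w x‖ + 1)) :=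
      mem_nhdsWithin_of_mem_nhds (Iio_mem_nhds (div_pos (hw' x hx) (by linarith)))
    filter_upwards [h2, h3, self_mem_nhdsWithin] with c hc hc' hc0
    have hc0' : 0 < c := hc0
    refine ⟨by linarith, ?_⟩
    rw [lt_div_iff₀ (by linarith)] at hc'
    nlinarith
  have hcc : ∀ᶠ c in 𝓝[>] (0:ℝ), c < c₀ := mem_nhdsWithin_of_mem_nhds (Iio_mem_nhds hc₀)
  filter_upwards [hfar', hsm, hcc, self_mem_nhdsWithin] with c hc1 hc2 hc3 hc4
  have hc : 0 < c := hc4
  have hrad : ∀ x ∈ X, 2 * c / |w x j| ≤ ρ x := fun x hx => by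
    rw [div_le_iff₀ (hw' x hx)]; exact (hc2 x hx).1
  have hradn : ∀ x ∈ X, 0 < 2 * c / |w x j| := fun x hx => div_pos (by linarith) (hw' x hx)
  have hval : ∀ x ∈ X, ∀ s, |s - x| ≤ 2 * c / |w x j| → Z s = Z x + (s - x) • w x := by
    intro x hx s hs
    have h2 := (hs.trans (hrad x hx)).trans (min_le_left _ _)
    obtain ⟨h3, h4⟩ := abs_le.1 h2
    exact haff x hx s ⟨by linarith, by linarith⟩
  have hmemI : ∀ x s, s ∈ Icc (x - 2 * c / |w x j|) (x + 2 * c / |w x j|) →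
      |s - x| ≤ 2 * c / |w x j| := fun x s hs => abs_le.2 ⟨by linarith [hs.1], by linarith [hs.2]⟩
  refine ⟨fun x => x - 2 * c / |w x j|, fun x => x + 2 * c / |w x j|, fun x hx => ?_,
    fun x hx => ?_, fun x hx => ?_, fun s hs hsK hsc => ?_⟩
  · have := hradn x hx
    show x - _ ≤ x + _
    linarith
  · have h2 := evar_lip (f := fun s => Z s j) (C := |w x j|)
      (l := x - 2 * c / |w x j|) (r := x + 2 * c / |w x j|) (abs_nonneg _)
      (by have := hradn x hx; linarith) (fun s hs t ht => by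
        rw [hval x hx s (hmemI x s hs), hval x hx t (hmemI x t ht)]
        simp only [Pi.add_apply, Pi.smul_apply, smul_eq_mul]
        rw [show Z x j + (s - x) * w x j - (Z x j + (t - x) * w x j) = w x j * (s - t) by ring,
          abs_mul])
    refine h2.trans (le_of_eq ?_)
    congr 1
    have := (hw' x hx).ne'
    field_simp
    ring
  · have h2 := evar_lip (f := fun s => m c (Z s)) (C := c * (A * ‖w x‖))
      (l := x - 2 * c / |w x j|) (r := x + 2 * c / |w x j|) (by positivity)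
      (by have := hradn x hx; linarith) (fun s hs t ht => by
        refine (hm c hc.le _ _).trans (le_of_eq ?_)
        rw [hval x hx s (hmemI x s hs), hval x hx t (hmemI x t ht)]
        rw [show Z x + (s - x) • w x - (Z x + (t - x) • w x) = (s - t) • w x by module,
          norm_smul, Real.norm_eq_abs]
        ring)
    refine h2.trans (ENNReal.ofReal_le_ofReal ?_)
    have h3 := (hc2 x hx).2
    have h4 := hw' x hx
    have e1 : c * (A * ‖w x‖) * (x + 2 * c / |w x j| - (x - 2 * c / |w x j|)) =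
        2 * c * (A * ‖w x‖) * (2 * c) / |w x j| := by
      field_simp
      ring
    rw [e1, div_le_iff₀ h4]
    nlinarith
  · obtain ⟨k, hk, hsk⟩ := hsc
    have h2 : s ∉ C := fun h => absurd (hc1 k hk s h) (not_lt.2 hsk)
    have h3 : s ∈ ⋃ x ∈ X, Ioo (x - ρ x) (x + ρ x) := by
      by_contra h4
      exact h2 ⟨⟨hs, hsK⟩, h4⟩
    obtain ⟨x, hx, hxs⟩ := mem_iUnion₂.1 h3
    refine ⟨x, hx, ?_⟩
    obtain ⟨k₀, hk₀, hxk⟩ := hlev x hx
    have h5 : |s - x| < ρ x := abs_lt.2 ⟨by linarith [hxs.1], by linarith [hxs.2]⟩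
    have h6 : |s - x| ≤ r x := h5.le.trans (min_le_left _ _)
    obtain ⟨h7, h8⟩ := abs_le.1 h6
    have h9 : Z s j - a k₀ = (s - x) * w x j := by
      rw [haff x hx s ⟨by linarith, by linarith⟩, ← hxk]
      simp
    have h10 : |s - x| * |w x j| ≤ 2 * c₀ := by
      have h11 : |s - x| ≤ 2 * c₀ / |w x j| := h5.le.trans (min_le_right _ _)
      rwa [le_div_iff₀ (hw' x hx)] at h11
    have hkk : k = k₀ := by
      by_contra hne
      have h11 := sep k hk k₀ hk₀ hne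
      have h12 : |a k - a k₀| ≤ |Z s j - a k₀| + |Z s j - a k| := by
        rw [show a k - a k₀ = (Z s j - a k₀) - (Z s j - a k) by ring]
        exact abs_sub _ _
      rw [h9, abs_mul] at h12
      linarith
    subst hkk
    rw [h9, abs_mul, ← le_div_iff₀ (hw' x hx)] at hsk
    obtain ⟨h11, h12⟩ := abs_le.1 hsk
    exact ⟨by linarith, by linarith⟩

end Vale.Agent.P073.H581
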