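import Vale.Agent.P073.H581.EdRow
import Vale.Agent.P073.H345.TvRow
import Vale.Agent.P073.H880.TopM

/-!
# P073, H581: the row `edge` of `K3-TOP` in slot form

`LocRow`: the local theorem in slot form; `row_edge`: `RowP .. (EdgeF ..)` from it.
-/

open Set Metric Topology Filter MeasureTheory
open scoped ENNReal

set_option linter.unusedSectionVars false

namespace Vale.Agent.P073.Top880

open _root_.P073 _root_.P073.Net _root_.P073.PA691 _root_.P073.H236 _root_.P073.H579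
open _root_.P073.H345 (PK tg PLev)
open _root_.P073.H880.RP
open Vale.Agent.P073.St (V)
open Vale.Agent.P073.H471 Vale.Agent.P073.H267
open Vale.Agent.P073.H73 (Mesh onSeg)
open Vale.Agent.P073.H193 (Edges Cyc edges)
open Vale.Agent.P073.H926
open Vale.Agent.P073.H238.K3
open Vale.Agent.P073.H267.K3
open Vale.Agent.P073.H190.Tvp
open Vale.Agent.P073.H228 (GAt EdgeV2)
open Vale.Agent.P073.H233 (Xp PSet Ev EdgeEst)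
open Vale.Agent.P073.H345W (TvRow row_tvn tvg_of)
open _root_.P073.Croft (levs onS cross)
open _root_.P073.H267 (lenE)

variable {c₀ n δ : ℝ} {j : ℕ} {Ω Λ : Set V} {v w : V} {ρ : V → ℝ} {M : Mesh Ω} {h : ConHomeo Ω Λ}
  {J₀ J : Set (ℕ × (Fin 3 → ℤ))} {P Z : Set M.ι} {K : BoxCx Λ w}
  {D : KIn3 c₀ n j δ v w ρ M h J₀ J P Z} {C : Cells ρ w K} {C₀ μT : ℝ}
  {X : S1 D C C₀ μT} {Y₂ : S2 X} {Ys : Set M.κ} {sc : Sharp}

/-- the control of 190 over the stages -/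
def CtlS (Y₃ : S3 Y₂ Ys sc) (e : (edges M).ε) (γ : ℝ → ℝ) (A A' i' ee : ℝ)
    (I : Finset (Fin 3)) (f : Fin 3 → ℝ → ℝ) (g : ℝ → ℝ) (t : ℝ) : Prop :=
  CtlAt3 (D.G C) Y₃.F (fun _ s => Y₂.muP s.1)
    (fun s => 4096 * Y₂.muP s.1 / (D.B C).τ s.1)
    (fun s : (D.dat C).S₀ => (D.dat C).PE (D.G C) s.1)
    (onS Y₂.h2.toFun ((edges M).a e) ((edges M).b e))
    (onS X.h1.toFun ((edges M).a e) ((edges M).b e))
    (onS Y₃.h3.toFun ((edges M).a e) ((edges M).b e)) γ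
    (ArcP.H Y₃.T2 (onS Y₃.h3.toFun ((edges M).a e) ((edges M).b e))) A A' i' ee I f g t

/-- **the conclusion of the local theorem** for one edge and one map `f` -/
def LocE (Y₃ : S3 Y₂ Ys sc) (A A' c ι₀ w : ℝ) (f : V → V) (e : (edges M).ε) : Prop :=
  ∀ (γ : ℝ → ℝ) (c₁ : ℝ),
    ArcP Y₂.L (D.dat C).S₀ Y₃.c Y₃.c0 Y₃.c1 Y₃.F Y₃.T3 Y₃.κ
      (fun s => (D.dat C).PE (D.G C) s.1)
      (onS Y₂.h2.toFun ((edges M).a e) ((edges M).b e))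
      (onS X.h1.toFun ((edges M).a e) ((edges M).b e))
      (onS Y₃.h3.toFun ((edges M).a e) ((edges M).b e)) γ c₁ →
    ∃ w₁ > 0, ∃ i' ee : ℝ, 0 ≤ i' ∧ i' ≤ ι₀ ∧ 0 ≤ ee ∧ ee ≤ w ∧
      EdgeFam X (CtlS Y₃ e γ A A' i' ee) c w₁ f e

/-- **`EdgeF` for one map** -/
theorem edgeF_of {Y₃ : S3 Y₂ Ys sc} {A A' c : ℝ} {ι₀ dl om : (edges M).ε → ℝ} {f : V → V}
    (HT : TvRow Y₃ A A' ι₀ dl) (hf : ContinuousOn f Ω)
    (HL : ∀ e, (∀ i ∈ P, ¬ (edges M).seg e ⊆ M.Q i) → LocE Y₃ A A' c (ι₀ e) (om e / 4) f e)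
    (hA : 0 ≤ A) (hA' : 0 ≤ A') (hc : 0 ≤ c) (hC₀ : 0 ≤ C₀) (hom : ∀ e, 0 < om e)
    (hdl0 : ∀ e, 0 ≤ dl e) (hdl : ∀ e, dl e ≤ om e / 4)
    (hε : ∀ e, 3 * c * (20 + 10 * A + 18 * A') * X.εe e ≤ om e / 2) {D₀ : ℝ}
    (hD₀ : 3 * c * (20 + 10 * A + 18 * A') * C₀ + (A + A' + 2) * (250 * C₀) ≤ D₀) :
    EdgeF D C D₀ om f := by
  intro k e hek
  by_cases hP : ∃ i ∈ P, (edges M).seg e ⊆ M.Q i
  · exact Or.inl hP
  push Not at hP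
  refine Or.inr ?_
  obtain ⟨γ, c₁, H⟩ := HT
  obtain ⟨HA, HT'⟩ := H e
  obtain ⟨w₁, hw₁, i', ee, hi0, hi1, hee, heew, HF⟩ := HL e hP (γ e) (c₁ e) HA
  have hk : 0 ≤ 20 + 10 * A + 18 * A' := by positivity
  have hV : EdgeV2 (D.B C) (Xp C J₀) h.toFun f D₀ w₁ (om e) e :=
    HF.edgeV2 (kT := 20 + 10 * A + 18 * A') (CL := (A + A' + 2) * (250 * C₀)) (dl := dl e)
      (ee := ee) (fun I f' g hg => HT' i' ee hi0 hi1 hee I f' g hg) (tvg_of X) hk hc hC₀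
      (by positivity) hee (hdl0 e) hD₀ (by linarith [hdl e, hε e])
  have hμ := Vale.Agent.P073.H233.soft_mu D
  have hsub : (edges M).seg e ⊆ Ω := hek.trans (Vale.Agent.P073.H193.mesh_sub M k)
  exact hV.ev (le_trans (by positivity) hD₀) hw₁ (hom e).le hμ.1 hμ.2 (hf.mono hsub) hek

/-- **the row `edge`** for a map `F Y₅` (`Y₅.f`, `Y₅.fq`), from the local theorem in slot form -/
theorem row_edge_of (D : KIn3 c₀ n j δ v w ρ M h J₀ J P Z) (C : Cells ρ w K)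
    {C₀ μT : ℝ} {Ys : Set M.κ} {sc : Sharp} {A A' c : ℝ} (hA : 0 ≤ A) (hA' : 0 ≤ A')
    (hc : 0 ≤ c) (hC₀ : 0 ≤ C₀) {om : (edges M).ε → ℝ} (hom : ∀ e, 0 < om e)
    (F : ∀ {X : S1 D C C₀ μT} {Y₂ : S2 X} {Y₃ : S3 Y₂ Ys sc} {Y₄ : S4 Y₃}, S5 Y₄ → V → V)
    (hF : ∀ {X : S1 D C C₀ μT} {Y₂ : S2 X} {Y₃ : S3 Y₂ Ys sc} {Y₄ : S4 Y₃} (Y₅ : S5 Y₄),
      ContinuousOn (F Y₅) Ω)
    (HL : ∀ ι₀ : ∀ {X : S1 D C C₀ μT}, S2 X → (edges M).ε → ℝ,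
      (∀ {X : S1 D C C₀ μT} (Y₂ : S2 X) e, 0 < ι₀ Y₂ e) →
      RowP D C C₀ μT Ys sc fun {_ Y₂ Y₃ _} Y₅ => ∀ e, (∀ i ∈ P, ¬ (edges M).seg e ⊆ M.Q i) →
        LocE Y₃ A A' c (ι₀ Y₂ e) (om e / 4) (F Y₅) e)
    {D₀ : ℝ}
    (hD₀ : 3 * c * (20 + 10 * A + 18 * A') * C₀ + (A + A' + 2) * (250 * C₀) ≤ D₀) :
    RowP D C C₀ μT Ys sc fun Y₅ => EdgeF D C D₀ om (F Y₅) := by
  obtain ⟨S₁, ι₀, hι₀, HT⟩ := row_tvn D C C₀ μT Ys sc hA hA' (dl := fun e => om e / 4)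
    fun e => by have := hom e; positivity
  obtain ⟨S₂, H₂⟩ := HL ι₀ hι₀
  have hk : 0 ≤ 20 + 10 * A + 18 * A' := by positivity
  have hk3 : 0 < 2 * (3 * c * (20 + 10 * A + 18 * A') + 1) := by positivity
  let S₃ : Slots D C C₀ μT Ys sc := { (Slots.one : Slots D C C₀ μT Ys sc) with
    εe := fun e => om e / (2 * (3 * c * (20 + 10 * A + 18 * A') + 1))
    εe0 := fun e => div_pos (hom e) hk3 }
  refine ⟨(S₁.inf S₂).inf S₃, fun {N X Y₂ Y₃ Y₄} Y₅ h5 => ?_⟩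
  have h1 : Ok3 S₁ N Y₃ := h5.left.left.toOk4.toOk3
  have h3 : Ok3 S₃ N Y₃ := h5.right.toOk4.toOk3
  refine edgeF_of (HT h1) (hF Y₅) (fun e he => H₂ Y₅ h5.left.right e he) hA hA' hc hC₀ hom
    (fun e => by have := hom e; positivity) (fun e => le_rfl) (fun e => ?_) hD₀
  have h4 : X.εe e ≤ om e / (2 * (3 * c * (20 + 10 * A + 18 * A') + 1)) := h3.εe e
  rw [le_div_iff₀ hk3] at h4
  have h6 := (X.εe0 e).le
  nlinarith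

/-- **the local theorem in slot form**, for the map `F Y₅`: `w`: the tiny numbers of the edges,
`ι₀`: positive functions of the second stage -/
def LocRow (D : KIn3 c₀ n j δ v w ρ M h J₀ J P Z) (C : Cells ρ w K) (C₀ μT : ℝ)
    (Ys : Set M.κ) (sc : Sharp) (A A' c : ℝ)
    (F : ∀ {X : S1 D C C₀ μT} {Y₂ : S2 X} {Y₃ : S3 Y₂ Ys sc} {Y₄ : S4 Y₃}, S5 Y₄ → V → V) :
    Prop :=
  ∀ w : (edges M).ε → ℝ, (∀ e, 0 < w e) →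
  ∀ ι₀ : ∀ {X : S1 D C C₀ μT}, S2 X → (edges M).ε → ℝ,
    (∀ {X : S1 D C C₀ μT} (Y₂ : S2 X) e, 0 < ι₀ Y₂ e) →
  RowP D C C₀ μT Ys sc fun {_ Y₂ Y₃ _} Y₅ => ∀ e, (∀ i ∈ P, ¬ (edges M).seg e ⊆ M.Q i) →
    LocE Y₃ A A' c (ι₀ Y₂ e) (w e) (F Y₅) e

/-- the constant of the row -/
def dE (A A' c C₀ : ℝ) : ℝ :=
  3 * c * (20 + 10 * A + 18 * A') * C₀ + (A + A' + 2) * (250 * C₀)

/-- **the row `edge`** for the last map -/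
theorem row_edge {A A' c : ℝ} (hA : 0 ≤ A) (hA' : 0 ≤ A') (hc : 0 ≤ c) (hC₀ : 0 ≤ C₀)
    (HL : LocRow D C C₀ μT Ys sc A A' c fun Y₅ => Y₅.f.toFun) {om : (edges M).ε → ℝ}
    (hom : ∀ e, 0 < om e) {D₀ : ℝ} (hD₀ : dE A A' c C₀ ≤ D₀) :
    RowP D C C₀ μT Ys sc fun Y₅ => EdgeF D C D₀ om Y₅.f.toFun :=
  row_edge_of D C hA hA' hc hC₀ hom (fun Y₅ => Y₅.f.toFun) (fun Y₅ => Y₅.f.cont)
    (HL (fun e => om e / 4) fun e => by have := hom e; positivity) hD₀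

/-- **the row `edge`** for the auxiliary map -/
theorem row_edgeq {A A' c : ℝ} (hA : 0 ≤ A) (hA' : 0 ≤ A') (hc : 0 ≤ c) (hC₀ : 0 ≤ C₀)
    (HL : LocRow D C C₀ μT Ys sc A A' c fun Y₅ => Y₅.fq.toFun) {om : (edges M).ε → ℝ}
    (hom : ∀ e, 0 < om e) {D₀ : ℝ} (hD₀ : dE A A' c C₀ ≤ D₀) :
    RowP D C C₀ μT Ys sc fun Y₅ => EdgeF D C D₀ om Y₅.fq.toFun :=
  row_edge_of D C hA hA' hc hC₀ hom (fun Y₅ => Y₅.fq.toFun) (fun Y₅ => Y₅.fq.cont)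
    (HL (fun e => om e / 4) fun e => by have := hom e; positivity) hD₀

end Vale.Agent.P073.Top880
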