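import Vale.Agent.P073.H581.EdRow4

/-!
# P073, H581: `LocAll` from the local theorem of the edges with its inputs `LocHyp`
-/

open Set Metric Topology Filter MeasureTheory
open scoped ENNReal

set_option linter.unusedSectionVars false

namespace Vale.Agent.P073.Top880

open _root_.P073 _root_.P073.Net _root_.P073.PA691 _root_.P073.H236 _root_.P073.H579
open _root_.P073.H345 (PK tg PLev)
open _root_.P073.H880.RP
open Vale.Agent.P073.St (V)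
open Vale.Agent.P073.H471 Vale.Agent.P073.H267
open Vale.Agent.P073.H73 (Mesh onSeg)
open Vale.Agent.P073.H193 (Edges Cyc edges LAtC)
open Vale.Agent.P073.H926
open Vale.Agent.P073.H238.K3
open Vale.Agent.P073.H267.K3
open Vale.Agent.P073.H190.Tvp
open Vale.Agent.P073.H233 (Xp PSet)
open _root_.P073.Croft (levs onS cross)

section

variable {c₀ n δ : ℝ} {j : ℕ} {Ω Λ : Set V} {v w : V} {ρ : V → ℝ} {M : Mesh Ω} {h : ConHomeo Ω Λ}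
  {J₀ J : Set (ℕ × (Fin 3 → ℤ))} {P Z : Set M.ι} {K : BoxCx Λ w}
  {D : KIn3 c₀ n j δ v w ρ M h J₀ J P Z} {C : Cells ρ w K} {C₀ μT : ℝ}
  {X : S1 D C C₀ μT} {Y₂ : S2 X} {Ys : Set M.κ} {sc : Sharp}

/-- **the local theorem at the edge `e`** for the map `f`: `w'`: the tiny number of `LocHyp`, `w₁`:
the tiny number of `GAt` -/
def LocG (Y₃ : S3 Y₂ Ys sc) (A A' c w' w₁ : ℝ) (f : V → V) (e : (edges M).ε) : Prop :=
  ∀ (γ : ℝ → ℝ) (c₁ : ℝ),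
    ArcP Y₂.L (D.dat C).S₀ Y₃.c Y₃.c0 Y₃.c1 Y₃.F Y₃.T3 Y₃.κ
      (fun s => (D.dat C).PE (D.G C) s.1)
      (onS Y₂.h2.toFun ((edges M).a e) ((edges M).b e))
      (onS X.h1.toFun ((edges M).a e) ((edges M).b e))
      (onS Y₃.h3.toFun ((edges M).a e) ((edges M).b e)) γ c₁ →
    ∃ ee : ℝ, 0 ≤ ee ∧ ee ≤ w₁ + 4096 * w' * ‖(edges M).b e - (edges M).a e‖ ∧
      EdgeFam X (CtlS Y₃ e γ A A' 0 ee) c w₁ f e

end

/-- **the local theorem of the edges, for both maps** -/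
def LocGen (C₀ A A' c : ℝ) : Prop :=
  ∀ {c₀ n δ : ℝ} {j : ℕ} {Ω Λ : Set V} {v w : V} {ρ : V → ℝ} {M : Mesh Ω} {h : ConHomeo Ω Λ}
    {J₀ J : Set (ℕ × (Fin 3 → ℤ))} {P Z : Set M.ι} {K : BoxCx Λ w}
    (D : KIn3 c₀ n j δ v w ρ M h J₀ J P Z) (C : Cells ρ w K) (Ys : Set M.κ) {p μ r ν : ℝ}
    {sc : Sharp}, Cn p μ r sc ν n δ →
    RowP D C C₀ (n / 128) Ys sc fun {_ Y₂ Y₃ _} Y₅ => (∀ s, 2 * Y₂.muP s ≤ (D.B C).τ s) →
      ∀ η : K.G → ℝ, EtaOk (J₀ := J₀) (C := C) Y₂ η →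
      ∀ e, (∀ i ∈ P, ¬ (edges M).seg e ⊆ M.Q i) → ∀ w' w₁ : ℝ, 0 < w' → 0 < w₁ →
      LocHyp Y₅ η e w' →
      LocG Y₃ A A' c w' w₁ Y₅.f.toFun e ∧ LocG Y₃ A A' c w' w₁ Y₅.fq.toFun e

/-- **`LocAll` from `LocGen`** -/
theorem locAll_of {C₀ A A' c : ℝ} (H : LocGen C₀ A A' c) : LocAll C₀ A A' c := by
  intro c₀ n δ j Ω Λ v w ρ M h J₀ J P Z K D C Ys p μ r ν sc hCn
  have key : ∀ wE : (edges M).ε → ℝ, (∀ e, 0 < wE e) →
      RowP D C C₀ (n / 128) Ys sc fun {_ _ Y₃ _} Y₅ => ∀ e,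
        (∀ i ∈ P, ¬ (edges M).seg e ⊆ M.Q i) → ∀ ι₀ : ℝ, 0 < ι₀ →
        LocE Y₃ A A' c ι₀ (wE e) Y₅.f.toFun e ∧ LocE Y₃ A A' c ι₀ (wE e) Y₅.fq.toFun e := by
    intro wE hwE
    have hden : ∀ e, 0 < 2 * (4096 * ‖(edges M).b e - (edges M).a e‖ + 1) := fun e => by
      positivity
    refine ((row_lochyp D C (w' := fun e =>
      wE e / (2 * (4096 * ‖(edges M).b e - (edges M).a e‖ + 1)))
      fun e => div_pos (hwE e) (hden e)).and (H D C Ys hCn)).mono ?_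
    rintro X Y₂ Y₃ Y₄ Y₅ ⟨⟨hμ, η, hη, hL⟩, hG⟩ e he ι₀ hι₀
    obtain ⟨H1, H2⟩ := hG hμ η hη e he _ (wE e / 2) (div_pos (hwE e) (hden e))
      (half_pos (hwE e)) (hL e)
    have hb : wE e / (2 * (4096 * ‖(edges M).b e - (edges M).a e‖ + 1)) *
        (2 * (4096 * ‖(edges M).b e - (edges M).a e‖ + 1)) = wE e :=
      div_mul_cancel₀ _ (hden e).ne'
    have hw0 : 0 < wE e / (2 * (4096 * ‖(edges M).b e - (edges M).a e‖ + 1)) :=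
      div_pos (hwE e) (hden e)
    constructor
    · intro γ c₁ hγ
      obtain ⟨ee, h0, h1, h2⟩ := H1 γ c₁ hγ
      exact ⟨wE e / 2, half_pos (hwE e), 0, ee, le_rfl, hι₀.le, h0, by nlinarith, h2⟩
    · intro γ c₁ hγ
      obtain ⟨ee, h0, h1, h2⟩ := H2 γ c₁ hγ
      exact ⟨wE e / 2, half_pos (hwE e), 0, ee, le_rfl, hι₀.le, h0, by nlinarith, h2⟩
  refine ⟨fun wE hwE ι₀ hι₀ => ?_, fun wE hwE ι₀ hι₀ => ?_⟩
  · exact (key wE hwE).mono fun Y₅ h1 e he => (h1 e he _ (hι₀ _ e)).1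
  · exact (key wE hwE).mono fun Y₅ h1 e he => (h1 e he _ (hι₀ _ e)).2

/-- **`REdge` from `LocGen`** -/
theorem rEdge_of_gen {C₀ A A' c : ℝ} (hC₀ : 1 ≤ C₀) (hA : 0 ≤ A) (hA' : 0 ≤ A') (hc : 0 ≤ c)
    (H : LocGen C₀ A A' c) : REdge C₀ := rEdge_of hC₀ hA hA' hc (locAll_of H)

end Vale.Agent.P073.Top880
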