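import Vale.Agent.P073.H581.PTv3
import Vale.Agent.P073.H669.PCnt
import Vale.Agent.P073.H761.SEnd7

/-!
# P073, ROUND P, **[P-TV]**, part 4: the theorem for the levels of H669, with the clamps of H761
-/

open Set Metric Topology Filter
open scoped ENNReal

namespace Vale.Agent.P073.H581

open _root_.P073 _root_.P073.TR _root_.P073.Net _root_.P073.PA691
open Vale.Agent.P073.St (V)
open Vale.Agent.P073.H471 Vale.Agent.P073.H267 Vale.Agent.P073.H267.Geo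
open Vale.Agent.P073.H73 (Mesh onSeg)
open Vale.Agent.P073.H193 (Edges)
open _root_.P073.Croft (Cells Crs levs Generic onS cross varIn TransAt SepL)
open _root_.P073.H236 (BX Lvs BFam stp dsp bmp qm kQ kQ_self kQ_ne)
open _root_.P073.H579 (Pre InsMap prodK convex_fibre AkP EAct)
open _root_.P073.H345 (tg tg_ne tg_ne_not bt bt_tg tg_bt tg_cases PK PB_sub_PK PLev IsQ Out3P RPOut)
open _root_.P073.H142 (PS)
open _root_.P073.H267 (tvE lenE)
open Vale.Agent.P073.H805 (ROut RIn)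
open Vale.Agent.P073.H669 (PLv wl PK_compact PK_sub)
open _root_.P073.H761.SE (wlo whi)

variable {Ω Λ : Set V} {v : V} {K : BoxCx Λ v} {S : Rad K} {W : Wid K S} {B : Boxes W}
  {G : Geo B} {M : Mesh Ω} {E : Edges M} {h h1 h2 h3 : ConHomeo Ω Λ} {Pr : Set M.ι}
  {κ₀ κ₁ : V → V} {GE : E.ε → (V → V) → Prop} {GF : M.κ → (V → V) → Prop}
  {T : Bool → ConHomeo Λ Λ}

/-- the coordinates clamped to the window of the levels of `s` -/
noncomputable def clV (G : Geo B) (s : K.S) (y : V) : V := fun j =>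
  _root_.P073.H761.SE.cw (wlo G s) (whi G s) j y

theorem clV_eq (G : Geo B) (s : K.S) (y : V) (j : Fin 3) : clV G s y j = cw G s j (y j) := rfl

/-- the crossings in the parameter and in space -/
theorem cnt_X2_le_ncard {L : PLev G} (R : RPOut G M E Pr L h1 κ₀ κ₁ h2 GE GF h3) {s : K.S}
    {e : E.ε} (he : EAct E (AkP G M h1 univ) s e) :
    cnt (X2 L E h2 s e true) + cnt (X2 L E h2 s e false) ≤
      (({x | x ∈ E.seg e ∧ ∃ l, h2.toFun x l ∈ L.lv s l}.ncard : ℕ) : ℝ≥0∞) := by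
  obtain ⟨k, ⟨hA, x₀, hx₀, hs₀⟩, hek⟩ := id he
  have hfin := (R.rout.edge k hA s x₀ hx₀ hs₀ e hek).2.1
  rw [L.lvs_lv s] at hfin
  have h4 : (X2 L E h2 s e true).encard + (X2 L E h2 s e false).encard ≤
      ({x | x ∈ E.seg e ∧ ∃ l, h2.toFun x l ∈ L.lv s l}.ncard : ℕ∞) := by
    rw [hfin.cast_ncard_eq, ← encard_union_eq (X2_disj R he), ← (seg_inj e).encard_image]
    refine encard_le_encard ?_
    rintro _ ⟨t, ht | ht, rfl⟩
    · exact ⟨Croft.onS_mem ht.1, _, ht.2⟩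
    · exact ⟨Croft.onS_mem ht.1, _, ht.2⟩
  unfold cnt
  exact_mod_cast h4

section plv

variable {sl : TBx K → Finset (ℝ × ℝ)} {η : ℝ} {τ : Type*} {A : τ → Set V} {C : Set ℝ}
  {εE : E.ε → ℝ} {μ δ : K.S → ℝ}

/-- **[P-TV]**: the variation of the clamped coordinates of `S_P ∘ h3` on the edges of the peeled
faces, against the number of crossings of `h2` -/
theorem exists_ptv_cnt (L : PLv G E h1 Pr sl η A C εE μ δ)
    (R : RPOut G M E Pr L.lev h1 κ₀ κ₁ h2 GE GF h3) {ε : E.ε → ℝ} (hε : ∀ e, 0 < ε e) :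
    ∃ e₁ : K.S → ℝ, (∀ s, 0 < e₁ s) ∧
    ∀ (eS : K.S → ℝ) (he0 : ∀ s, 0 < eS s) (he8 : ∀ s, eS s ≤ δ s / 8), (∀ s, eS s ≤ e₁ s) →
    ∀ T : Bool → ConHomeo Λ Λ, (∀ β, (L.bfam eS he0 he8 β).IsS (T β)) →
    ∀ s e, EAct E (AkP G M h1 univ) s e →
    H239.tv (fun x => clV G s (PS.map T (h3.toFun x))) (E.a e, E.b e)
        (Finset.univ.erase (K.nrm s)) ≤
      ENNReal.ofReal (L.om s true) *
        (({x | x ∈ E.seg e ∧ ∃ l, h2.toFun x l ∈ L.lev.lv s l}.ncard : ℕ) : ℝ≥0∞) +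
        ENNReal.ofReal (ε e) := by
  choose t₁ ht₁ hsliv using fun s => exists_tX h2 (ε := fun e => ε e / 2)
    (fun e => by have := hε e; positivity) (PK_compact G s) (PK_sub G s)
  refine ⟨fun s => δ s / 8 * t₁ s, fun s => mul_pos (by have := L.δ0 s; positivity) (ht₁ s), ?_⟩
  intro eS he0 he8 hsm T hT s e he
  have P : PS L.lev (fun β => L.bfam eS he0 he8 β) T := L.ps he0 he8 hT
  have hδ := L.δ0 s
  have hmeet : (h2.toFun '' E.seg e ∩ PK G s).Nonempty := by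
    obtain ⟨k, ⟨hA, x₀, hx₀, hs₀⟩, hek⟩ := he
    exact ⟨_, ⟨_, E.left_mem e, rfl⟩, PB_sub_PK (by norm_num) s
      (R.rout.near7 k hA s x₀ hx₀ hs₀ _ (hek (E.left_mem e))).2⟩
  have hτ : ∀ β, ENNReal.ofReal ((L.bfam eS he0 he8 β).e s / L.lev.c s β) *
      len (onS h2.toFun (E.a e) (E.b e)) (Icc 0 1) ≤ ENNReal.ofReal (ε e / 2) := by
    intro β
    refine hsliv s _ ?_ ?_ e hmeet
    · exact div_pos (he0 s) (by show 0 < δ s / 8; positivity)
    · have h4 : (L.bfam eS he0 he8 β).e s / L.lev.c s β = eS s / (δ s / 8) := rfl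
      rw [h4, div_le_iff₀ (by positivity), mul_comm]
      exact hsm s
  have key := ptv_two R P he (ω := L.om s true) (fun β => (L.om_eq s β true).le) hτ
  refine le_trans (le_of_eq ?_) (key.trans (add_le_add
    (mul_le_mul_right (cnt_X2_le_ncard R he) _) (le_of_eq ?_)))
  · rfl
  · have h4 := hε e
    rw [← ENNReal.ofReal_ofNat, ← ENNReal.ofReal_mul (by norm_num)]
    congr 1
    ring

/-- **[P-TV]**, the sharp form: `h1 = h` on the edge -/
theorem exists_ptv (L : PLv G E h1 Pr sl η A C εE μ δ)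
    (R : RPOut G M E Pr L.lev h1 κ₀ κ₁ h2 GE GF h3) {ε : E.ε → ℝ} (hε : ∀ e, 0 < ε e)
    (hεE : ∀ e, 0 ≤ εE e) (hεE' : ∀ e, 8 * εE e ≤ ε e) :
    ∃ e₁ : K.S → ℝ, (∀ s, 0 < e₁ s) ∧
    ∀ (eS : K.S → ℝ) (he0 : ∀ s, 0 < eS s) (he8 : ∀ s, eS s ≤ δ s / 8), (∀ s, eS s ≤ e₁ s) →
    ∀ T : Bool → ConHomeo Λ Λ, (∀ β, (L.bfam eS he0 he8 β).IsS (T β)) →
    ∀ s e, EAct E (AkP G M h1 univ) s e → ∀ h : ConHomeo Ω Λ,
    EqOn h1.toFun h.toFun (E.seg e) → ∀ c : ℝ, 0 ≤ c → c ≤ 1 → η ≤ c / 16 →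
    (∀ β, μ s ≤ c / 4 * wl G s β) →
    H239.tv (fun x => clV G s (PS.map T (h3.toFun x))) (E.a e, E.b e)
        (Finset.univ.erase (K.nrm s)) ≤
      ENNReal.ofReal (1 + c) * H239.tv h.toFun (E.a e, E.b e) (Finset.univ.erase (K.nrm s)) +
        ENNReal.ofReal (ε e) := by
  obtain ⟨e₁, he₁, key⟩ := exists_ptv_cnt L R (ε := fun e => ε e / 2)
    (fun e => by have := hε e; positivity)
  refine ⟨e₁, he₁, fun eS he0 he8 hsm T hT s e he h hoff c hc0 hc1 hη hμ => ?_⟩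
  have h4 := key eS he0 he8 hsm T hT s e he
  have h5 := (L.cnt_side R.rout he hoff hc0 hc1 hη hμ true).2
  refine h4.trans ((add_le_add h5 le_rfl).trans ?_)
  rw [add_assoc, ← ENNReal.ofReal_add (by have := hεE e; positivity)
    (by have := hε e; positivity)]
  gcongr
  have := hεE' e
  linarith

end plv

end Vale.Agent.P073.H581
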