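import Vale.Agent.P073.H581.T5c
import Vale.Agent.P073.H581.T5d
import Vale.Agent.P073.H669.TLevB
import Vale.Agent.P073.H267.RoundDefs

/-!
# P073, ROUND T, (T5): the variation on the edges
-/

open Set Metric Topology Filter
open scoped ENNReal

namespace Vale.Agent.P073.H581

open _root_.P073 _root_.P073.TR _root_.P073.Net _root_.P073.PA691
open Vale.Agent.P073.St (V)
open Vale.Agent.P073.H471 Vale.Agent.P073.H267 Vale.Agent.P073.H267.Geo
open Vale.Agent.P073.H73 (Mesh)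
open Vale.Agent.P073.H193 (Edges)
open Vale.Agent.P073.H238 (oT marg TStage1 TAct TProt skel)
open _root_.P073.Croft (Cells Crs levs Generic onS cross varIn TransAt SepL)
open _root_.P073.H236 (BX Lvs BFam stp dsp bmp)
open _root_.P073.H669 (TLv mem_TB TB_sub_false)
open _root_.P073.H267 (tvE lenE)

variable {Ω Λ : Set V} {v : V} {K : BoxCx Λ v} {S : Rad K} {W : Wid K S} {B : Boxes W}
  {G : Geo B} {M : Mesh Ω} {E : Edges M} {h h' : ConHomeo Ω Λ} {ω : TBx K → ℝ}
  {T : TBx K → Finset (ℝ × ℝ)} {η : ℝ} {τ : Type*} {A : τ → Set V} {C : Set ℝ} {εE : E.ε → ℝ}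
  {δ : TBx K → ℝ}

/-- the levels of a box are in different cells -/
theorem lvs_sep {N : ℕ} {a : ℕ → ℝ} {c al be : ℝ} (H : Lvs N a c al be) {k k' : ℕ} (hk : k < N)
    (hk' : k' < N) (hne : k ≠ k') : 4 * c ≤ |a k - a k'| := by
  rcases lt_or_gt_of_ne hne with h | h
  · have := H.add_le h hk'
    rw [abs_sub_comm]
    exact le_trans (by linarith) (le_abs_self _)
  · have := H.add_le h hk
    exact le_trans (by linarith) (le_abs_self _)

/-- at most two boxes of round T meet a small set -/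
theorem card_boxes (ω0 : ∀ b, 0 < ω b) (ωo : ∀ b, ω b ≤ oT G b) {X : Set V}
    (hosc : ∀ b, ∀ x ∈ X, ∀ y ∈ X, h.toFun x ∈ G.TB false b →
      dist (h.toFun x) (h.toFun y) ≤ ω b) (F : Finset (TBx K))
    (hF : ∀ b ∈ F, ∃ x ∈ X, h.toFun x ∈ G.TB false b) : F.card ≤ 2 := by
  classical
  have key : F.card ≤ (Finset.univ : Finset Bool).card := by
    refine Finset.card_le_card_of_injOn (fun b => b.isLeft) (fun _ _ => Finset.mem_univ _) ?_
    intro b hb b' hb' hbb
    obtain ⟨x, hx, hxb⟩ := hF b hb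
    obtain ⟨x', hx', hxb'⟩ := hF b' hb'
    have h1 := hosc b x hx x' hx' hxb
    have h2 := ωo b
    have h3 := ω0 b
    rcases b with e | q <;> rcases b' with e' | q'
    · congr 1
      by_contra hne
      have h4 : ω (.inl e) ≤ G.oG e := h2
      exact (disjoint_se (W := W) hne).notMem_of_mem_left
        (H238.near_inl G hxb (z := h.toFun x') (by linarith))
        (Ze_subset (TB_subset_Ze e' hxb'))
    · exact absurd hbb (by simp)
    · exact absurd hbb (by simp)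
    · congr 1
      have h4 : ω (.inr q) ≤ G.oW q.i := h2
      by_cases hi : q.i = q'.i
      · by_contra hne
        have hs : q.s ≠ q'.s := fun hs => hne (hang_eq hi hs)
        exact (disjoint_ss (W := W) hs).notMem_of_mem_left
          (H238.near_inr G hxb (z := h.toFun x') (by linarith) (by linarith))
          (Zs_subset (TB_subset_Zs q' hxb'))
      · exfalso
        exact (S.U_disj _ _ hi).notMem_of_mem_left
          (H238.near_ball G hxb (z := h.toFun x') (by linarith))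
          (H238.near_ball G hxb' (z := h.toFun x') (by
            rw [dist_self]
            have h5 : 0 < oT G (.inr q') := (ω0 _).trans_le (ωo _)
            have h6 : 0 < G.oW q'.i := h5
            linarith))
  simpa using key

/-- the supports of the maps of round T -/
def Kc (G : Geo B) (ω : TBx K → ℝ) (b : TBx K) : Set V :=
  {y | (G.tlo true b b.ax ≤ y b.ax ∧ y b.ax ≤ G.thi true b b.ax) ∧
    ∀ i, i ≠ b.ax → G.tlo true b i - 40 * ω b ≤ y i ∧ y i ≤ G.thi true b i + 40 * ω b}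

/-- the thickness function of a box of round T -/
noncomputable def mT (G : Geo B) (ω : TBx K → ℝ) (b : TBx K) (c : ℝ) : V → ℝ :=
  bmp b.ax (fun i => G.tlo true b i - 20 * ω b) (fun i => G.thi true b i + 20 * ω b)
    (fun _ => 20 * ω b) c

theorem mT_sub_le {b : TBx K} (h0 : 0 < ω b) {c : ℝ} (hc : 0 ≤ c) (y y' : V) :
    |mT G ω b c y - mT G ω b c y'| ≤ c * ((20 * ω b)⁻¹ * ‖y - y'‖) := by
  refine (_root_.P073.H236.abs_bmp_sub_le hc (d := ‖y - y'‖) (δ := 20 * ω b) (by linarith)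
    (fun _ => le_rfl) (fun i _ => ?_) (norm_nonneg _)).trans (le_of_eq ?_)
  · rw [← Pi.sub_apply, ← Real.norm_eq_abs]
    exact norm_le_pi_norm _ i
  · rw [div_eq_mul_inv, mul_comm ‖y - y'‖]

section

variable (L : TLv G E h ω T η A C εE δ)

theorem mem_Kc {c : TBx K → ℝ} (hc0 : ∀ b, 0 < c b) (hc : ∀ b, c b ≤ δ b / 8) {b : TBx K}
    {y : V} : y ∈ (L.bxQ c hc0 hc b).K ↔ y ∈ Kc G ω b := L.mem_K hc0 hc

include L in
theorem isClosed_Kc (b : TBx K) : IsClosed (Kc G ω b) := by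
  have h1 : (L.bxQ (fun b => δ b / 8) (fun b => by have := L.δ0 b; positivity)
      (fun _ => le_rfl) b).K = Kc G ω b := by
    ext y
    exact mem_Kc L _ _
  rw [← h1]
  exact BX.isCompact_K _ |>.isClosed

include L in
theorem Kc_sub (b : TBx K) : Kc G ω b ⊆ G.TB false b := by
  intro y hy
  exact L.K_sub (c := fun b => δ b / 8) (fun b => by have := L.δ0 b; positivity)
    (fun _ => le_rfl) b ((mem_Kc L _ _).2 hy)

/-- the crossings of an edge with the levels of a box -/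
def Xs (h' : ConHomeo Ω Λ) (e : E.ε) (b : TBx K) : Set ℝ :=
  cross (onS h'.toFun (E.a e) (E.b e)) b.ax (L.lev b) (Kc G ω b)

/-- the bands of an edge in a box -/
def Bands (h' : ConHomeo Ω Λ) (e : E.ε) (b : TBx K) (c : ℝ) (l r : ℝ → ℝ) : Prop :=
  (∀ x ∈ Xs L h' e b, l x ≤ r x) ∧
  (∀ x ∈ Xs L h' e b, eVariationOn (fun s => onS h'.toFun (E.a e) (E.b e) s b.ax)
    (Icc (l x) (r x)) ≤ ENNReal.ofReal (4 * c)) ∧
  (∀ x ∈ Xs L h' e b, eVariationOn (fun s => mT G ω b c (onS h'.toFun (E.a e) (E.b e) s))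
    (Icc (l x) (r x)) ≤ ENNReal.ofReal (2 * c)) ∧
  ∀ s ∈ Icc (0:ℝ) 1, onS h'.toFun (E.a e) (E.b e) s ∈ Kc G ω b →
    (∃ k < L.N b, |onS h'.toFun (E.a e) (E.b e) s b.ax - L.a b k| ≤ 2 * c) →
    ∃ x ∈ Xs L h' e b, s ∈ Icc (l x) (r x)

variable {Pr : Set M.ι}

theorem Xs_sub (e : E.ε) (b : TBx K) : Xs L h' e b ⊆
    cross (onS h'.toFun (E.a e) (E.b e)) b.ax (L.lev b) (G.TB false b) :=
  fun _ hs => ⟨hs.1, Kc_sub L b hs.2.1, hs.2.2⟩

theorem cross_fin (O : TStage1 G M h h' Pr L.lev ω) (f : Bool) (e : E.ε) (b : TBx K) :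
    (cross (onS h'.toFun (E.a e) (E.b e)) b.ax (L.lev b) (G.TB f b)).Finite :=
  ((L.crs f e).fin b).subset (L.cross_sub O f e b)

theorem Xs_fin (O : TStage1 G M h h' Pr L.lev ω) (e : E.ε) (b : TBx K) :
    (Xs L h' e b).Finite := (cross_fin L O false e b).subset (Xs_sub L e b)

theorem trans' (O : TStage1 G M h h' Pr L.lev ω) {e : E.ε} {b : TBx K} {x : ℝ}
    (hx : x ∈ Xs L h' e b) : TransAt (onS h'.toFun (E.a e) (E.b e)) b.ax x := by
  have hx' := Xs_sub L e b hx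
  obtain ⟨r, hr, w, hw, h0, h1, haff⟩ := (L.crs false e).trans b x (L.cross_sub O false e b hx')
  obtain ⟨ε, hε, hgerm⟩ := Metric.eventually_nhds_iff.1 (L.cross_germ O hx')
  refine ⟨min r (ε / 2), lt_min hr (by linarith), w, hw, ?_, ?_, fun s hs => ?_⟩
  · linarith [min_le_left r (ε / 2)]
  · linarith [min_le_left r (ε / 2)]
  · have h2 : dist s x < ε := by
      rw [Real.dist_eq, abs_lt]
      have := min_le_right r (ε / 2)
      constructor <;> linarith [hs.1, hs.2]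
    have h3 := min_le_left r (ε / 2)
    rw [hgerm h2, hgerm (by rw [dist_self]; exact hε)]
    exact haff s ⟨by linarith [hs.1], by linarith [hs.2]⟩

/-- curves -/
theorem onS_cont (h : ConHomeo Ω Λ) (e : E.ε) :
    ContinuousOn (onS h.toFun (E.a e) (E.b e)) (Icc 0 1) := by
  refine h.cont.comp (f := fun t : ℝ => E.a e + t • (E.b e - E.a e)) (by fun_prop) ?_
  intro t ht
  exact E.seg_sub_Ω e (Croft.onS_mem ht)

theorem onS_inj (h : ConHomeo Ω Λ) (e : E.ε) :
    InjOn (onS h.toFun (E.a e) (E.b e)) (Icc 0 1) := by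
  intro s hs t ht hst
  have h1 := h.injOn (E.seg_sub_Ω e (Croft.onS_mem hs)) (E.seg_sub_Ω e (Croft.onS_mem ht)) hst
  have h2 : (s - t) • (E.b e - E.a e) = 0 := by
    have := add_left_cancel h1
    rw [sub_smul, this, sub_self]
  rcases smul_eq_zero.1 h2 with h3 | h3
  · linarith
  · exact absurd (sub_eq_zero.1 h3).symm (E.ne e)

theorem onS_maps (h : ConHomeo Ω Λ) (e : E.ε) :
    MapsTo (onS h.toFun (E.a e) (E.b e)) (Icc 0 1) Λ := fun _ ht =>
  h.mapsTo (E.seg_sub_Ω e (Croft.onS_mem ht))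

theorem onS_img (h : ConHomeo Ω Λ) (e : E.ε) {t : ℝ} (ht : t ∈ Icc (0:ℝ) 1) :
    onS h.toFun (E.a e) (E.b e) t ∈ h.toFun '' E.seg e := ⟨_, Croft.onS_mem ht, rfl⟩

/-- from `∀ᶠ` to a threshold -/
theorem exists_of_ev {P : ℝ → Prop} (h : ∀ᶠ c in 𝓝[>] (0:ℝ), P c) :
    ∃ c₁ > 0, ∀ c, 0 < c → c ≤ c₁ → P c := by
  obtain ⟨u, hu, h1⟩ := mem_nhdsGT_iff_exists_Ioo_subset.1 h
  have hu' : 0 < u := hu
  exact ⟨u / 2, by linarith, fun c h2 h3 => h1 ⟨h2, by linarith⟩⟩

/-- the edges which meet a box -/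
theorem fin_edges (h : ConHomeo Ω Λ) (b : TBx K) :
    {e : E.ε | (h.toFun '' E.seg e ∩ G.TB false b).Nonempty}.Finite :=
  Croft.finite_image_inter h (fun e => E.seg_sub_Ω e) (fun X hX hXc => E.fin X hX hXc)
    isCompact_Icc (TB_sub b)

/-- the boxes which meet an edge -/
theorem fin_boxes (h : ConHomeo Ω Λ) (e : E.ε) :
    {b : TBx K | (h.toFun '' E.seg e ∩ G.TB false b).Nonempty}.Finite :=
  Croft.finite_inter_image h (lf_TB G) (E.isCompact_seg e) (E.seg_sub_Ω e)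

/-- **the thresholds for the thickness** -/
theorem exists_c1 (O : TStage1 G M h h' Pr L.lev ω) (b : TBx K) :
    ∃ c₁ > 0, ∀ c, 0 < c → c ≤ c₁ → ∀ e, ∃ l r, Bands L h' e b c l r := by
  have h1 : ∀ᶠ c in 𝓝[>] (0:ℝ), ∀ e ∈ {e : E.ε | (h'.toFun '' E.seg e ∩ G.TB false b).Nonempty},
      ∃ l r, Bands L h' e b c l r := by
    refine (eventually_all_finite (fin_edges h' b)).2 fun e _ => ?_
    have hc0 : ∀ b, 0 < δ b / 8 := fun b => by have := L.δ0 b; positivity
    exact exists_bands (onS_cont h' e) (isClosed_Kc L b) (c₀ := δ b / 8)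
      (A := (20 * ω b)⁻¹) (m := mT G ω b) (hc0 b) (by have := L.ω0 b; positivity)
      (fun k hk k' hk' hne => lvs_sep ((L.bxQ (fun b => δ b / 8) hc0 (fun _ => le_rfl) b).lvs)
        hk hk' hne) (Xs_fin L O e b)
      (fun s hs hsK hk => ⟨hs, hsK, by
        obtain ⟨k, hk, hk'⟩ := hk
        exact ⟨k, hk, hk'⟩⟩)
      (fun x hx => trans' L O hx)
      (fun x hx => by
        obtain ⟨-, -, k, hk, hk'⟩ := hx
        exact ⟨k, hk, hk'⟩)
      (fun c hc y y' => mT_sub_le (L.ω0 b) hc y y')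
  obtain ⟨c₁, hc₁, h2⟩ := exists_of_ev h1
  refine ⟨c₁, hc₁, fun c h3 h4 e => ?_⟩
  by_cases he : (h'.toFun '' E.seg e ∩ G.TB false b).Nonempty
  · exact h2 c h3 h4 e he
  · have hno : ∀ s ∈ Icc (0:ℝ) 1, onS h'.toFun (E.a e) (E.b e) s ∉ Kc G ω b := fun s hs hK =>
      he ⟨_, onS_img h' e hs, Kc_sub L b hK⟩
    have hX : ∀ x, x ∉ Xs L h' e b := fun x hx => hno x hx.1 hx.2.1
    exact ⟨fun _ => 0, fun _ => 0, fun x hx => absurd hx (hX x), fun x hx => absurd hx (hX x),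
      fun x hx => absurd hx (hX x), fun s hs hK => absurd hK (hno s hs)⟩

/-- **the thresholds for the slivers** -/
theorem exists_t1 (h' : ConHomeo Ω Λ) {ε : E.ε → ℝ} (hε : ∀ e, 0 < ε e) (b : TBx K) :
    ∃ t₁ > 0, ∀ t, 0 < t → t ≤ t₁ → ∀ e : E.ε, (h'.toFun '' E.seg e ∩ G.TB false b).Nonempty →
      ENNReal.ofReal t * len (onS h'.toFun (E.a e) (E.b e)) (Icc 0 1) ≤
        ENNReal.ofReal (ε e) := by
  have h1 : ∀ᶠ t in 𝓝[>] (0:ℝ), ∀ e ∈ {e : E.ε | (h'.toFun '' E.seg e ∩ G.TB false b).Nonempty},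
      ENNReal.ofReal t * len (onS h'.toFun (E.a e) (E.b e)) (Icc 0 1) ≤
        ENNReal.ofReal (ε e) := by
    refine (eventually_all_finite (fin_edges h' b)).2 fun e _ => ?_
    have hfin := conical_len_lt_top zero_le_one
      (Croft.conicalOn_onS h'.conical (E.seg_sub_Ω e))
    set ℓ := (len (onS h'.toFun (E.a e) (E.b e)) (Icc 0 1)).toReal with hℓ
    have hℓ0 : 0 ≤ ℓ := ENNReal.toReal_nonneg
    have h2 : ∀ᶠ t in 𝓝[>] (0:ℝ), t < ε e / (ℓ + 1) :=
      mem_nhdsWithin_of_mem_nhds (Iio_mem_nhds (div_pos (hε e) (by linarith)))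
    filter_upwards [h2, self_mem_nhdsWithin] with t h3 h4
    have ht0 : 0 < t := h4
    rw [lt_div_iff₀ (by linarith)] at h3
    rw [← ENNReal.ofReal_toReal hfin.ne, ← hℓ, ← ENNReal.ofReal_mul ht0.le]
    apply ENNReal.ofReal_le_ofReal
    nlinarith
  obtain ⟨t₁, ht₁, h2⟩ := exists_of_ev h1
  exact ⟨t₁, ht₁, fun t h3 h4 e he => h2 t h3 h4 e he⟩

end

end Vale.Agent.P073.H581
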