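import Vale.Agent.P073.H581.T5e

/-!
# P073, ROUND T, (T5): the fields `tv`, `tvs` of `TOut`
-/

open Set Metric Topology Filter
open scoped ENNReal

namespace Vale.Agent.P073.H581

open _root_.P073 _root_.P073.TR _root_.P073.Net _root_.P073.PA691
open Vale.Agent.P073.St (V)
open Vale.Agent.P073.H471 Vale.Agent.P073.H267 Vale.Agent.P073.H267.Geo
open Vale.Agent.P073.H73 (Mesh)
open Vale.Agent.P073.H193 (Edges)
open Vale.Agent.P073.H238 (oT marg TStage1 TAct TProt skel)
open _root_.P073.Croft (Cells Crs levs Generic onS cross varIn TransAt SepL)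
open _root_.P073.H236 (BX Lvs BFam stp dsp bmp qm)
open _root_.P073.H669 (TLv mem_TB TB_sub_false)
open _root_.P073.H267 (tvE lenE)

variable {Ω Λ : Set V} {v : V} {K : BoxCx Λ v} {S : Rad K} {W : Wid K S} {B : Boxes W}
  {G : Geo B} {M : Mesh Ω} {E : Edges M} {h h' : ConHomeo Ω Λ} {ω : TBx K → ℝ}
  {T : TBx K → Finset (ℝ × ℝ)} {η : ℝ} {τ : Type*} {A : τ → Set V} {C : Set ℝ} {εE : E.ε → ℝ}
  {δ : TBx K → ℝ} {Pr : Set M.ι}

/-- the counts of the crossings, weighted with the steps -/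
theorem card_mul_stp (L : TLv G E h ω T η A C εE δ) (O : TStage1 G M h h' Pr L.lev ω) {μ₁ : ℝ}
    (h1 : μ₁ ≤ 1 / 2)
    {b : TBx K} (hs : (1 - μ₁) * stp (L.N b) (G.tlo true b b.ax) (G.thi true b b.ax) ≤ δ b)
    {f : Bool} {e : E.ε} {X : Finset ℝ}
    (hX : (X : Set ℝ) ⊆ cross (onS h'.toFun (E.a e) (E.b e)) b.ax (L.lev b) (G.TB f b)) :
    (X.card : ℝ≥0∞) * ENNReal.ofReal (stp (L.N b) (G.tlo true b b.ax) (G.thi true b b.ax)) ≤
      ENNReal.ofReal (1 - μ₁)⁻¹ * (ENNReal.ofReal (δ b) *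
        cnt (cross (onS h'.toFun (E.a e) (E.b e)) b.ax (L.lev b) (G.TB f b))) := by
  have h2 : 0 < 1 - μ₁ := by linarith
  have h3 : stp (L.N b) (G.tlo true b b.ax) (G.thi true b b.ax) ≤ (1 - μ₁)⁻¹ * δ b := by
    rw [← div_eq_inv_mul, le_div_iff₀ h2, mul_comm]; exact hs
  have h4 : (X.card : ℝ≥0∞) ≤
      cnt (cross (onS h'.toFun (E.a e) (E.b e)) b.ax (L.lev b) (G.TB f b)) := by
    have h5 : ((X : Set ℝ).encard : ℝ≥0∞) = (X.card : ℝ≥0∞) := by
      rw [Set.encard_coe_eq_coe_finsetCard]; simp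
    rw [← h5]
    unfold cnt
    exact_mod_cast encard_le_encard hX
  calc (X.card : ℝ≥0∞) * ENNReal.ofReal (stp (L.N b) (G.tlo true b b.ax) (G.thi true b b.ax))
      ≤ cnt (cross (onS h'.toFun (E.a e) (E.b e)) b.ax (L.lev b) (G.TB f b)) *
        ENNReal.ofReal ((1 - μ₁)⁻¹ * δ b) := by
        gcongr
    _ = _ := by
        rw [ENNReal.ofReal_mul (inv_nonneg.2 h2.le)]
        ring

/-- **(T5)** -/
theorem exists_T5 (L : TLv G E h ω T η A C εE δ) (O : TStage1 G M h h' Pr L.lev ω)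
    (hosc : ∀ b k, ∀ x ∈ M.F k, ∀ y ∈ M.F k, h.toFun x ∈ G.TB false b →
      dist (h.toFun x) (h.toFun y) ≤ ω b) (hΛ : IsOpen Λ) {μ₁ : ℝ} (h1 : μ₁ ≤ 1 / 2)
    (hμ : ∀ b, 80 * ω b ≤ μ₁ * (G.thi true b b.ax - G.tlo true b b.ax)) (hη : η ≤ 1 / 8)
    (hT : ∀ b, dsp (T b) (δ b) ≤ 20 * ω b) {ε : E.ε → ℝ} (hε : ∀ e, 0 < ε e)
    (hεE : ∀ e, 0 ≤ εE e) (hεE' : ∀ e, 16 * εE e ≤ ε e) :
    ∃ c₁ : TBx K → ℝ, (∀ b, 0 < c₁ b) ∧
    ∀ (c : TBx K → ℝ) (hc0 : ∀ b, 0 < c b) (hc : ∀ b, c b ≤ δ b / 8), (∀ b, c b ≤ c₁ b) →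
    ∃ e₁ : TBx K → ℝ, (∀ b, 0 < e₁ b) ∧
    ∀ κ, H345.IsQ (L.bxQ c hc0 hc) κ → ContinuousOn κ Λ → ∀ g : ConHomeo Ω Λ,
    (∀ e, g.toFun '' E.seg e = H579.Pre κ Λ h' (E.seg e)) →
    (∀ x ∈ E.verts, κ (g.toFun x) = h'.toFun x) →
    ∀ (e D : TBx K → ℝ) (he : ∀ b, 0 < e b) (he8 : ∀ b, e b ≤ δ b / 8)
      (hD : ∀ b, dsp (T b) (δ b) + δ b + 60 * ω b ≤ D b), (∀ b, e b ≤ e₁ b) →
    (∀ b, D b ≤ 80 * ω b) → ∀ S' : ConHomeo Λ Λ, (L.bfam hc0 hc e D he he8 hD).IsS S' →
    (∀ e₀ j, (∀ b, (h.toFun '' E.seg e₀ ∩ G.TB false b).Nonempty → b.ax = j) →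
      tvE E (fun x => S'.toFun (g.toFun x)) e₀ j ≤
        ENNReal.ofReal 32 * lenE E h.toFun e₀ + ENNReal.ofReal (ε e₀)) ∧
    ∀ e₀ b, (∀ x ∈ E.seg e₀, closedBall (h.toFun x) (30 * ω b) ⊆ G.TB true b) →
      tvE E (fun x => S'.toFun (g.toFun x)) e₀ b.ax ≤
        ENNReal.ofReal ((1 - μ₁)⁻¹ * (1 - 2 * η)⁻¹) * tvE E h.toFun e₀ b.ax +
          ENNReal.ofReal (ε e₀) := by
  classical
  choose c₁ hc₁ hbands using fun b => exists_c1 L O b
  choose t₁ ht₁ hsliv using fun b => exists_t1 h' (ε := fun e => ε e / 8)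
    (fun e => by have := hε e; positivity) b
  refine ⟨c₁, hc₁, fun c hc0 hc hcc => ⟨fun b => c b * min 1 (t₁ b),
    fun b => mul_pos (hc0 b) (lt_min one_pos (ht₁ b)), ?_⟩⟩
  intro κ hκ hκc g himg hvert e D he he8 hD hee hD80 S' hS'
  set F : BFam 3 (TBx K) Λ := L.bfam hc0 hc e D he he8 hD with hF
  have H : H345.Fam Λ (L.bxQ c hc0 hc) := L.fam345 hc0 hc hΛ
  have hω := L.ω0
  -- slivers
  have hec : ∀ b, e b / c b ≤ min 1 (t₁ b) := fun b => by
    rw [div_le_iff₀ (hc0 b), mul_comm]; exact hee b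
  have hec0 : ∀ b, 0 < e b / c b := fun b => div_pos (he b) (hc0 b)
  -- steps
  have hstp : ∀ b, (1 - μ₁) * stp (L.N b) (G.tlo true b b.ax) (G.thi true b b.ax) ≤ δ b :=
    fun b => L.stp_le b (by linarith [hμ b, hT b])
  have hμ0 : 0 < 1 - μ₁ := by linarith
  have hμ1 : (1 - μ₁)⁻¹ ≤ 2 := by
    rw [inv_le_comm₀ hμ0 two_pos]; linarith
  have hη0 : 0 < 1 - 2 * η := by linarith
  have hη1 : (1 - 2 * η)⁻¹ ≤ 4 / 3 := by
    rw [inv_le_comm₀ hη0 (by norm_num)]; linarith
  have hom : ∀ b, F.om b = stp (L.N b) (G.tlo true b b.ax) (G.thi true b b.ax) := fun b => rfl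
  -- the parameter change
  have hpar : ∀ e₀ : E.ε, ∃ γ : ℝ → ℝ, MonotoneOn γ (Icc 0 1) ∧ ContinuousOn γ (Icc 0 1) ∧
      MapsTo γ (Icc 0 1) (Icc 0 1) ∧ ∀ t ∈ Icc (0:ℝ) 1,
        κ (onS g.toFun (E.a e₀) (E.b e₀) t) = onS h'.toFun (E.a e₀) (E.b e₀) (γ t) := by
    intro e₀
    refine exists_par (E.ne e₀) (E.seg_sub_Ω e₀) hκc (himg e₀)
      (hvert _ (Or.inl ⟨e₀, rfl⟩)) (hvert _ (Or.inr ⟨e₀, rfl⟩)) fun x hx => ?_
    have hxΛ : h'.toFun x ∈ Λ := h'.mapsTo (E.seg_sub_Ω e₀ hx)
    have e1 : {y | y ∈ Λ ∧ κ y = h'.toFun x} = {y | κ y = h'.toFun x} := by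
      ext y
      exact ⟨fun h => h.2, fun h => ⟨hκ.mem_Λ H (by rw [show κ y = _ from h]; exact hxΛ), h⟩⟩
    rw [e1]
    exact (fib_convex hκ H _).isPreconnected
  -- the face of an edge
  have hoscE : ∀ (e₀ : E.ε) b, ∀ x ∈ E.seg e₀, ∀ y ∈ E.seg e₀, h.toFun x ∈ G.TB false b →
      dist (h.toFun x) (h.toFun y) ≤ ω b := by
    intro e₀ b x hx y hy
    obtain ⟨k, hk⟩ := E.own e₀
    exact hosc b k x (hk hx) y (hk hy)
  have hmemK : ∀ b y, y ∈ (F.B b).K ↔ y ∈ Kc G ω b := fun b y => mem_Kc L hc0 hc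
  refine ⟨fun e₀ j hax => ?_, fun e₀ b hdeep => ?_⟩
  · obtain ⟨γ, γm, γc, γI, hγ⟩ := hpar e₀
    set Tf : Finset (TBx K) := (fin_boxes (G := G) h e₀).toFinset with hTf
    have hTf' : ∀ b, b ∈ Tf ↔ (h.toFun '' E.seg e₀ ∩ G.TB false b).Nonempty := fun b => by
      rw [hTf, Finite.mem_toFinset]; rfl
    have hcard : Tf.card ≤ 2 := by
      refine card_boxes (h := h) hω L.ωo (hoscE e₀) Tf fun b hb => ?_
      obtain ⟨_, ⟨x, hx, rfl⟩, hxb⟩ := (hTf' b).1 hb
      exact ⟨x, hx, hxb⟩
    have hxseg : ∀ s ∈ Icc (0:ℝ) 1, E.a e₀ + s • (E.b e₀ - E.a e₀) ∈ E.seg e₀ := fun s hs =>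
      Croft.onS_mem hs
    choose! l r hB1 hB2 hB3 hB4 using fun b => hbands b (c b) (hc0 b) (hcc b) e₀
    set Z : ℝ → V := onS h'.toFun (E.a e₀) (E.b e₀) with hZ
    set q : ℝ → V := onS h.toFun (E.a e₀) (E.b e₀) with hq
    set X : TBx K → Finset ℝ := fun b => (Xs_fin L O e₀ b).toFinset with hX
    have hmX : ∀ b x, x ∈ X b ↔ x ∈ Xs L h' e₀ b := fun b x => by
      rw [hX]; exact Finite.mem_toFinset _
    have hcrv : Crv F κ S' (onS g.toFun (E.a e₀) (E.b e₀)) Z q γ Tf j X l r := by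
      refine
        { κon := hκ.on
          κoff := hκ.off
          κmem := fun b y hy => (hκ.mem_iff H).1 hy
          hS := hS'
          hec := fun b _ => ?_
          γm := γm
          γc := γc
          γI := γI
          Yc := onS_cont g e₀
          Yi := onS_inj g e₀
          YΛ := onS_maps g e₀
          eq := hγ
          Zc := onS_cont h' e₀
          mem := fun b s hs hsK => ?_
          ax := fun b hb => hax b ((hTf' b).1 hb)
          fade := fun s hs hno => ?_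
          cross := fun b hb s hs hsK hk => ?_
          XK := fun b hb x hx => ?_
          lr := fun b hb x hx => hB1 b x ((hmX b x).1 hx)
          band := fun b hb s hs hsK hk => ?_ }
      · show e b ≤ c b
        have := (div_le_one (hc0 b)).1 ((hec b).trans (min_le_left _ _))
        exact this
      · rw [hTf']
        have h2 : Z s ∈ G.TB false b := L.K_sub hc0 hc b hsK
        have h3 := (O.mem b _ (E.seg_sub_Ω e₀ (hxseg s hs))).1 h2
        exact ⟨_, ⟨_, hxseg s hs, rfl⟩, h3⟩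
      · have hxΩ := E.seg_sub_Ω e₀ (hxseg s hs)
        have h2 := O.off' _ hxΩ (fun b hb => by
          have h3 := (O.memM b _ hxΩ).2 hb
          refine hno b (interior_mono ?_ h3)
          intro y hy
          refine (L.fullK_iff hc0 hc e D he he8 hD).2 ⟨?_, fun i hi => ?_⟩
          · have h4 := hy.1 b.ax
            have h5 := hy.2 b.ax
            simp only [if_true] at h4 h5
            exact ⟨h4, h5⟩
          · have h4 := hy.1 i
            have h5 := hy.2 i
            simp only [if_neg hi] at h4 h5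
            have := hω b
            constructor <;> linarith)
        have h3 : ContinuousAt (fun s : ℝ => E.a e₀ + s • (E.b e₀ - E.a e₀)) s := by fun_prop
        exact mem_nhdsWithin_of_mem_nhds (h3.eventually h2)
      · rw [hmX]
        have hj := hax b ((hTf' b).1 hb)
        refine ⟨hs, (hmemK b _).1 hsK, ?_⟩
        obtain ⟨k, hk, hk'⟩ := hk
        exact ⟨k, hk, by rw [hj]; exact hk'⟩
      · exact (hmemK b _).2 ((hmX b x).1 hx).2.1
      · have hj := hax b ((hTf' b).1 hb)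
        obtain ⟨k, hk, hk'⟩ := hk
        obtain ⟨x, hx, h2⟩ := hB4 b s hs ((hmemK b _).1 hsK) ⟨k, hk, by rw [hj]; exact hk'⟩
        exact ⟨x, (hmX b x).2 hx, h2⟩
    have key := hcrv.evar_le
    have hlen : lenE E h.toFun e₀ = len q (Icc 0 1) := rfl
    have hgoal : tvE E (fun x => S'.toFun (g.toFun x)) e₀ j =
        eVariationOn (fun t => S'.toFun (onS g.toFun (E.a e₀) (E.b e₀) t) j) (Icc 0 1) := rfl
    rw [hgoal, hlen]
    refine key.trans ?_
    -- one box
    have hone : ∀ b ∈ Tf, ENNReal.ofReal (F.e b / (F.B b).c) *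
          eVariationOn (fun s => Z s j) (Icc 0 1) +
        eVariationOn (fun s => mS F b (q s)) (Icc 0 1) +
        ∑ x ∈ X b, ENNReal.ofReal (F.om b / (2 * (F.B b).c)) *
          (eVariationOn (fun s => Z s j) (Icc (l b x) (r b x)) +
          eVariationOn (fun s => mQ F b (Z s)) (Icc (l b x) (r b x))) ≤
        ENNReal.ofReal (ε e₀ / 8) + ENNReal.ofReal 4 * len q (Icc 0 1) +
          3 * ((X b).card * ENNReal.ofReal (F.om b)) := by
      intro b hb
      have hj := hax b ((hTf' b).1 hb)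
      have hbne : (h'.toFun '' E.seg e₀ ∩ G.TB false b).Nonempty := by
        obtain ⟨_, ⟨x, hx, rfl⟩, hxb⟩ := (hTf' b).1 hb
        exact ⟨_, ⟨x, hx, rfl⟩, (O.mem b x (E.seg_sub_Ω e₀ hx)).2 hxb⟩
      refine add_le_add (add_le_add ?_ ?_) ?_
      · have h2 := hsliv b (e b / c b) (hec0 b) ((hec b).trans (min_le_right _ _)) e₀ hbne
        refine le_trans ?_ h2
        show ENNReal.ofReal (e b / c b) * _ ≤ _
        gcongr
        exact evar_coord_le_len _ _ _
      · -- the fade-out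
        have h2 : LipschitzWith (Real.toNNReal 4) (mS F b) := by
          refine LipschitzWith.of_dist_le_mul fun y y' => ?_
          rw [Real.dist_eq, Real.coe_toNNReal _ (by norm_num), dist_eq_norm]
          refine (_root_.P073.H236.abs_bmp_sub_le (F.D0 b) (d := ‖y - y'‖) (δ := 20 * ω b)
            (by have := hω b; linarith) (fun _ => le_rfl) (fun i _ => ?_)
            (norm_nonneg _)).trans ?_
          · rw [← Pi.sub_apply, ← Real.norm_eq_abs]
            exact norm_le_pi_norm _ i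
          · have h3 := hω b
            have h4 : F.D b ≤ 4 * (20 * ω b) := by
              have := hD80 b
              show D b ≤ _
              linarith
            have h5 : 0 ≤ ‖y - y'‖ / (20 * ω b) := by positivity
            calc F.D b * (‖y - y'‖ / (20 * ω b)) ≤ 4 * (20 * ω b) * (‖y - y'‖ / (20 * ω b)) :=
                  mul_le_mul_of_nonneg_right h4 h5
              _ = 4 * ‖y - y'‖ := by field_simp
        have h3 := (h2.lipschitzOnWith (s := univ)).comp_eVariationOn_le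
          (g := q) (s := Icc (0:ℝ) 1) (fun _ _ => mem_univ _)
        refine h3.trans ?_
        rw [ENNReal.ofReal]
        gcongr
        exact Vale.Agent.P073.H471.var_le_len _ _
      · -- the bands
        have h2 : ∀ x ∈ X b, ENNReal.ofReal (F.om b / (2 * (F.B b).c)) *
            (eVariationOn (fun s => Z s j) (Icc (l b x) (r b x)) +
            eVariationOn (fun s => mQ F b (Z s)) (Icc (l b x) (r b x))) ≤
            3 * ENNReal.ofReal (F.om b) := by
          intro x hx
          have hx' := (hmX b x).1 hx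
          have h3 := hB2 b x hx'
          have h4 := hB3 b x hx'
          rw [hj] at h3
          have hc2 : (0:ℝ) < 2 * (F.B b).c := by
            have : 0 < (F.B b).c := hc0 b
            linarith
          have hom0 : 0 ≤ F.om b / (2 * (F.B b).c) := Crv.Λ0 b
          calc _ ≤ ENNReal.ofReal (F.om b / (2 * (F.B b).c)) *
                (ENNReal.ofReal (4 * c b) + ENNReal.ofReal (2 * c b)) :=
                mul_le_mul_right (add_le_add h3 h4) _
            _ = ENNReal.ofReal (3 * F.om b) := by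
                rw [← ENNReal.ofReal_add (by have := hc0 b; positivity)
                  (by have := hc0 b; positivity), ← ENNReal.ofReal_mul hom0]
                congr 1
                have h5 : (F.B b).c = c b := rfl
                rw [h5]
                have := (hc0 b).ne'
                field_simp
                ring
            _ = 3 * ENNReal.ofReal (F.om b) := by
                rw [ENNReal.ofReal_mul (by norm_num)]
                congr 1
                simp
        refine (Finset.sum_le_sum h2).trans (le_of_eq ?_)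
        rw [Finset.sum_const, nsmul_eq_mul]
        ring
    -- the counts
    have hcnt : ∑ b ∈ Tf, ((X b).card : ℝ≥0∞) * ENNReal.ofReal (F.om b) ≤
        ENNReal.ofReal 2 * (ENNReal.ofReal (4 / 3) * (2 * len q (Icc 0 1)) +
          ENNReal.ofReal (εE e₀)) := by
      calc ∑ b ∈ Tf, ((X b).card : ℝ≥0∞) * ENNReal.ofReal (F.om b)
          ≤ ∑ b ∈ Tf, ENNReal.ofReal (1 - μ₁)⁻¹ * (ENNReal.ofReal (δ b) *
            cnt (cross (onS h'.toFun (E.a e₀) (E.b e₀)) b.ax (L.lev b) (G.TB false b))) := by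
            refine Finset.sum_le_sum fun b _ => ?_
            refine card_mul_stp L O h1 (hstp b) (f := false) (e := e₀) ?_
            intro x hx
            exact Xs_sub L e₀ b ((hmX b x).1 hx)
        _ = ENNReal.ofReal (1 - μ₁)⁻¹ * ∑ b ∈ Tf, (ENNReal.ofReal (δ b) *
            cnt (cross (onS h'.toFun (E.a e₀) (E.b e₀)) b.ax (L.lev b) (G.TB false b))) := by
            rw [Finset.mul_sum]
        _ ≤ ENNReal.ofReal (1 - μ₁)⁻¹ * (ENNReal.ofReal (1 - 2 * η)⁻¹ *
            (2 * len q (Icc 0 1)) + ENNReal.ofReal (εE e₀)) := by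
            gcongr
            exact (ENNReal.sum_le_tsum _).trans (L.cnt_sum O false e₀)
        _ ≤ _ := by gcongr
    have hsum := (Finset.sum_le_sum hone).trans (le_of_eq (show
        ∑ b ∈ Tf, (ENNReal.ofReal (ε e₀ / 8) + ENNReal.ofReal 4 * len q (Icc 0 1) +
          3 * ((X b).card * ENNReal.ofReal (F.om b))) =
        (Tf.card : ℝ≥0∞) * (ENNReal.ofReal (ε e₀ / 8) + ENNReal.ofReal 4 * len q (Icc 0 1)) +
          3 * ∑ b ∈ Tf, ((X b).card : ℝ≥0∞) * ENNReal.ofReal (F.om b) by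
      rw [Finset.sum_add_distrib, Finset.sum_const, ← Finset.mul_sum, nsmul_eq_mul]))
    have hcard' : (Tf.card : ℝ≥0∞) ≤ 2 := by exact_mod_cast hcard
    have hqj : eVariationOn (fun s => q s j) (Icc 0 1) ≤ len q (Icc 0 1) :=
      evar_coord_le_len _ _ _
    have hfinal : ∀ a ℓ : ℝ≥0∞, a ≤ ENNReal.ofReal 2 * (ENNReal.ofReal (4 / 3) * (2 * ℓ) +
          ENNReal.ofReal (εE e₀)) →
        a + (ℓ + (2 * (ENNReal.ofReal (ε e₀ / 8) + ENNReal.ofReal 4 * ℓ) + 3 * a)) ≤
          ENNReal.ofReal 32 * ℓ + ENNReal.ofReal (ε e₀) := by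
      intro a ℓ ha
      rcases eq_or_ne ℓ ⊤ with hℓ | hℓ
      · rw [hℓ, ENNReal.mul_top (by simp)]
        simp
      · have hε0 := hε e₀
        have hE0 := hεE e₀
        have hE1 := hεE' e₀
        obtain ⟨x, hx, rfl⟩ : ∃ x : ℝ, 0 ≤ x ∧ ℓ = ENNReal.ofReal x :=
          ⟨ℓ.toReal, ENNReal.toReal_nonneg, (ENNReal.ofReal_toReal hℓ).symm⟩
        have e2 : (2:ℝ≥0∞) = ENNReal.ofReal 2 := by simp
        have e3 : (3:ℝ≥0∞) = ENNReal.ofReal 3 := by simp
        have ha' : a ≤ ENNReal.ofReal (2 * (4 / 3 * (2 * x) + εE e₀)) := by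
          refine ha.trans (le_of_eq ?_)
          rw [e2, ← ENNReal.ofReal_mul (by norm_num), ← ENNReal.ofReal_mul (by norm_num),
            ← ENNReal.ofReal_add (by positivity) hE0, ← ENNReal.ofReal_mul (by norm_num)]
        set a' : ℝ := 2 * (4 / 3 * (2 * x) + εE e₀) with ha'
        have ha0 : 0 ≤ a' := by positivity
        calc a + (ENNReal.ofReal x + (2 * (ENNReal.ofReal (ε e₀ / 8) +
              ENNReal.ofReal 4 * ENNReal.ofReal x) + 3 * a))
            ≤ ENNReal.ofReal a' + (ENNReal.ofReal x + (2 * (ENNReal.ofReal (ε e₀ / 8) +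
              ENNReal.ofReal 4 * ENNReal.ofReal x) + 3 * ENNReal.ofReal a')) := by gcongr
          _ = ENNReal.ofReal (a' + (x + (2 * (ε e₀ / 8 + 4 * x) + 3 * a'))) := by
              rw [e2, e3, ← ENNReal.ofReal_mul (by norm_num), ← ENNReal.ofReal_mul (by norm_num),
                ← ENNReal.ofReal_add (by positivity) (by positivity),
                ← ENNReal.ofReal_mul (by norm_num),
                ← ENNReal.ofReal_add (by positivity) (by positivity),
                ← ENNReal.ofReal_add (by positivity) (by positivity),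
                ← ENNReal.ofReal_add (by positivity) (by positivity)]
          _ ≤ ENNReal.ofReal (32 * x + ε e₀) := by
              apply ENNReal.ofReal_le_ofReal
              rw [ha']
              linarith
          _ = _ := by
              rw [ENNReal.ofReal_add (by positivity) hε0.le, ENNReal.ofReal_mul (by norm_num)]
    refine le_trans ?_ (hfinal _ _ hcnt)
    gcongr
    refine hsum.trans ?_
    gcongr
  · -- the sharp form
    obtain ⟨γ, γm, γc, γI, hγ⟩ := hpar e₀
    have hxseg : ∀ s ∈ Icc (0:ℝ) 1, E.a e₀ + s • (E.b e₀ - E.a e₀) ∈ E.seg e₀ := fun s hs =>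
      Croft.onS_mem hs
    set Z : ℝ → V := onS h'.toFun (E.a e₀) (E.b e₀) with hZ
    set q : ℝ → V := onS h.toFun (E.a e₀) (E.b e₀) with hq
    set Y : ℝ → V := onS g.toFun (E.a e₀) (E.b e₀) with hY
    have hZT : ∀ s ∈ Icc (0:ℝ) 1, Z s ∈ G.TB true b := by
      intro s hs
      obtain ⟨k, hk⟩ := E.own e₀
      have hxs : E.a e₀ + s • (E.b e₀ - E.a e₀) ∈ skel M := mem_iUnion.2 ⟨k, hk (hxseg s hs)⟩
      have h2 := hdeep _ (hxseg s hs)
      have h3 := O.near b _ hxs (TB_true_subset b (h2 (mem_closedBall_self (by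
        have := hω b; positivity))))
      exact h2 (by
        rw [mem_closedBall]
        have := hω b
        exact h3.trans (by linarith))
    have hK : G.TB true b ⊆ (F.B b).K := by
      intro y hy
      rw [hmemK, Kc]
      have h2 := mem_TB.1 hy
      have := hω b
      exact ⟨h2 b.ax, fun i _ => ⟨by linarith [(h2 i).1], by linarith [(h2 i).2]⟩⟩
    have hfull : ∀ y ∈ G.TB true b, (F.B b).Full y := by
      intro y hy i _
      have h2 := mem_TB.1 hy
      have := hω b
      show G.tlo true b i - 20 * ω b ≤ y i ∧ y i ≤ G.thi true b i + 20 * ω b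
      exact ⟨by linarith [(h2 i).1], by linarith [(h2 i).2]⟩
    have hYK : ∀ t ∈ Icc (0:ℝ) 1, Y t ∈ (F.B b).K := fun t ht => by
      refine (hκ.mem_iff H).1 ?_
      rw [hγ t ht]
      exact hK (hZT _ (γI ht))
    have hQ : ∀ t ∈ Icc (0:ℝ) 1, (F.B b).Q (Y t) = Z (γ t) := fun t ht => by
      rw [← hγ t ht]
      exact (hκ.on b _ (hYK t ht)).symm
    have hYF : ∀ t ∈ Icc (0:ℝ) 1, (F.B b).Full (Y t) := by
      intro t ht i hi
      have h2 := hfull _ (hZT _ (γI ht)) i hi
      rw [← hQ t ht, (F.B b).Q_ne hi] at h2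
      exact h2
    have hXfin := cross_fin L O true e₀ b
    have hgoal : tvE E (fun x => S'.toFun (g.toFun x)) e₀ b.ax =
        eVariationOn (fun t => F.σ b (Y t b.ax)) (Icc 0 1) := by
      refine eVariationOn.congr fun t ht => ?_
      show S'.toFun (Y t) b.ax = F.σ b (Y t b.ax)
      have e1 : (F.Sb b).toFun (Y t) = _ := (F.B b).S_full (F.tgt b) (F.D0 b) (F.hD b) (hYF t ht)
      rw [hS'.on b _ (hYK t ht), e1]
      exact Function.update_self _ _ _
    have key := evar_full1 (k := qm (F.B b).lvs.L (F.B b).c) (σ := F.σ b)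
      (y := fun t => Y t b.ax) (z := fun s => Z s b.ax) (γ := γ) (L := ((F.B b).lvs.L : Set ℝ))
      (Wd := Icc (F.B b).al (F.B b).be) (ω := F.om b) (ε := F.e b / (F.B b).c)
      (hec0 b).le (F.B b).lvs.L.finite_toSet.isClosed (_root_.P073.H236.qm_continuous _ _)
      (_root_.P073.H236.qm_monotone (F.B b).lvs.c0.le (F.B b).lvs.sepd)
      _root_.P073.H236.sm_continuous (F.σ_strictMono b).monotone
      (fun s hs t ht hst hno => sm_sharp (F.B b).lvs (F.he b) (F.heo b) hs ht hst hno)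
      (fun s t hst hk => sm_flat (F.B b).lvs (F.he b) (F.heo b) hst hk)
      γm γc ((continuous_apply b.ax).comp_continuousOn (onS_cont g e₀))
      (fun t ht => (hYK t ht).1)
      (fun t ht => by
        have h2 := congrFun (hQ t ht) b.ax
        rw [(F.B b).Q_full (hYF t ht)] at h2
        have e2 := Function.update_self (F.B b).j
          (qm (F.B b).lvs.L (F.B b).c (Y t (F.B b).j)) (Y t)
        exact e2.symm.trans h2)
      hXfin.toFinset
      (fun t ht hL => by
        rw [Finite.mem_toFinset]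
        refine ⟨γI ht, hZT _ (γI ht), ?_⟩
        obtain ⟨k, hk, hk'⟩ := (F.B b).lvs.mem_L.1 (Finset.mem_coe.1 hL)
        exact ⟨k, hk, hk'.symm⟩)
      (fun x _ s hs t ht hst => by
        have h2 : Y s = Y t := by
          ext i
          by_cases hi : i = b.ax
          · rw [hi]; exact hst
          · have h3 : (F.B b).Q (Y s) = (F.B b).Q (Y t) := by
              rw [hQ s hs.1, hQ t ht.1, show γ s = x from hs.2, show γ t = x from ht.2]
            have h4 := congrFun h3 i
            rwa [(F.B b).Q_ne (show i ≠ (F.B b).j from hi),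
              (F.B b).Q_ne (show i ≠ (F.B b).j from hi)] at h4
        exact onS_inj g e₀ hs.1 ht.1 h2)
    rw [hgoal]
    refine key.trans ?_
    have hvar : varIn q b.ax (G.TB true b) 0 1 ≤ tvE E h.toFun e₀ b.ax :=
      varIn_le_evar zero_le_one (Croft.conicalOn_onS h.conical (E.seg_sub_Ω e₀)) b.ax
        (convex_Icc _ _)
    have h2 : (hXfin.toFinset.card : ℝ≥0∞) * ENNReal.ofReal (F.om b) ≤
        ENNReal.ofReal ((1 - μ₁)⁻¹ * (1 - 2 * η)⁻¹) * tvE E h.toFun e₀ b.ax +
          ENNReal.ofReal (2 * εE e₀) := by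
      calc _ ≤ ENNReal.ofReal (1 - μ₁)⁻¹ * (ENNReal.ofReal (δ b) *
            cnt (cross (onS h'.toFun (E.a e₀) (E.b e₀)) b.ax (L.lev b) (G.TB true b))) := by
            refine card_mul_stp L O h1 (hstp b) (f := true) (e := e₀) ?_
            intro x hx
            exact (Finite.mem_toFinset _).1 hx
        _ ≤ ENNReal.ofReal (1 - μ₁)⁻¹ * (ENNReal.ofReal (1 - 2 * η)⁻¹ *
            tvE E h.toFun e₀ b.ax + ENNReal.ofReal (εE e₀)) := by
            gcongr
            refine (L.cnt_one O true e₀ b).trans ?_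
            gcongr
        _ ≤ _ := by
            rw [mul_add, ← mul_assoc, ← ENNReal.ofReal_mul (inv_nonneg.2 hμ0.le),
              ENNReal.ofReal_mul (p := 2) (by norm_num)]
            gcongr
    have h3 : ENNReal.ofReal (F.e b / (F.B b).c) *
        eVariationOn (fun t => Z (γ t) b.ax) (Icc 0 1) ≤ ENNReal.ofReal (ε e₀ / 8) := by
      have h4 : eVariationOn (fun t => Z (γ t) b.ax) (Icc 0 1) ≤ len Z (Icc 0 1) :=
        (eVariationOn.comp_le_of_monotoneOn (fun s => Z s b.ax) γ γm γI).trans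
          (evar_coord_le_len _ _ _)
      have h5 := hsliv b (e b / c b) (hec0 b) ((hec b).trans (min_le_right _ _)) e₀
        ⟨_, ⟨_, E.left_mem e₀, rfl⟩, TB_true_subset b (by
          have := hZT 0 ⟨le_rfl, zero_le_one⟩
          rw [hZ] at this
          unfold onS at this
          rwa [zero_smul, add_zero] at this)⟩
      exact (mul_le_mul_right h4 _).trans h5
    refine (add_le_add h2 h3).trans ?_
    rw [add_assoc, ← ENNReal.ofReal_add (by have := hεE e₀; positivity)
      (by have := hε e₀; positivity)]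
    gcongr
    have h4 := hεE' e₀
    have h5 := hε e₀
    linarith

end Vale.Agent.P073.H581
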