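import Vale.Agent.P073.H581.TvG

/-!
# P073, ROUND T for `K3C`, **[TVG]**: the field `tvg` of the output of ROUND T
-/

open Set Metric Topology Filter
open scoped ENNReal

namespace Vale.Agent.P073.H238.K3

open _root_.P073 _root_.P073.Net _root_.P073.PA691 _root_.P073.H236 _root_.P073.H579
open _root_.P073.H267
open _root_.P073.H196 (FixD)
open _root_.P073.H142 (FStar)
open Vale.Agent.P073.St (V)
open Vale.Agent.P073.H471 Vale.Agent.P073.H267 Vale.Agent.P073.H267.Geo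
open Vale.Agent.P073.H73 (Mesh)
open Vale.Agent.P073.H193 (Edges Cyc)
open Vale.Agent.P073.H926

theorem tv_aux4 {C₅ e₀ ε : ℝ} {ℓ W : ℝ≥0∞} (hC : 0 ≤ C₅) (he : 0 ≤ e₀) (hε : 0 < ε)
    (h1 : e₀ * (8 * (1 + C₅)) ≤ ε) (h2 : W ≤ ENNReal.ofReal 3 * ℓ + ENNReal.ofReal (2 * e₀)) :
    ENNReal.ofReal C₅ * (W + ℓ) + ENNReal.ofReal (ε / 4) ≤
      ENNReal.ofReal (4 * C₅) * ℓ + ENNReal.ofReal (ε / 2) := by
  calc ENNReal.ofReal C₅ * (W + ℓ) + ENNReal.ofReal (ε / 4)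
      ≤ ENNReal.ofReal C₅ * ((ENNReal.ofReal 3 * ℓ + ENNReal.ofReal (2 * e₀)) + ℓ) +
        ENNReal.ofReal (ε / 4) := by gcongr
    _ = ENNReal.ofReal (4 * C₅) * ℓ + ENNReal.ofReal (C₅ * (2 * e₀) + ε / 4) := by
        rw [ENNReal.ofReal_add (by positivity) (by positivity), ENNReal.ofReal_mul hC,
          ENNReal.ofReal_mul (by norm_num : (0:ℝ) ≤ 4)]
        have h3 : ENNReal.ofReal 3 = 3 := by simp
        have h4 : ENNReal.ofReal 4 = 4 := by simp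
        rw [h3, h4]
        ring
    _ ≤ _ := by
        refine add_le_add le_rfl (ENNReal.ofReal_le_ofReal ?_)
        nlinarith

namespace RTD

variable {c₀ n δ : ℝ} {j : ℕ} {Ω Λ : Set V} {v w : V} {ρ : V → ℝ} {M : Mesh Ω} {h : ConHomeo Ω Λ}
  {J₀ J : Set (ℕ × (Fin 3 → ℤ))} {P Z : Set M.ι} {K : BoxCx Λ w}
  {D : KIn3 c₀ n j δ v w ρ M h J₀ J P Z} {C : Cells ρ w K} {E : Edges M}
  {T : ∀ k, FStar E k} {A₁ C₅ μ₁ : ℝ} {ε : E.ε → ℝ} {εd : pB C J₀ → ℝ}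
  (R : RTD D C E T A₁ C₅ μ₁ ε εd) {e : TBx K → ℝ} {he : ∀ b, 0 < e b} {he2 : ∀ b, 2 * e b < R.dl b}
  {hμ1 : μ₁ ≤ 1} {Hα H₁ Tf : ConHomeo Λ Λ}

/-- **functions which are constant on the windows of the boxes** -/
theorem tvo_field (HR : RTS R.L R.hc0 R.hc he he2 (R.X hμ1 he he2) Hα H₁ Tf) :
    ∀ e₀ (l : Fin 3), (∀ b ∈ pB C J₀, (h.toFun '' E.seg e₀ ∩ (D.G C).TB false b).Nonempty →
      b.ax = l) → ∀ (F : ℝ → ℝ) (A : ℝ), 0 ≤ A → (∀ s t, |F s - F t| ≤ A * |s - t|) →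
      (∀ b ∈ pB C J₀, (h.toFun '' E.seg e₀ ∩ (D.G C).TB false b).Nonempty →
        ∀ s ∈ Icc ((D.G C).tlo true b b.ax) ((D.G C).thi true b b.ax),
          F s = F ((D.G C).tlo true b b.ax)) →
      eVariationOn (fun t : ℝ => F ((R.g.trans ((Hα.trans H₁).trans Tf)).toFun
        (E.a e₀ + t • (E.b e₀ - E.a e₀)) l)) (Icc 0 1) ≤
        ENNReal.ofReal A * lenE E h.toFun e₀ := by
  intro e₀ l hl F A hA hF hFc
  exact H581.tvo_of R.L R.D2.O D.bΛ.1 R.hc0 R.hc R.D2.isQ R.D2.edge R.D2.vert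
    (S := (Hα.trans H₁).trans Tf) (fun b y hy => HR.vrt.mem (b := b) hy)
    (fun y hy => HR.vrt.off y hy) (e₀ := e₀) (l := l) (fun b hb => hl b hb.1 hb.2) hA hF
    (fun b hb => hFc b hb.1 hb.2)

/-- **the unclamped coordinate, off the end zones**: edges which meet only boxes of the axis `l` -/
theorem tvg_field (HR : RTS R.L R.hc0 R.hc he he2 (R.X hμ1 he he2) Hα H₁ Tf) {C₀ : ℝ}
    (hC₅ : 0 ≤ C₅) (hC₀ : 3 + 8 * C₅ ≤ C₀) (hμ0 : 0 < μ₁) (hε : ∀ e, 0 < ε e)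
    (hnum : ∀ b ∈ pB C J₀, 60 * ω3T δ C b + dsp (R.Tt b) (R.dl b) ≤
      μ₁ / 4 * ((D.G C).thi true b b.ax - (D.G C).tlo true b b.ax))
    (htv : ∀ e₀, ∀ b : pB C J₀, (h.toFun '' E.seg e₀ ∩ (D.G C).TB false b.1).Nonempty →
      ∀ lo hi : ℝ, (D.G C).tlo true b.1 b.1.ax + 50 * ω3T δ C b.1 ≤ lo → lo ≤ hi →
      hi ≤ (D.G C).thi true b.1 b.1.ax - 50 * ω3T δ C b.1 →
      eVariationOn (fun t : ℝ => clm lo hi (((Hα.trans H₁).trans Tf).toFun
        (R.g.toFun (E.a e₀ + t • (E.b e₀ - E.a e₀))) b.1.ax)) (Icc 0 1) ≤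
        ENNReal.ofReal C₅ * (∑' b' : pB C J₀, R.L.wt R.h' false e₀ b'.1 + lenE E h.toFun e₀) +
          ENNReal.ofReal (ε e₀ / 4)) :
    ∀ e₀ (l : Fin 3), (∀ b ∈ pB C J₀, (h.toFun '' E.seg e₀ ∩ (D.G C).TB false b).Nonempty →
      b.ax = l) → ∀ f : ℝ → ℝ, (∀ s t, |f s - f t| ≤ |s - t|) →
      (∀ b ∈ pB C J₀, (h.toFun '' E.seg e₀ ∩ (D.G C).TB false b).Nonempty →
        (∀ s ∈ Icc ((D.G C).tlo true b b.ax) ((D.G C).tlo true b b.ax + 50 * ω3T δ C b),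
          f s = f ((D.G C).tlo true b b.ax)) ∧
        ∀ s ∈ Icc ((D.G C).thi true b b.ax - 50 * ω3T δ C b) ((D.G C).thi true b b.ax),
          f s = f ((D.G C).thi true b b.ax)) →
      eVariationOn (fun t : ℝ => f ((R.g.trans ((Hα.trans H₁).trans Tf)).toFun
        (E.a e₀ + t • (E.b e₀ - E.a e₀)) l)) (Icc 0 1) ≤
        ENNReal.ofReal C₀ * lenE E h.toFun e₀ + ENNReal.ofReal (ε e₀) := by
  classical
  intro e₀ l hl f hf hfe
  have hosc := D.rt_osc C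
  have hfin : (H581.Met (D.G C) h (pB C J₀) e₀).Finite :=
    (H581.fin_boxes (G := D.G C) h e₀).subset fun b hb => hb.2
  set Tm : Finset (TBx K) := hfin.toFinset with hTm
  have hmem : ∀ b ∈ Tm, b ∈ H581.Met (D.G C) h (pB C J₀) e₀ := fun b hb => by
    rwa [hTm, Finite.mem_toFinset] at hb
  have hmem' : ∀ b ∈ H581.Met (D.G C) h (pB C J₀) e₀, b ∈ Tm := fun b hb => by
    rwa [hTm, Finite.mem_toFinset]
  have hεN : ∀ e, 0 < εN E h.toFun ε C₅ e := εN_pos D.bΩ.1 E h hε hC₅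
  have key := H581.evar_windows Tm (N := 2) (H581.met_card R.L hosc hmem)
    (lo := fun b => (D.G C).tlo true b b.ax) (hi := fun b => (D.G C).thi true b b.ax)
    (w := fun b => 50 * ω3T δ C b)
    (fun b _ => by have := D.ω3T_pos C b; positivity)
    (fun b _ => by
      have h1 := H669.win (D.G C) b
      have h2 := D.ω3T_oT C b
      have h3 := D.ω3T_pos C b
      show _ + _ ≤ _ - _
      linarith)
    (fun b hb b' hb' hne => H581.met_adj R.L hosc (hmem b hb) (hmem b' hb') hne)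
    (f := f) hf (fun b hb => (hfe b (hmem b hb).1 (hmem b hb).2).1)
    (fun b hb => (hfe b (hmem b hb).1 (hmem b hb).2).2)
    (q := fun t => (R.g.trans ((Hα.trans H₁).trans Tf)).toFun
        (E.a e₀ + t • (E.b e₀ - E.a e₀)) l) (A := Icc 0 1)
    (X := ENNReal.ofReal 3 * lenE E h.toFun e₀)
    (Y := ENNReal.ofReal (4 * C₅) * lenE E h.toFun e₀ + ENNReal.ofReal (ε e₀ / 2))
    (fun F hF hFc => R.tvo_field HR e₀ l hl F 3 (by norm_num)
      (fun s t => by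
        have h1 := hF s t
        have e1 : (1 + ((2:ℕ):ℝ)) = 3 := by norm_num
        rwa [e1] at h1)
      fun b hb hne => hFc b (hmem' b ⟨hb, hne⟩))
    (fun b hb => by
      have h1 := htv e₀ ⟨b, (hmem b hb).1⟩ (hmem b hb).2
        ((D.G C).tlo true b b.ax + 50 * ω3T δ C b) ((D.G C).thi true b b.ax - 50 * ω3T δ C b)
        le_rfl (by
          have h1 := H669.win (D.G C) b
          have h2 := D.ω3T_oT C b
          have h3 := D.ω3T_pos C b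
          linarith) le_rfl
      rw [← R.L.ofReal_WeW R.D2.O] at h1
      have h2 := h1.trans (tv_aux4 hC₅ (hεN e₀).le (hε e₀) (εN_le E h.toFun hC₅ e₀).1
        (R.L.ofReal_WeW_le R.D2.O (μ' := μ₁ / 4) (by linarith) (by linarith)
          (fun e => (hεN e).le) hnum e₀))
      rw [← hl b (hmem b hb).1 (hmem b hb).2]
      exact h2)
  refine key.trans ?_
  have e1 : ((2:ℕ) : ℝ≥0∞) = ENNReal.ofReal 2 := by simp
  have hC4 : 0 ≤ 4 * C₅ := by linarith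
  rw [e1, mul_add, ← mul_assoc, ← ENNReal.ofReal_mul (by norm_num : (0:ℝ) ≤ 2),
    ← ENNReal.ofReal_mul (by norm_num : (0:ℝ) ≤ 2), ← add_assoc, ← add_mul,
    ← ENNReal.ofReal_add (by norm_num) (by positivity)]
  refine add_le_add (mul_le_mul' (ENNReal.ofReal_le_ofReal (by linarith)) le_rfl)
    (ENNReal.ofReal_le_ofReal (by linarith))

end RTD

end Vale.Agent.P073.H238.K3
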