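import Vale.Agent.P073.H581.WallT

/-!
# P073, ROUND T for `K3C`, **[WALL-T]**, the relative interiors of the faces
-/

open Set Metric Topology Filter
open scoped ENNReal

namespace Vale.Agent.P073.H238.K3.RTD

open _root_.P073 _root_.P073.Net _root_.P073.PA691 _root_.P073.H236 _root_.P073.H579
open _root_.P073.H267
open _root_.P073.H196 (FixD)
open _root_.P073.H142 (FStar)
open Vale.Agent.P073.St (V)
open Vale.Agent.P073.H471 Vale.Agent.P073.H267 Vale.Agent.P073.H267.Geo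
open Vale.Agent.P073.H73 (Mesh)
open Vale.Agent.P073.H193 (Edges Cyc)
open Vale.Agent.P073.H926

variable {c₀ n δ : ℝ} {j : ℕ} {Ω Λ : Set V} {v w : V} {ρ : V → ℝ} {M : Mesh Ω} {h : ConHomeo Ω Λ}
  {J₀ J : Set (ℕ × (Fin 3 → ℤ))} {P Z : Set M.ι} {K : BoxCx Λ w}
  {D : KIn3 c₀ n j δ v w ρ M h J₀ J P Z} {C : Cells ρ w K} {E : Edges M}
  {T : ∀ k, FStar E k} {A₁ C₅ μ₁ : ℝ} {ε : E.ε → ℝ} {εd : pB C J₀ → ℝ}
  (R : RTD D C E T A₁ C₅ μ₁ ε εd)

/-- **[WALL-T]**, points: every point of a face of the zone has the coordinate `l` of a point of the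
face under `h`; interior points, if the given point is interior -/
theorem wallF {S : ConHomeo Λ Λ} (HS : H581.LatS R.L (pB C J₀) S.toFun) {Qz : Set V}
    (hQz : ∀ x ∈ Ω, h.toFun x ∈ Qz → R.h'.toFun x = h.toFun x) {k : M.κ}
    (hXQ : h.toFun '' M.F k ⊆ Qz) {l : Fin 3}
    (hl : ∀ b ∈ pB C J₀, (h.toFun '' M.F k ∩ (D.G C).TB false b).Nonempty → b.ax ≠ l) :
    ∀ x ∈ M.F k, ∃ x' ∈ M.F k, (R.g.trans S).toFun x l = h.toFun x' l ∧
      (x' ∈ intrinsicFrontier ℝ (M.F k) → x ∈ intrinsicFrontier ℝ (M.F k)) := by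
  intro x hx
  have hFΩ : M.F k ⊆ Ω := by
    obtain ⟨i, -, hi⟩ := D.exists_cell C k
    exact hi.trans (M.sub i)
  have h1 : R.g.toFun x ∈ H579.Pre R.κ Λ R.h' (M.F k) := by
    rw [← R.D2.face k]
    exact ⟨x, hx, rfl⟩
  obtain ⟨hΛx, x', hx', hxx'⟩ := h1
  have heq : R.h'.toFun x' = h.toFun x' := hQz x' (hFΩ hx') (hXQ ⟨x', hx', rfl⟩)
  refine ⟨x', hx', ?_, fun hfr => ?_⟩
  · show S.toFun (R.g.toFun x) l = h.toFun x' l
    rw [H581.LatS.coord HS R.D2.isQ hΛx fun b hb hyb => hl b hb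
      ⟨h.toFun x', ⟨x', hx', rfl⟩, by rw [← heq, hxx']; exact hyb⟩, ← hxx', heq]
  · obtain ⟨e, he, hek⟩ := E.bd k x' hfr
    have h2 : R.g.toFun x ∈ R.g.toFun '' E.seg e := by
      rw [R.D2.edge e]
      exact ⟨hΛx, x', he, hxx'⟩
    obtain ⟨x₂, hx₂, hxx₂⟩ := h2
    have h3 : x₂ = x := R.g.injOn (hFΩ (hek hx₂)) (hFΩ hx) hxx₂
    rw [h3] at hx₂
    have h4 : x ∉ intrinsicInterior ℝ (M.F k) := fun h5 =>
      (E.rel e k).notMem_of_mem_left hx₂ h5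
    rw [Vale.Agent.P073.H193.Pgn.fr_eq ((Vale.Agent.P073.H193.fam_of_mesh M).pgn k)]
    exact ⟨hx, h4⟩

end Vale.Agent.P073.H238.K3.RTD
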