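import Vale.Agent.P073.H581.T5H

/-!
# P073, ROUND T for `K3C`, **[RT-TV]**: `T5G`
-/

namespace Vale.Agent.P073.H581

/-- **[RT-TV]** -/
theorem t5G : H238.K3.T5G 280 := t5GH

end Vale.Agent.P073.H581
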