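import Vale.Agent.P073.H345.We3C
import Vale.Agent.P073.H228.EdgeV
import Vale.Agent.P073.H233.Tail3I

/-!
# P073, H581: the row `edge`: from the local theorem (`CtlAt2` at all points) and the estimate of the
variation of the arcs to `Ev .. (EdgeEst ..)`

`ev_of2`: `EdgeOK4.ev` with two numbers.  `EdgeFam`: the conclusion of the local theorem for one
edge.  `EdgeFam.ev`.
-/

open Set Metric Topology Filter MeasureTheory
open scoped ENNReal

set_option linter.unusedSectionVars false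

namespace Vale.Agent.P073.H228

open _root_.P073 _root_.P073.Net _root_.P073.PA691 _root_.P073.TM
open Vale.Agent.P073.St (V)
open Vale.Agent.P073.H471
open Vale.Agent.P073.H212 (IsSoft)
open Vale.Agent.P073.H73 (Mesh sqr onSeg)
open Vale.Agent.P073.H193 (Edges edges)
open Vale.Agent.P073.H233

variable {Ω Λ : Set V} {M : Mesh Ω} {v : V} {K : BoxCx Λ v} {S : Rad K} {W : Wid K S}
  {B : Boxes W} {X : PSet K} {μ : ℝ}

/-- the estimate with two numbers: `w₁` in the hypothesis on `G`, `w` in the result -/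
def EdgeV2 (B : Boxes W) (X : PSet K) (h f : V → V) (D₀ w₁ w : ℝ) (e : (edges M).ε) : Prop :=
  ∀ G : ℝ → ℝ, (∀ r ∈ Icc (0:ℝ) 1, GAt B X f w₁ ((edges M).a e, (edges M).b e) G r) →
    eVariationOn G (Icc 0 1) ≤
      ENNReal.ofReal D₀ * len (onSeg h ((edges M).a e, (edges M).b e)) (Icc 0 1) +
        ENNReal.ofReal w

/-- **the field `edge` of `Last3`** -/
theorem EdgeV2.ev {h f : V → V} {D₀ w₁ w : ℝ} {e : (edges M).ε} {k : M.κ}
    (H : EdgeV2 B X h f D₀ w₁ w e) (hD₀ : 0 ≤ D₀) (hw₁ : 0 < w₁) (hw : 0 ≤ w) (hμ : 0 ≤ μ)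
    (hμ1 : μ ≤ 1) (hf : ContinuousOn f ((edges M).seg e)) (hF : (edges M).seg e ⊆ M.F k) :
    Ev B X μ M f (.inl k) (EdgeEst h f D₀ w e) := by
  refine ⟨w₁, hw₁, fun R N t Φ h0 ht HS HΦ => ?_⟩
  have he' : (edges M).seg e ⊆ FQ M (.inl k) := hF
  unfold EdgeEst
  have e6 : (6 : ℝ≥0∞) = ENNReal.ofReal 6 := by norm_num
  have h1 : ∀ j : Fin 3, eVariationOn (fun r => onSeg (fun x => Φ.toFun (f x))
      ((edges M).a e, (edges M).b e) r j) (Icc 0 1) ≤
      ENNReal.ofReal D₀ * len (onSeg h ((edges M).a e, (edges M).b e)) (Icc 0 1) +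
        ENNReal.ofReal w := fun j =>
    H (fun r => Φ.toFun (onSeg f ((edges M).a e, (edges M).b e) r) j) fun r hr =>
      gAt_soft (e := ((edges M).a e, (edges M).b e)) HS HΦ hμ hμ1 he' hf ht j hr
  have h2 : len (onSeg (fun x => Φ.toFun (f x)) ((edges M).a e, (edges M).b e)) (Icc 0 1) ≤
      6 * (ENNReal.ofReal D₀ * len (onSeg h ((edges M).a e, (edges M).b e)) (Icc 0 1) +
        ENNReal.ofReal w) := by
    refine (len_le_var _ _).trans ((mul_le_mul_right (var_le_sum _ _) _).trans ?_)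
    calc 2 * ∑ j, eVariationOn (fun r => onSeg (fun x => Φ.toFun (f x))
          ((edges M).a e, (edges M).b e) r j) (Icc 0 1)
        ≤ 2 * ∑ _j : Fin 3, (ENNReal.ofReal D₀ *
            len (onSeg h ((edges M).a e, (edges M).b e)) (Icc 0 1) + ENNReal.ofReal w) :=
          mul_le_mul_right (Finset.sum_le_sum fun j _ => h1 j) _
      _ = _ := by
          rw [Finset.sum_const, Finset.card_univ, Fintype.card_fin, nsmul_eq_mul, ← mul_assoc]
          norm_num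
  refine h2.trans ?_
  rw [mul_add, ← mul_assoc, e6, ← ENNReal.ofReal_mul (by norm_num),
    ← ENNReal.ofReal_mul (by norm_num)]
  refine add_le_add (mul_le_mul_left (ENNReal.ofReal_le_ofReal ?_) _)
    (ENNReal.ofReal_le_ofReal ?_)
  · linarith
  · linarith

end Vale.Agent.P073.H228

namespace Vale.Agent.P073.H267.K3

open _root_.P073 _root_.P073.Net _root_.P073.PA691 _root_.P073.H236 _root_.P073.H579
open _root_.P073.H345 (PK tg PLev)
open _root_.P073.H880.RP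
open _root_.P073.H190 (IsS2 PT2)
open Vale.Agent.P073.St (V)
open Vale.Agent.P073.H471 Vale.Agent.P073.H267
open Vale.Agent.P073.H73 (Mesh onSeg)
open Vale.Agent.P073.H193 (Edges Cyc edges)
open Vale.Agent.P073.H304 (Nb In Zmax)
open Vale.Agent.P073.H926
open Vale.Agent.P073.H238.K3
open Vale.Agent.P073.H341 (HtOk ROutZ vFam pxFam)
open Vale.Agent.P073.H190.Tvp
open Vale.Agent.P073.H228 (GAt EdgeV2)
open Vale.Agent.P073.H233 (Xp PSet Ev EdgeEst)
open Vale.Agent.P073.H345W (Tvg)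
open _root_.P073.Croft (levs onS cross)
open _root_.P073.Net (cnt)
open _root_.P073.H267 (lenE)

variable {c₀ n δ : ℝ} {j : ℕ} {Ω Λ : Set V} {v w : V} {ρ : V → ℝ} {M : Mesh Ω} {h : ConHomeo Ω Λ}
  {J₀ J : Set (ℕ × (Fin 3 → ℤ))} {P Z : Set M.ι} {K : BoxCx Λ w}
  {D : KIn3 c₀ n j δ v w ρ M h J₀ J P Z} {C : Cells ρ w K} {C₀ μT : ℝ}
  {X : S1 D C C₀ μT} {Y₂ : S2 X} {Ys : Set M.κ} {sc : Sharp}

/-- **functions which `Tvg` controls**: `φ l` for the axis `l ∈ I` -/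
structure PhiOk (D : KIn3 c₀ n j δ v w ρ M h J₀ J P Z) (C : Cells ρ w K) (e : (edges M).ε)
    (I : Finset (Fin 3)) (φ : Fin 3 → ℝ → ℝ) : Prop where
  ax : ∀ l ∈ I, ∀ b ∈ pB C J₀, (h.toFun '' (edges M).seg e ∩ (D.G C).TB false b).Nonempty →
    b.ax = l
  lip : ∀ l ∈ I, ∀ s t, |φ l s - φ l t| ≤ |s - t|
  cst : ∀ l ∈ I, ∀ b ∈ pB C J₀, (h.toFun '' (edges M).seg e ∩ (D.G C).TB false b).Nonempty →
    (∀ s ∈ Icc ((D.G C).tlo true b b.ax) ((D.G C).tlo true b b.ax + 50 * ω3T δ C b),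
      φ l s = φ l ((D.G C).tlo true b b.ax)) ∧
    ∀ s ∈ Icc ((D.G C).thi true b b.ax - 50 * ω3T δ C b) ((D.G C).thi true b b.ax),
      φ l s = φ l ((D.G C).thi true b b.ax)

/-- the sum of the variations -/
theorem PhiOk.sum_le {e : (edges M).ε} {I : Finset (Fin 3)} {φ : Fin 3 → ℝ → ℝ}
    (H : PhiOk D C e I φ) {ε : (edges M).ε → ℝ} {h1 : ConHomeo Ω Λ}
    (hT : Tvg D C (edges M) C₀ ε h1) {c : ℝ} (hc : 0 ≤ c) :
    ∑ l ∈ I, eVariationOn (fun r => c * φ l (onS h1.toFun ((edges M).a e) ((edges M).b e) r l))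
      (Icc 0 1) ≤
      ENNReal.ofReal (3 * c) * (ENNReal.ofReal C₀ * lenE (edges M) h.toFun e +
        ENNReal.ofReal (ε e)) := by
  have h1' : ∀ l ∈ I, eVariationOn (fun r => c * φ l (onS h1.toFun ((edges M).a e)
      ((edges M).b e) r l)) (Icc 0 1) ≤
      ENNReal.ofReal c * (ENNReal.ofReal C₀ * lenE (edges M) h.toFun e +
        ENNReal.ofReal (ε e)) := by
    intro l hl
    have hlip : LipschitzOnWith (Real.toNNReal c) (fun x : ℝ => c * x) univ := by
      refine LipschitzOnWith.of_dist_le_mul fun x _ y _ => ?_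
      rw [Real.dist_eq, Real.dist_eq, Real.coe_toNNReal _ hc, ← mul_sub, abs_mul, abs_of_nonneg hc]
    have h2 := hlip.comp_eVariationOn_le (g := fun r => φ l (onS h1.toFun ((edges M).a e)
      ((edges M).b e) r l)) (s := Icc (0:ℝ) 1) (mapsTo_univ _ _)
    refine h2.trans ?_
    exact mul_le_mul' le_rfl (hT e l (H.ax l hl) (φ l) (H.lip l hl) (H.cst l hl))
  refine (Finset.sum_le_sum h1').trans ?_
  rw [Finset.sum_const, nsmul_eq_mul, ← mul_assoc]
  refine mul_le_mul' ?_ le_rfl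
  have h3 : (I.card : ℝ≥0∞) ≤ ENNReal.ofReal 3 := by
    have h4 : I.card ≤ 3 := by
      have := Finset.card_le_univ I
      simpa using this
    rw [show ENNReal.ofReal 3 = ((3 : ℕ) : ℝ≥0∞) by norm_num]
    exact_mod_cast h4
  calc (I.card : ℝ≥0∞) * ENNReal.ofReal c ≤ ENNReal.ofReal 3 * ENNReal.ofReal c :=
        mul_le_mul' h3 le_rfl
    _ = ENNReal.ofReal (3 * c) := (ENNReal.ofReal_mul (by norm_num)).symm

/-- **the conclusion of the local theorem for one edge**: for every `G` which changes at most as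
the alive coordinates of `f`, functions `c * φ l (h1_l)` which control `G`, in the sense of `Ctl`
(`Ctl I f g t`: `CtlAt3 .. I f g t`) -/
def EdgeFam (X : S1 D C C₀ μT) (Ctl : Finset (Fin 3) → (Fin 3 → ℝ → ℝ) → (ℝ → ℝ) → ℝ → Prop)
    (c w₁ : ℝ) (f : V → V) (e : (edges M).ε) : Prop :=
  ∀ G : ℝ → ℝ, (∀ r ∈ Icc (0:ℝ) 1,
    GAt (D.B C) (Xp C J₀) f w₁ ((edges M).a e, (edges M).b e) G r) →
  ∃ (I : Finset (Fin 3)) (φ : Fin 3 → ℝ → ℝ), PhiOk D C e I φ ∧
    ∀ t ∈ Icc (0:ℝ) 1, Ctl I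
      (fun l r => c * φ l (onS X.h1.toFun ((edges M).a e) ((edges M).b e) r l)) G t

/-- **the variation of `G`** -/
theorem EdgeFam.edgeV2 {Ctl : Finset (Fin 3) → (Fin 3 → ℝ → ℝ) → (ℝ → ℝ) → ℝ → Prop}
    {c w₁ : ℝ} {f : V → V} {e : (edges M).ε} (H : EdgeFam X Ctl c w₁ f e) {kT CL dl ee : ℝ}
    (HT : ∀ (I : Finset (Fin 3)) (f : Fin 3 → ℝ → ℝ) (g : ℝ → ℝ),
      (∀ t ∈ Icc (0:ℝ) 1, Ctl I f g t) →
      eVariationOn g (Icc 0 1) ≤ ENNReal.ofReal kT * ∑ i ∈ I, eVariationOn (f i) (Icc 0 1) +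
        ENNReal.ofReal CL * lenE (edges M) h.toFun e + ENNReal.ofReal (dl + ee))
    (hT : Tvg D C (edges M) C₀ X.εe X.h1) (hk : 0 ≤ kT) (hc : 0 ≤ c)
    (hC₀ : 0 ≤ C₀) (hCL : 0 ≤ CL) (hee : 0 ≤ ee) (hdl : 0 ≤ dl) {D₀ w' : ℝ}
    (hD₀ : 3 * c * kT * C₀ + CL ≤ D₀) (hw : 3 * c * kT * X.εe e + (dl + ee) ≤ w') :
    EdgeV2 (D.B C) (Xp C J₀) h.toFun f D₀ w₁ w' e := by
  intro G hG
  obtain ⟨I, φ, hφ, hct⟩ := H G hG
  have hε := (X.εe0 e).le
  refine (HT I _ G hct).trans ?_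
  have h1 := hφ.sum_le hT hc
  have e1 : ENNReal.ofReal kT * (ENNReal.ofReal (3 * c) *
      (ENNReal.ofReal C₀ * lenE (edges M) h.toFun e + ENNReal.ofReal (X.εe e))) =
      ENNReal.ofReal (3 * c * kT * C₀) * lenE (edges M) h.toFun e +
        ENNReal.ofReal (3 * c * kT * X.εe e) := by
    rw [← mul_assoc, ← ENNReal.ofReal_mul hk, mul_add, ← mul_assoc,
      ← ENNReal.ofReal_mul (by positivity), ← ENNReal.ofReal_mul (by positivity)]
    congr 2
    · congr 1; ring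
    · congr 1; ring
  calc ENNReal.ofReal kT * ∑ l ∈ I, eVariationOn (fun r => c * φ l
          (onS X.h1.toFun ((edges M).a e) ((edges M).b e) r l)) (Icc 0 1) +
        ENNReal.ofReal CL * lenE (edges M) h.toFun e + ENNReal.ofReal (dl + ee)
      ≤ ENNReal.ofReal kT * (ENNReal.ofReal (3 * c) *
          (ENNReal.ofReal C₀ * lenE (edges M) h.toFun e + ENNReal.ofReal (X.εe e))) +
        ENNReal.ofReal CL * lenE (edges M) h.toFun e + ENNReal.ofReal (dl + ee) :=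
        add_le_add (add_le_add (mul_le_mul' le_rfl h1) le_rfl) le_rfl
    _ = ENNReal.ofReal (3 * c * kT * C₀ + CL) * lenE (edges M) h.toFun e +
        ENNReal.ofReal (3 * c * kT * X.εe e + (dl + ee)) := by
        rw [e1, ENNReal.ofReal_add (by positivity) hCL,
          ENNReal.ofReal_add (p := 3 * c * kT * X.εe e) (by positivity) (by positivity),
          add_mul]
        ring
    _ ≤ _ := add_le_add (mul_le_mul' (ENNReal.ofReal_le_ofReal hD₀) le_rfl)
        (ENNReal.ofReal_le_ofReal hw)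

end Vale.Agent.P073.H267.K3
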