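import Vale.Agent.P073.H581.EdRow2
import Vale.Agent.P073.H340.RowsS

/-!
# P073, H581: `REdge` from the local theorem in slot form, for both maps
-/

open Set Metric Topology Filter MeasureTheory
open scoped ENNReal

set_option linter.unusedSectionVars false

namespace Vale.Agent.P073.Top880

open _root_.P073 _root_.P073.Net _root_.P073.PA691 _root_.P073.H236 _root_.P073.H579
open Vale.Agent.P073.St (V)
open Vale.Agent.P073.H471 Vale.Agent.P073.H267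
open Vale.Agent.P073.H73 (Mesh onSeg)
open Vale.Agent.P073.H193 (Edges edges)
open Vale.Agent.P073.H926
open Vale.Agent.P073.H238.K3
open Vale.Agent.P073.H267.K3
open Vale.Agent.P073.H31.K3 (FNum1)
open Vale.Agent.P073.H233 (Tol)

/-- **the local theorem, for both maps** -/
def LocAll (C₀ A A' c : ℝ) : Prop :=
  ∀ {c₀ n δ : ℝ} {j : ℕ} {Ω Λ : Set V} {v w : V} {ρ : V → ℝ} {M : Mesh Ω} {h : ConHomeo Ω Λ}
    {J₀ J : Set (ℕ × (Fin 3 → ℤ))} {P Z : Set M.ι} {K : BoxCx Λ w}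
    (D : KIn3 c₀ n j δ v w ρ M h J₀ J P Z) (C : Cells ρ w K) (Ys : Set M.κ) {p μ r ν : ℝ}
    {sc : Sharp}, Cn p μ r sc ν n δ →
    LocRow D C C₀ (n / 128) Ys sc A A' c (fun Y₅ => Y₅.f.toFun) ∧
      LocRow D C C₀ (n / 128) Ys sc A A' c fun Y₅ => Y₅.fq.toFun

/-- **`REdge`** -/
theorem rEdge_of {C₀ A A' c : ℝ} (hC₀ : 1 ≤ C₀) (hA : 0 ≤ A) (hA' : 0 ≤ A') (hc : 0 ≤ c)
    (HL : LocAll C₀ A A' c) : REdge C₀ := by
  refine ⟨dE A A' c C₀, fun D₀ hD₀ => ?_⟩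
  intro c₀ n δ j Ω Λ v w ρ M h J₀ J P Z K D C Ys p μ r ν sc hCn ε om εL lam osc _ hT
  obtain ⟨H1, H2⟩ := HL D C Ys hCn
  exact (row_edge hA hA' hc (by linarith) H1 hT.om_pos hD₀).and
    (row_edgeq hA hA' hc (by linarith) H2 hT.om_pos hD₀)

end Vale.Agent.P073.Top880
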