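import Vale.Agent.P073.H581.EdRow3
import Vale.Agent.P073.H253.EdT2
import Vale.Agent.P073.H212.Po
import Vale.Agent.P073.H237.RowW

/-!
# P073, H581: the inputs of the local theorem of the edges, in slot form

`LocHyp`: the map before the tubes relative to `h4` (`PO`, 212) and the tube layer (253), both maps.
`row_lochyp`.
-/

open Set Metric Topology Filter MeasureTheory
open scoped ENNReal

set_option linter.unusedSectionVars false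

namespace Vale.Agent.P073.Top880

open _root_.P073 _root_.P073.Net _root_.P073.PA691 _root_.P073.H236 _root_.P073.H579
open _root_.P073.H345 (PK tg PLev)
open _root_.P073.H880.RP
open _root_.P073.H228.EP
open Vale.Agent.P073.St (V)
open Vale.Agent.P073.H471 Vale.Agent.P073.H267
open Vale.Agent.P073.H73 (Mesh onSeg)
open Vale.Agent.P073.H193 (Edges Cyc edges LAtC)
open Vale.Agent.P073.H926
open Vale.Agent.P073.H238.K3
open Vale.Agent.P073.H267.K3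
open Vale.Agent.P073.H253.EdT
open Vale.Agent.P073.H233 (Xp PSet)

variable {c₀ n δ : ℝ} {j : ℕ} {Ω Λ : Set V} {v w : V} {ρ : V → ℝ} {M : Mesh Ω} {h : ConHomeo Ω Λ}
  {J₀ J : Set (ℕ × (Fin 3 → ℤ))} {P Z : Set M.ι} {K : BoxCx Λ w}
  {D : KIn3 c₀ n j δ v w ρ M h J₀ J P Z} {C : Cells ρ w K} {C₀ μT : ℝ}
  {X : S1 D C C₀ μT} {Y₂ : S2 X} {Ys : Set M.κ} {sc : Sharp} {Y₃ : S3 Y₂ Ys sc} {Y₄ : S4 Y₃}

/-- the fattened windows at the edge `b` -/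
def SvW (Y₂ : S2 X) (η : K.G → ℝ) (b : K.G) : Set ℝ :=
  {t | ∃ p ∈ Y₂.win b, t ∈ Icc (p.1 - 12 * η b) (p.2 + 12 * η b)}

/-- **the inputs of the local theorem** at an edge `e`; `η`: the fattening of the windows, `w'`: tiny
number of the edge -/
structure LocHyp (Y₅ : S5 Y₄) (η : K.G → ℝ) (e : (edges M).ε) (w' : ℝ) : Prop where
  po : ∀ Xw : K.S → Bool → Set (ℝ × ℝ), PO (D.G C) (D.dat C).S₀ Xw (fun s => Y₂.muP s)
    (fun s => Y₂.muP s) Y₄.f5.toFun Y₃.h4.toFun ((edges M).seg e) 3 3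
    (fun s => 10 * Y₂.muP s / (D.B C).τ s) w'
  poq : ∀ Xw : K.S → Bool → Set (ℝ × ℝ), PO (D.G C) (D.dat C).S₀ Xw (fun s => Y₂.muP s)
    (fun s => Y₂.muP s) Y₃.h4.toFun Y₃.h4.toFun ((edges M).seg e) 3 3
    (fun s => 10 * Y₂.muP s / (D.B C).τ s) w'
  tok : ∀ x ∈ (edges M).seg e, ∀ cst : V → ℝ, (∀ y, 0 ≤ cst y) →
    PRes (D.B C) (Xp C J₀) (FlT (D.B C)) (SvW Y₂ η) cst ((edges M).seg e) Y₄.f5.toFun x →
    LAtC (D.B C) (Xp C J₀) (fun y => 4 * cst y + w' * ‖y - x‖) ((edges M).seg e) Y₅.f.toFun x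
  tokq : ∀ x ∈ (edges M).seg e, ∀ cst : V → ℝ, (∀ y, 0 ≤ cst y) →
    PRes (D.B C) (Xp C J₀) (FlT (D.B C)) (SvW Y₂ η) cst ((edges M).seg e) Y₃.h4.toFun x →
    LAtC (D.B C) (Xp C J₀) (fun y => 4 * cst y + w' * ‖y - x‖) ((edges M).seg e) Y₅.fq.toFun x

/-- the fattening of the windows: at the processed edges it is positive and at least the
displacement of the staircases -/
structure EtaOk (Y₂ : S2 X) (η : K.G → ℝ) : Prop where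
  pos : ∀ b ∈ pG C J₀, 0 < η b
  mu : ∀ b ∈ pG C J₀, ∀ s, K.edge b ⊆ K.sq s → Y₂.muP s ≤ η b

open Classical in
/-- **the inputs of the local theorem, in slot form** -/
theorem row_lochyp (D : KIn3 c₀ n j δ v w ρ M h J₀ J P Z) (C : Cells ρ w K) {C₀ μT : ℝ}
    {Ys : Set M.κ} {sc : Sharp} {w' : (edges M).ε → ℝ} (hw : ∀ e, 0 < w' e) :
    RowP D C C₀ μT Ys sc fun {_ Y₂ _ _} Y₅ => (∀ s, 2 * Y₂.muP s ≤ (D.B C).τ s) ∧
      ∃ η : K.G → ℝ, EtaOk (J₀ := J₀) (C := C) Y₂ η ∧ ∀ e, LocHyp Y₅ η e (w' e) := by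
  choose m4 m40 hm4 using fun {X : S1 D C C₀ μT} {Y₂ : S2 X} (Y₃ : S3 Y₂ Ys sc) =>
    exists_t4E Y₃ hw
  choose K₄ tq K₄0 tq0 hK₄ ht using fun {X : S1 D C C₀ μT} {Y₂ : S2 X} (Y₃ : S3 Y₂ Ys sc) =>
    exists_tolE Y₃ hw
  choose t5 t50 ht5 using fun {X : S1 D C C₀ μT} {Y₂ : S2 X} {Y₃ : S3 Y₂ Ys sc} (Y₄ : S4 Y₃) =>
    ht Y₃ (Y₄ := Y₄)
  have hτ : ∀ s, 0 < (D.B C).τ s := fun s => (D.B C).τ_pos s
  refine ⟨{ (Slots.one : Slots D C C₀ μT Ys sc) with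
    m := fun _ s => (D.B C).τ s / 2
    m0 := fun _ s => half_pos (hτ s)
    tol4 := fun Y₃ _ _ s => m4 Y₃ s
    tol40 := fun Y₃ _ _ s => m40 Y₃ s
    tol5 := fun {_ _ Y₃} Y₄ _ _ b => min (t5 Y₄ b) (tq Y₃ b)
    tol50 := fun {_ _ Y₃} Y₄ _ _ b => lt_min (t50 Y₄ b) (tq0 Y₃ b) }, ?_⟩
  intro N X Y₂ Y₃ Y₄ Y₅ h5
  have hμ : ∀ s, 2 * Y₂.muP s ≤ (D.B C).τ s := fun s => by
    have h1 : Y₂.muP s ≤ (D.B C).τ s / 2 := h5.muP s
    linarith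
  have hn := D.pos
  have hn1 := D.lt
  obtain ⟨η, η0, ημ, htb⟩ := h5.tb
  have hrq : ∀ s : (D.dat C).S₀, 1 / 2 ≤ Y₄.q s * Y₄.r s :=
    Y₄.rq_of (fun s => by rw [h5.r4]; linarith) fun s => by rw [h5.q4]; linarith
  refine ⟨hμ, fun b => if hb : b ∈ pG C J₀ then η ⟨b, hb⟩ else 1, ⟨fun b hb => ?_, fun b hb s hs =>
    ?_⟩, fun e => ?_⟩
  · rw [dif_pos hb]; exact η0 _
  · rw [dif_pos hb]; exact ημ _ s hs
  have hSv : ∀ b : pG C J₀, ∀ t ∈ SvW Y₂ (fun b => if hb : b ∈ pG C J₀ then η ⟨b, hb⟩ else 1) b.1,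
      ∀ i, t < (Y₅.Th b).c i - (Y₅.Th b).w i ∨ (Y₅.Th b).c i + (Y₅.Th b).w i < t := by
    rintro b t ⟨p, hp, h1⟩ i
    dsimp only at h1
    rw [dif_pos b.2] at h1
    refine gap_win Y₅ (htb b) ⟨p, hp, ?_⟩ i
    have e1 : 2 * (6 * η b) = 12 * η b := by ring
    rw [e1]
    exact h1
  have hε5 := fun b => h5.ε5 b
  obtain ⟨hT1, hT2⟩ := ht5 Y₄ Y₅ (fun b => (hε5 b).trans (min_le_left _ _))
    (fun b => (hε5 b).trans (min_le_right _ _)) e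
  exact ⟨fun Xw => Y₄.po_seg hrq hμ fun s hs => (h5.ε4 s).trans (hm4 Y₃ s e hs),
    fun Xw => Y₃.po_refl (hw e).le,
    tOk Y₅ (fun b => (h5.μ0 b).le) h5.μ1 h5.μu hSv e (hw e).le hT1,
    tOkq Y₅ (fun b => (h5.μ0 b).le) h5.μ1 h5.μu hSv (hK₄ Y₃) e (hw e).le hT2⟩

end Vale.Agent.P073.Top880
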