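import Vale.Agent.P073.H581.EdRow5

/-!
# P073, H581: `LocGen` from the local theorem of the edges over the stages
-/

open Set Metric Topology Filter MeasureTheory
open scoped ENNReal

set_option linter.unusedSectionVars false

namespace Vale.Agent.P073.Top880

open _root_.P073 _root_.P073.Net _root_.P073.PA691 _root_.P073.H236 _root_.P073.H579
open _root_.P073.H345 (PK tg PLev)
open _root_.P073.H880.RP
open Vale.Agent.P073.St (V)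
open Vale.Agent.P073.H471 Vale.Agent.P073.H267
open Vale.Agent.P073.H73 (Mesh onSeg)
open Vale.Agent.P073.H193 (Edges Cyc edges LAtC)
open Vale.Agent.P073.H926
open Vale.Agent.P073.H238.K3
open Vale.Agent.P073.H267.K3
open Vale.Agent.P073.H190.Tvp
open Vale.Agent.P073.H233 (Xp PSet)
open _root_.P073.Croft (levs onS cross)

section

variable {c₀ n δ : ℝ} {j : ℕ} {Ω Λ : Set V} {v w : V} {ρ : V → ℝ} {M : Mesh Ω} {h : ConHomeo Ω Λ}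
  {J₀ J : Set (ℕ × (Fin 3 → ℤ))} {P Z : Set M.ι} {K : BoxCx Λ w}
  {D : KIn3 c₀ n j δ v w ρ M h J₀ J P Z} {C : Cells ρ w K} {C₀ μT : ℝ}
  {X : S1 D C C₀ μT} {Y₂ : S2 X} {Ys : Set M.κ} {sc : Sharp}

/-- **the numbers of the instance of the local theorem** -/
structure NumE (Y₃ : S3 Y₂ Ys sc) : Prop where
  c : ∀ s β, 4 * Y₃.c s β ≤ 2 * Y₂.muP s
  J : ∀ s, Y₂.J s = 2048 * ω3S δ C s
  R : ∀ s, Y₂.R s = 131072 * ω3S δ C s
  m : ∀ s, Y₂.muP s ≤ 2048 * ω3S δ C s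
  τ : ∀ s, 2 * Y₂.muP s ≤ (D.B C).τ s

/-- the numbers, in slot form -/
theorem row_nE (D : KIn3 c₀ n j δ v w ρ M h J₀ J P Z) (C : Cells ρ w K) {C₀ μT : ℝ}
    {Ys : Set M.κ} {sc : Sharp} : RowP D C C₀ μT Ys sc fun {_ _ Y₃ _} _ => NumE Y₃ := by
  have hτ : ∀ s, 0 < (D.B C).τ s := fun s => (D.B C).τ_pos s
  refine ⟨{ (Slots.one : Slots D C C₀ μT Ys sc) with
    m := fun _ s => (D.B C).τ s / 2
    m0 := fun _ s => half_pos (hτ s)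
    cm := fun Y₂ s _ => Y₂.muP s / 2
    cm0 := fun Y₂ s _ => half_pos (Y₂.mu_pos s) }, ?_⟩
  intro N X Y₂ Y₃ Y₄ Y₅ h5
  refine ⟨fun s β => ?_, h5.J, h5.R, h5.muJ, fun s => ?_⟩
  · have h1 : Y₃.c s β ≤ Y₂.muP s / 2 := h5.c s β
    linarith
  · have h1 : Y₂.muP s ≤ (D.B C).τ s / 2 := h5.muP s
    linarith

end

/-- **the local theorem over the stages** -/
def LocS (C₀ A A' c : ℝ) : Prop :=
  ∀ {c₀ n δ : ℝ} {j : ℕ} {Ω Λ : Set V} {v w : V} {ρ : V → ℝ} {M : Mesh Ω} {h : ConHomeo Ω Λ}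
    {J₀ J : Set (ℕ × (Fin 3 → ℤ))} {P Z : Set M.ι} {K : BoxCx Λ w}
    {D : KIn3 c₀ n j δ v w ρ M h J₀ J P Z} {C : Cells ρ w K} {X : S1 D C C₀ (n / 128)}
    {Y₂ : S2 X} {Ys : Set M.κ} {sc : Sharp} {Y₃ : S3 Y₂ Ys sc} {Y₄ : S4 Y₃} (Y₅ : S5 Y₄),
    NumE Y₃ → ∀ η : K.G → ℝ, EtaOk (J₀ := J₀) (C := C) Y₂ η →
    ∀ (e : (edges M).ε) (w' w₁ : ℝ), 0 < w' → 0 < w₁ → LocHyp Y₅ η e w' →
      LocG Y₃ A A' c w' w₁ Y₅.f.toFun e ∧ LocG Y₃ A A' c w' w₁ Y₅.fq.toFun e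

/-- **`LocGen`** -/
theorem locGen_of {C₀ A A' c : ℝ} (H : LocS C₀ A A' c) : LocGen C₀ A A' c := by
  intro c₀ n δ j Ω Λ v w ρ M h J₀ J P Z K D C Ys p μ r ν sc hCn
  exact (row_nE D C).mono fun Y₅ hN _ η hη e _ w' w₁ hw' hw₁ hL => H Y₅ hN η hη e w' w₁ hw' hw₁ hL

/-- **`LocAll`** -/
theorem locAll_of_locS {C₀ A A' c : ℝ} (H : LocS C₀ A A' c) : LocAll C₀ A A' c :=
  locAll_of (locGen_of H)

end Vale.Agent.P073.Top880
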