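import Vale.Agent.P073.H345.RoundP
import Vale.Agent.P073.H669.PLevE
import Vale.Agent.P073.H669.PLevF
import Vale.Agent.P073.H581.T5e

/-!
# P073, ROUND P, **[P-TV]**: the sharp variation on the edges of the peeled faces

`f = S_P ∘ h3` (H142 `PS.map T ∘ h3`); `cw`: clamp to the window of the levels.
-/

open Set Metric Topology Filter
open scoped ENNReal

namespace Vale.Agent.P073.H581

open _root_.P073 _root_.P073.TR _root_.P073.Net _root_.P073.PA691
open Vale.Agent.P073.St (V)
open Vale.Agent.P073.H471 Vale.Agent.P073.H267 Vale.Agent.P073.H267.Geo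
open Vale.Agent.P073.H73 (Mesh)
open Vale.Agent.P073.H193 (Edges)
open _root_.P073.Croft (Cells Crs levs Generic onS cross varIn TransAt SepL)
open _root_.P073.H236 (BX Lvs BFam stp dsp bmp qm kQ kQ_self kQ_ne)
open _root_.P073.H579 (Pre InsMap prodK convex_fibre AkP EAct)
open _root_.P073.H345 (tg tg_ne tg_ne_not bt bt_tg tg_bt PK PB_sub_PK PLev IsQ Out3P RPOut)
open _root_.P073.H142 (PS)
open _root_.P073.H267 (tvE lenE)
open Vale.Agent.P073.H805 (ROut RIn)
open Vale.Agent.P073.H669 (PLv wl)

/-! ### the clamp -/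

/-- clamp to `[al, be]` -/
def clp (al be t : ℝ) : ℝ := max al (min t be)

section clp

variable {al be : ℝ}

theorem clp_mem (h : al ≤ be) (t : ℝ) : clp al be t ∈ Icc al be :=
  ⟨le_max_left _ _, max_le h (min_le_right _ _)⟩

theorem clp_of_mem {t : ℝ} (ht : t ∈ Icc al be) : clp al be t = t := by
  unfold clp
  rw [min_eq_left ht.2, max_eq_right ht.1]

theorem clp_of_le (h : al ≤ be) {t : ℝ} (ht : t ≤ al) : clp al be t = al := by
  unfold clp
  rw [min_eq_left (ht.trans h), max_eq_left ht]

theorem clp_of_ge (h : al ≤ be) {t : ℝ} (ht : be ≤ t) : clp al be t = be := by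
  unfold clp
  rw [min_eq_right ht, max_eq_right h]

theorem continuous_clp : Continuous (clp al be) := by
  unfold clp; fun_prop

theorem abs_clp_sub_le (s t : ℝ) : |clp al be s - clp al be t| ≤ |s - t| := by
  unfold clp
  have h1 := abs_max_sub_max_le_abs (min s be) (min t be) al
  rw [max_comm, max_comm al] at *
  refine (by simpa [max_comm] using h1 : |max (min s be) al - max (min t be) al| ≤ _).trans ?_
  exact abs_min_sub_min_le_max _ _ _ _ |>.trans (by simp)

theorem clp_comm (h : al ≤ be) {q : ℝ → ℝ} (hq : Monotone q)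
    (ho : ∀ t, t ≤ al ∨ be ≤ t → q t = t) (t : ℝ) : clp al be (q t) = q (clp al be t) := by
  rcases le_total t al with h1 | h1
  · rw [ho t (Or.inl h1), clp_of_le h h1, ho al (Or.inl le_rfl)]
  · rcases le_total be t with h2 | h2
    · rw [ho t (Or.inr h2), clp_of_ge h h2, ho be (Or.inr le_rfl)]
    · have h3 : q t ∈ Icc al be := by
        constructor
        · rw [← ho al (Or.inl le_rfl)]; exact hq h1
        · rw [← ho be (Or.inr le_rfl)]; exact hq h2
      rw [clp_of_mem ⟨h1, h2⟩, clp_of_mem h3]

end clp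

/-- **sharp form, one coordinate, with the clamp to the window** -/
theorem evar_clp {N : ℕ} {a : ℕ → ℝ} {c al be e : ℝ} (h : Lvs N a c al be) (he : 0 < e)
    (heo : 2 * e < stp N al be) (hab : al ≤ be)
    (σm : Monotone (_root_.P073.H236.sm N a c al be al (stp N al be) e)) {y z γ : ℝ → ℝ}
    (γm : MonotoneOn γ (Icc 0 1)) (γc : ContinuousOn γ (Icc 0 1))
    (γI : MapsTo γ (Icc 0 1) (Icc 0 1)) (hy : ContinuousOn y (Icc 0 1))
    (hk : ∀ t ∈ Icc (0:ℝ) 1, qm h.L c (y t) = z (γ t)) (X : Finset ℝ)
    (hX : ∀ t ∈ Icc (0:ℝ) 1, z t ∈ h.L → t ∈ X) (hXl : ∀ x ∈ X, z x ∈ h.L)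
    (hinj : ∀ x ∈ X, InjOn y (Icc 0 1 ∩ γ ⁻¹' {x})) :
    eVariationOn (fun t => clp al be (_root_.P073.H236.sm N a c al be al (stp N al be) e (y t)))
      (Icc 0 1) ≤
      X.card * ENNReal.ofReal (stp N al be) +
        ENNReal.ofReal (e / c) * eVariationOn z (Icc 0 1) := by
  have hc := h.c0
  have hqm := _root_.P073.H236.qm_monotone hc.le h.sepd
  -- levels are inside of the window
  have hlev : ∀ b ∈ h.L, ∀ t, |t - b| ≤ c → t ∈ Icc al be := by
    intro b hb t ht
    obtain ⟨k, hk, rfl⟩ := h.mem_L.1 hb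
    have h1 := h.first_le hk
    have h2 := h.le_last hk
    have h3 := abs_le.1 ht
    exact ⟨by linarith [h3.1], by linarith [h3.2]⟩
  have hzc : ∀ t, clp al be (z t) ∈ h.L → z t ∈ h.L := by
    intro t ht
    obtain ⟨k, hk, hk'⟩ := h.mem_L.1 ht
    have h1 := h.first_le hk
    have h2 := h.le_last hk
    have h3 : z t ∈ Icc al be := by
      constructor
      · by_contra hcon
        push Not at hcon
        rw [clp_of_le hab hcon.le] at hk'
        linarith
      · by_contra hcon
        push Not at hcon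
        rw [clp_of_ge hab hcon.le] at hk'
        linarith
    rwa [clp_of_mem h3] at ht
  have key := evar_full1 (k := qm h.L c) (σ := _root_.P073.H236.sm N a c al be al (stp N al be) e)
    (y := fun t => clp al be (y t)) (z := fun t => clp al be (z t)) (γ := γ)
    (L := (h.L : Set ℝ)) (Wd := Icc al be) (ω := stp N al be) (ε := e / c)
    (div_pos he hc).le h.L.finite_toSet.isClosed (_root_.P073.H236.qm_continuous _ _)
    hqm _root_.P073.H236.sm_continuous σm
    (fun s hs t ht hst hno => sm_sharp h he heo hs ht hst hno)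
    (fun s t hst hk => sm_flat h he heo hst hk)
    γm γc (continuous_clp.comp_continuousOn hy) (fun t _ => clp_mem hab _)
    (fun t ht => by
      rw [← clp_comm hab hqm (fun t ht => h.qm_out ht), hk t ht])
    X
    (fun t ht hL => hX _ (γI ht) (hzc _ (Finset.mem_coe.1 hL)))
    (fun x hx s hs t ht hst => by
      have hw : ∀ u ∈ Icc (0:ℝ) 1 ∩ γ ⁻¹' {x}, y u ∈ Icc al be := by
        intro u hu
        have h1 := hk u hu.1
        rw [show γ u = x from hu.2] at h1
        have h2 := (_root_.P073.H236.qm_eq_iff hc h.sepd (hXl x hx) (y u)).1 h1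
        exact hlev _ (hXl x hx) _ (abs_le.2 ⟨by linarith [h2.1], by linarith [h2.2]⟩)
      refine hinj x hx hs ht ?_
      have h3 : clp al be (y s) = clp al be (y t) := hst
      rwa [clp_of_mem (hw s hs), clp_of_mem (hw t ht)] at h3)
  have e1 : (fun t => clp al be (_root_.P073.H236.sm N a c al be al (stp N al be) e (y t))) =
      fun t => _root_.P073.H236.sm N a c al be al (stp N al be) e (clp al be (y t)) := by
    funext t
    exact clp_comm hab σm (fun t ht => _root_.P073.H236.sm_out h ht) _
  rw [e1]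
  refine key.trans ?_
  gcongr
  have h2 : LipschitzWith 1 (clp al be) := by
    refine LipschitzWith.of_dist_le_mul fun s t => ?_
    rw [Real.dist_eq, Real.dist_eq, NNReal.coe_one, one_mul]
    exact abs_clp_sub_le s t
  have h3 := (h2.lipschitzOnWith (s := univ)).comp_eVariationOn_le
    (g := fun t => z (γ t)) (s := Icc (0:ℝ) 1) (fun _ _ => mem_univ _)
  rw [ENNReal.coe_one, one_mul] at h3
  exact h3.trans (eVariationOn.comp_le_of_monotoneOn z γ γm γI)

end Vale.Agent.P073.H581
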