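import Vale.Agent.P073.H581.PTv

/-!
# P073, ROUND P, **[P-TV]**, part 2: one direction, both directions
-/

open Set Metric Topology Filter
open scoped ENNReal

namespace Vale.Agent.P073.H581

open _root_.P073 _root_.P073.TR _root_.P073.Net _root_.P073.PA691
open Vale.Agent.P073.St (V)
open Vale.Agent.P073.H471 Vale.Agent.P073.H267 Vale.Agent.P073.H267.Geo
open Vale.Agent.P073.H73 (Mesh)
open Vale.Agent.P073.H193 (Edges)
open _root_.P073.Croft (Cells Crs levs Generic onS cross varIn TransAt SepL)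
open _root_.P073.H236 (BX Lvs BFam stp dsp bmp qm kQ kQ_self kQ_ne)
open _root_.P073.H579 (Pre InsMap prodK convex_fibre AkP EAct)
open _root_.P073.H345 (tg tg_ne tg_ne_not bt bt_tg tg_bt tg_cases PK PB_sub_PK PLev IsQ Out3P RPOut)
open _root_.P073.H142 (PS)
open _root_.P073.H267 (tvE lenE)
open Vale.Agent.P073.H805 (ROut RIn)
open Vale.Agent.P073.H669 (PLv wl)

variable {Ω Λ : Set V} {v : V} {K : BoxCx Λ v} {S : Rad K} {W : Wid K S} {B : Boxes W}
  {G : Geo B} {M : Mesh Ω} {E : Edges M} {h1 h2 h3 : ConHomeo Ω Λ} {Pr : Set M.ι}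
  {L : PLev G} {κ₀ κ₁ : V → V} {GE : E.ε → (V → V) → Prop} {GF : M.κ → (V → V) → Prop}
  {F : Bool → BFam 3 K.S Λ} {T : Bool → ConHomeo Λ Λ}

/-- clamp to the window of the levels of the square `s` in the direction `j` -/
noncomputable def cw (G : Geo B) (s : K.S) (j : Fin 3) : ℝ → ℝ :=
  clp (K.slo s j + G.a s) (K.shi s j - G.a s)

/-- **the parameter change of an edge in a plate** -/
theorem exists_parP (i₀ : IsQ (L.bx false) κ₀) (i₁ : IsQ (L.bx true) κ₁)
    (hI : InsMap (κ₁ ∘ κ₀) Λ Λ) (O3 : Out3P G M E h1 h2 (κ₁ ∘ κ₀) GE GF h3) {s : K.S} {e : E.ε}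
    (hC : h2.toFun '' E.seg e ⊆ G.PB (7 / 8) s) :
    ∃ γ : ℝ → ℝ, MonotoneOn γ (Icc 0 1) ∧ ContinuousOn γ (Icc 0 1) ∧
      MapsTo γ (Icc 0 1) (Icc 0 1) ∧ ∀ t ∈ Icc (0:ℝ) 1,
        prodK (L.kP s) (onS h3.toFun (E.a e) (E.b e) t) = onS h2.toFun (E.a e) (E.b e) (γ t) := by
  have Z := PLev.zone (β := false) i₀ i₁ hC
  obtain ⟨γ, γm, γc, γI, hγ⟩ := exists_par (h := h2) (g := h3) (E.ne e) (E.seg_sub_Ω e) hI.cont
    (O3.img_edge e) (O3.vert _ (Or.inl ⟨e, rfl⟩)) (O3.vert _ (Or.inr ⟨e, rfl⟩)) (by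
      intro x hx
      have e1 : {y | y ∈ Λ ∧ (κ₁ ∘ κ₀) y = h2.toFun x} =
          {y | prodK (L.kP s) y = h2.toFun x} := by
        ext y
        constructor
        · rintro ⟨hy, h⟩
          have h4 := Z.z2 y hy (by rw [h]; exact ⟨x, hx, rfl⟩)
          show prodK (L.kP s) y = h2.toFun x
          rw [← h4]; exact h
        · intro h
          have h' : prodK (L.kP s) y = h2.toFun x := h
          have h4 := Z.z1 y (by rw [h']; exact ⟨x, hx, rfl⟩)
          exact ⟨h4.1, h4.2.trans h'⟩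
      rw [e1]
      exact (convex_fibre (fun j => L.ins1P s j) _).isPreconnected)
  refine ⟨γ, γm, γc, γI, fun t ht => ?_⟩
  have h4 := hγ t ht
  rw [← h4]
  refine (Z.z2 _ (onS_maps h3 e ht) ?_).symm
  rw [h4]
  exact onS_img h2 e (γI ht)

/-- **[P-TV]**, one direction: the variation of the clamped coordinate of `S_P ∘ h3` -/
theorem ptv_one (R : RPOut G M E Pr L h1 κ₀ κ₁ h2 GE GF h3) (P : PS L F T) {s : K.S} {e : E.ε}
    (he : EAct E (AkP G M h1 univ) s e) (β : Bool) {X : Finset ℝ}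
    (hX : ∀ t, t ∈ X ↔ t ∈ Icc (0:ℝ) 1 ∧
      onS h2.toFun (E.a e) (E.b e) t (tg s β) ∈ L.lv s (tg s β)) :
    eVariationOn (fun t => cw G s (tg s β)
        (PS.map T (onS h3.toFun (E.a e) (E.b e) t) (tg s β))) (Icc 0 1) ≤
      X.card * ENNReal.ofReal (L.om s β) + ENNReal.ofReal ((F β).e s / L.c s β) *
        eVariationOn (fun t => onS h2.toFun (E.a e) (E.b e) t (tg s β)) (Icc 0 1) := by
  obtain ⟨k, ⟨hA, x₀, hx₀, hs₀⟩, hek⟩ := he
  have hC : h2.toFun '' E.seg e ⊆ G.PB (7 / 8) s := by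
    rintro _ ⟨y, hy, rfl⟩
    exact (R.rout.near7 k hA s x₀ hx₀ hs₀ y (hek hy)).2
  have hoff := (R.rout.edge k hA s x₀ hx₀ hs₀ e hek).1.off
  rw [L.lvs_lv s] at hoff
  obtain ⟨γ, γm, γc, γI, hγ⟩ := exists_parP R.isQ₀ R.isQ₁ R.ins R.out hC
  set Y : ℝ → V := onS h3.toFun (E.a e) (E.b e) with hY
  set Z : ℝ → V := onS h2.toFun (E.a e) (E.b e) with hZ
  have hYPB : ∀ t ∈ Icc (0:ℝ) 1, Y t ∈ G.PB (7 / 8) s := fun t ht =>
    (PLev.prodK_mem_PB (L := L) (c := 7 / 8) (by norm_num)).1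
      (by rw [hγ t ht]; exact hC (onS_img h2 e (γI ht)))
  have eB : (F β).B s = L.bx β s := by rw [P.B β]
  have eσ : (F β).σ s = _root_.P073.H236.sm (L.N s β) (L.a s β) (L.c s β)
      (K.slo s (tg s β) + G.a s) (K.shi s (tg s β) - G.a s) (K.slo s (tg s β) + G.a s)
      (stp (L.N s β) (K.slo s (tg s β) + G.a s) (K.shi s (tg s β) - G.a s)) ((F β).e s) := by
    unfold BFam.σ BFam.om
    rw [eB]
    rfl
  have heo : 2 * (F β).e s < stp (L.N s β) (K.slo s (tg s β) + G.a s)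
      (K.shi s (tg s β) - G.a s) := by
    have := (F β).heo s
    rw [eB] at this
    exact this
  have hqm : ∀ y : V, prodK (L.kP s) y (tg s β) = qm (L.lvs s β).L (L.c s β) (y (tg s β)) := by
    intro y
    show L.kP s (tg s β) (y (tg s β)) = _
    rw [PLev.kP_tg]
    show kQ (L.bx β s) (L.bx β s).j _ = _
    rw [kQ_self]
    rfl
  have hgoal : eVariationOn (fun t => cw G s (tg s β) (PS.map T (Y t) (tg s β))) (Icc 0 1) =
      eVariationOn (fun t => clp (K.slo s (tg s β) + G.a s) (K.shi s (tg s β) - G.a s)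
        (_root_.P073.H236.sm (L.N s β) (L.a s β) (L.c s β)
      (K.slo s (tg s β) + G.a s) (K.shi s (tg s β) - G.a s) (K.slo s (tg s β) + G.a s)
      (stp (L.N s β) (K.slo s (tg s β) + G.a s) (K.shi s (tg s β) - G.a s)) ((F β).e s)
        (Y t (tg s β)))) (Icc 0 1) := by
    refine eVariationOn.congr fun t ht => ?_
    show cw G s (tg s β) (PS.map T (Y t) (tg s β)) = _
    have h4 := (P.plate s).apply (hYPB t ht) β
    have h5 : PS.map T (Y t) (tg s β) = (F β).σ s (Y t (tg s β)) := h4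
    rw [h5, eσ]
    rfl
  rw [hgoal]
  have hab : K.slo s (tg s β) + G.a s ≤ K.shi s (tg s β) - G.a s := by
    have h4 := (L.lvs s β).first_le (L.lvs s β).pos
    have h5 := (L.lvs s β).le_last (L.lvs s β).pos
    have h6 := (L.lvs s β).c0
    linarith
  refine (evar_clp (L.lvs s β) ((F β).he s) heo hab (by
      rw [← eσ]; exact ((F β).σ_strictMono s).monotone)
    (y := fun t => Y t (tg s β)) (z := fun t => Z t (tg s β)) γm γc γI
    ((continuous_apply _).comp_continuousOn (onS_cont h3 e))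
    (fun t ht => by rw [← hqm, hγ t ht]) X
    (fun t ht hL => (hX t).2 ⟨ht, by rw [PLev.lv_tg]; exact hL⟩)
    (fun x hx => by have := ((hX x).1 hx).2; rwa [PLev.lv_tg] at this)
    (fun x hx p hp q hq hpq => ?_)).trans (le_of_eq rfl)
  obtain ⟨hx1, hx2⟩ := (hX x).1 hx
  have hxs : E.a e + x • (E.b e - E.a e) ∈ E.seg e := Croft.onS_mem hx1
  have heq : prodK (L.kP s) (Y p) = prodK (L.kP s) (Y q) := by
    rw [hγ p hp.1, hγ q hq.1, show γ p = x from hp.2, show γ q = x from hq.2]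
  have hYpq : Y p = Y q := by
    ext i
    by_cases hi : i = K.nrm s
    · have h4 := congrFun heq i
      change L.kP s i (Y p i) = L.kP s i (Y q i) at h4
      rw [hi, PLev.kP_nrm] at h4
      rw [hi]; exact h4
    · rcases tg_cases s β hi with rfl | hi'
      · exact hpq
      · refine (L.ins1P s i).inj _ _ (congrFun heq i) fun hmem => ?_
        have h4 : prodK (L.kP s) (Y p) i ∈ L.lv s i := Finset.mem_coe.1 hmem
        rw [hγ p hp.1, show γ p = x from hp.2] at h4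
        have h5 := hoff _ hxs (tg s β) i hx2 h4
        rw [hi'] at h5
        exact tg_ne_not s β h5
  exact onS_inj h3 e hp.1 hq.1 hYpq

end Vale.Agent.P073.H581
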