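import Vale.Agent.P073.H581.PTv2

/-!
# P073, ROUND P, **[P-TV]**, part 3: the counts and the sharp estimate
-/

open Set Metric Topology Filter
open scoped ENNReal

namespace Vale.Agent.P073.H581

open _root_.P073 _root_.P073.TR _root_.P073.Net _root_.P073.PA691
open Vale.Agent.P073.St (V)
open Vale.Agent.P073.H471 Vale.Agent.P073.H267 Vale.Agent.P073.H267.Geo
open Vale.Agent.P073.H73 (Mesh)
open Vale.Agent.P073.H193 (Edges)
open _root_.P073.Croft (Cells Crs levs Generic onS cross varIn TransAt SepL)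
open _root_.P073.H236 (BX Lvs BFam stp dsp bmp qm kQ kQ_self kQ_ne)
open _root_.P073.H579 (Pre InsMap prodK convex_fibre AkP EAct)
open _root_.P073.H345 (tg tg_ne tg_ne_not bt bt_tg tg_bt tg_cases PK PB_sub_PK PLev IsQ Out3P RPOut)
open _root_.P073.H142 (PS)
open _root_.P073.H267 (tvE lenE)
open Vale.Agent.P073.H805 (ROut RIn)
open Vale.Agent.P073.H669 (PLv wl PK_compact PK_sub)

variable {Ω Λ : Set V} {v : V} {K : BoxCx Λ v} {S : Rad K} {W : Wid K S} {B : Boxes W}
  {G : Geo B} {M : Mesh Ω} {E : Edges M} {h1 h2 h3 : ConHomeo Ω Λ} {Pr : Set M.ι}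
  {L : PLev G} {κ₀ κ₁ : V → V} {GE : E.ε → (V → V) → Prop} {GF : M.κ → (V → V) → Prop}
  {F : Bool → BFam 3 K.S Λ} {T : Bool → ConHomeo Λ Λ}

/-- the tangential directions -/
theorem sum_tg (s : K.S) (f : Fin 3 → ℝ≥0∞) :
    ∑ j ∈ Finset.univ.erase (K.nrm s), f j = f (tg s true) + f (tg s false) := by
  classical
  have e1 : Finset.univ.erase (K.nrm s) = {tg s true, tg s false} := by
    ext j
    rw [Finset.mem_erase, Finset.mem_insert, Finset.mem_singleton]
    constructor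
    · rintro ⟨hj, -⟩
      exact tg_cases s true hj
    · rintro (rfl | rfl)
      · exact ⟨tg_ne s _, Finset.mem_univ _⟩
      · exact ⟨tg_ne s _, Finset.mem_univ _⟩
  rw [e1]
  exact Finset.sum_pair (tg_ne_not s true)

theorem seg_inj (e : E.ε) : Function.Injective fun t : ℝ => E.a e + t • (E.b e - E.a e) := by
  intro p q hpq
  have h2 : (p - q) • (E.b e - E.a e) = 0 := by
    have := add_left_cancel hpq
    rw [sub_smul, this, sub_self]
  rcases smul_eq_zero.1 h2 with h3 | h3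
  · linarith
  · exact absurd (sub_eq_zero.1 h3).symm (E.ne e)

/-- the crossings of `h2` in the parameter of an edge -/
def X2 (L : PLev G) (E : Edges M) (h2 : ConHomeo Ω Λ) (s : K.S) (e : E.ε) (β : Bool) : Set ℝ :=
  {t | t ∈ Icc (0:ℝ) 1 ∧ onS h2.toFun (E.a e) (E.b e) t (tg s β) ∈ L.lv s (tg s β)}

theorem X2_fin (R : RPOut G M E Pr L h1 κ₀ κ₁ h2 GE GF h3) {s : K.S} {e : E.ε}
    (he : EAct E (AkP G M h1 univ) s e) (β : Bool) : (X2 L E h2 s e β).Finite := by
  obtain ⟨k, ⟨hA, x₀, hx₀, hs₀⟩, hek⟩ := he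
  have hfin := (R.rout.edge k hA s x₀ hx₀ hs₀ e hek).2.1
  rw [L.lvs_lv s] at hfin
  refine Finite.of_finite_image (f := fun t : ℝ => E.a e + t • (E.b e - E.a e))
    (hfin.subset ?_) (seg_inj e).injOn
  rintro _ ⟨t, ⟨ht, hl⟩, rfl⟩
  exact ⟨Croft.onS_mem ht, _, hl⟩

theorem X2_disj (R : RPOut G M E Pr L h1 κ₀ κ₁ h2 GE GF h3) {s : K.S} {e : E.ε}
    (he : EAct E (AkP G M h1 univ) s e) : Disjoint (X2 L E h2 s e true) (X2 L E h2 s e false) := by
  obtain ⟨k, ⟨hA, x₀, hx₀, hs₀⟩, hek⟩ := he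
  have hoff := (R.rout.edge k hA s x₀ hx₀ hs₀ e hek).1.off
  rw [L.lvs_lv s] at hoff
  rw [Set.disjoint_left]
  rintro t ⟨ht, h1⟩ ⟨-, h2⟩
  exact tg_ne_not s true (hoff _ (Croft.onS_mem ht) _ _ h1 h2)

/-- **the number of crossings does not increase** -/
theorem cnt_X2_le (R : RPOut G M E Pr L h1 κ₀ κ₁ h2 GE GF h3) {s : K.S} {e : E.ε}
    (he : EAct E (AkP G M h1 univ) s e) :
    cnt (X2 L E h2 s e true) + cnt (X2 L E h2 s e false) ≤
      cnt (L.crP E h1 (fun i => PK G i.1) e (s, true)) +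
        cnt (L.crP E h1 (fun i => PK G i.1) e (s, false)) := by
  classical
  have hfin := fun β => X2_fin R he β
  set Y : Finset V := ((hfin true).toFinset ∪ (hfin false).toFinset).image
    (fun t : ℝ => E.a e + t • (E.b e - E.a e)) with hY
  have h4 := L.encard_crs (P := fun i => PK G i.1) R.rout
    (fun s _ => PB_sub_PK (by norm_num) s) he Y (by
      intro x hx
      rw [hY, Finset.mem_image] at hx
      obtain ⟨t, ht, rfl⟩ := hx
      rw [Finset.mem_union, Finite.mem_toFinset, Finite.mem_toFinset] at ht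
      rcases ht with ht | ht
      · exact ⟨Croft.onS_mem ht.1, _, ht.2⟩
      · exact ⟨Croft.onS_mem ht.1, _, ht.2⟩)
  have h5 : (Y : Set V).encard = (X2 L E h2 s e true).encard + (X2 L E h2 s e false).encard := by
    rw [← encard_union_eq (X2_disj R he), hY, Finset.coe_image,
      (seg_inj e).encard_image, Finset.coe_union, Finite.coe_toFinset, Finite.coe_toFinset]
  rw [h5] at h4
  unfold cnt
  exact_mod_cast h4

/-- **[P-TV]**, both directions -/
theorem ptv_two (R : RPOut G M E Pr L h1 κ₀ κ₁ h2 GE GF h3) (P : PS L F T) {s : K.S} {e : E.ε}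
    (he : EAct E (AkP G M h1 univ) s e) {ω : ℝ} (hω : ∀ β, L.om s β ≤ ω) {τ : ℝ≥0∞}
    (hτ : ∀ β, ENNReal.ofReal ((F β).e s / L.c s β) *
      len (onS h2.toFun (E.a e) (E.b e)) (Icc 0 1) ≤ τ) :
    ∑ j ∈ Finset.univ.erase (K.nrm s), eVariationOn (fun t => cw G s j
        (PS.map T (onS h3.toFun (E.a e) (E.b e) t) j)) (Icc 0 1) ≤
      ENNReal.ofReal ω * (cnt (X2 L E h2 s e true) + cnt (X2 L E h2 s e false)) + 2 * τ := by
  classical
  rw [sum_tg]
  have key : ∀ β, eVariationOn (fun t => cw G s (tg s β)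
        (PS.map T (onS h3.toFun (E.a e) (E.b e) t) (tg s β))) (Icc 0 1) ≤
      ENNReal.ofReal ω * cnt (X2 L E h2 s e β) + τ := by
    intro β
    have h4 := ptv_one R P he β (X := (X2_fin R he β).toFinset) (fun t => by
      rw [Finite.mem_toFinset]; rfl)
    refine h4.trans (add_le_add ?_ ?_)
    · have h5 : (((X2_fin R he β).toFinset.card : ℕ) : ℝ≥0∞) = cnt (X2 L E h2 s e β) := by
        unfold cnt
        rw [(X2_fin R he β).encard_eq_coe_toFinset_card]
        simp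
      rw [h5, mul_comm]
      exact mul_le_mul_left (ENNReal.ofReal_le_ofReal (hω β)) _
    · refine le_trans (mul_le_mul_right ?_ _) (hτ β)
      exact evar_coord_le_len _ _ _
  refine (add_le_add (key true) (key false)).trans (le_of_eq ?_)
  ring

/-- thresholds for small coefficients of the lengths of the edges which meet a compact set -/
theorem exists_tX (h' : ConHomeo Ω Λ) {ε : E.ε → ℝ} (hε : ∀ e, 0 < ε e) {P : Set V}
    (hP : IsCompact P) (hPΛ : P ⊆ Λ) :
    ∃ t₁ > 0, ∀ t, 0 < t → t ≤ t₁ → ∀ e : E.ε, (h'.toFun '' E.seg e ∩ P).Nonempty →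
      ENNReal.ofReal t * len (onS h'.toFun (E.a e) (E.b e)) (Icc 0 1) ≤
        ENNReal.ofReal (ε e) := by
  have hfe : {e : E.ε | (h'.toFun '' E.seg e ∩ P).Nonempty}.Finite :=
    Croft.finite_image_inter h' (fun e => E.seg_sub_Ω e) (fun X hX hXc => E.fin X hX hXc) hP hPΛ
  have h1 : ∀ᶠ t in 𝓝[>] (0:ℝ), ∀ e ∈ {e : E.ε | (h'.toFun '' E.seg e ∩ P).Nonempty},
      ENNReal.ofReal t * len (onS h'.toFun (E.a e) (E.b e)) (Icc 0 1) ≤
        ENNReal.ofReal (ε e) := by
    refine (eventually_all_finite hfe).2 fun e _ => ?_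
    have hfin := conical_len_lt_top zero_le_one
      (Croft.conicalOn_onS h'.conical (E.seg_sub_Ω e))
    set ℓ := (len (onS h'.toFun (E.a e) (E.b e)) (Icc 0 1)).toReal with hℓ
    have hℓ0 : 0 ≤ ℓ := ENNReal.toReal_nonneg
    have h2 : ∀ᶠ t in 𝓝[>] (0:ℝ), t < ε e / (ℓ + 1) :=
      mem_nhdsWithin_of_mem_nhds (Iio_mem_nhds (div_pos (hε e) (by linarith)))
    filter_upwards [h2, self_mem_nhdsWithin] with t h3 h4
    have ht0 : 0 < t := h4
    rw [lt_div_iff₀ (by linarith)] at h3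
    rw [← ENNReal.ofReal_toReal hfin.ne, ← hℓ, ← ENNReal.ofReal_mul ht0.le]
    apply ENNReal.ofReal_le_ofReal
    nlinarith
  obtain ⟨t₁, ht₁, h2⟩ := exists_of_ev h1
  exact ⟨t₁, ht₁, fun t h3 h4 e he => h2 t h3 h4 e he⟩

section plv

variable {sl : TBx K → Finset (ℝ × ℝ)} {η : ℝ} {τ : Type*} {A : τ → Set V} {C : Set ℝ}
  {εE : E.ε → ℝ} {μ δ : K.S → ℝ}

/-- **[CNT-P]**: the number of crossings of `h2` on the edges of the peeled faces -/
theorem cnt_h2_le (L : PLv G E h1 Pr sl η A C εE μ δ)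
    (R : RPOut G M E Pr L.lev h1 κ₀ κ₁ h2 GE GF h3) {s : K.S} {r : ℝ} (hr0 : 0 ≤ r) (hr1 : r ≤ 1)
    (hr : μ s ≤ r * wl G s true) {e : E.ε} (he : EAct E (AkP G M h1 univ) s e) :
    ENNReal.ofReal (L.om s true) * (cnt (X2 L.lev E h2 s e true) +
        cnt (X2 L.lev E h2 s e false)) ≤
      ENNReal.ofReal ((1 + r) * (1 - 2 * η)⁻¹) *
        ∑ j ∈ Finset.univ.erase (K.nrm s),
          varIn (onS h1.toFun (E.a e) (E.b e)) j (PK G s) 0 1 +
        ENNReal.ofReal (4 * εE e) := by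
  have h2 : ENNReal.ofReal (L.om s true) ≤ ENNReal.ofReal (1 + r) * ENNReal.ofReal (δ s) := by
    rw [← ENNReal.ofReal_mul (by linarith)]
    exact ENNReal.ofReal_le_ofReal (L.om_le s true hr0 hr1 hr)
  have h4 : ∀ β, ENNReal.ofReal (δ s) * cnt (L.lev.crP E h1 (fun i => PK G i.1) e (s, β)) ≤
      ENNReal.ofReal (1 - 2 * η)⁻¹ *
        varIn (onS h1.toFun (E.a e) (E.b e)) (tg s β) (PK G s) 0 1 + ENNReal.ofReal (εE e) :=
    fun β => (L.crs e).one (s, β)
  rw [sum_tg]
  calc _ ≤ ENNReal.ofReal (1 + r) * ENNReal.ofReal (δ s) *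
        (cnt (L.lev.crP E h1 (fun i => PK G i.1) e (s, true)) +
          cnt (L.lev.crP E h1 (fun i => PK G i.1) e (s, false))) :=
        mul_le_mul' h2 (cnt_X2_le R he)
    _ = ENNReal.ofReal (1 + r) * (ENNReal.ofReal (δ s) *
          cnt (L.lev.crP E h1 (fun i => PK G i.1) e (s, true)) + ENNReal.ofReal (δ s) *
          cnt (L.lev.crP E h1 (fun i => PK G i.1) e (s, false))) := by ring
    _ ≤ ENNReal.ofReal (1 + r) * ((ENNReal.ofReal (1 - 2 * η)⁻¹ *
        varIn (onS h1.toFun (E.a e) (E.b e)) (tg s true) (PK G s) 0 1 + ENNReal.ofReal (εE e)) +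
        (ENNReal.ofReal (1 - 2 * η)⁻¹ *
        varIn (onS h1.toFun (E.a e) (E.b e)) (tg s false) (PK G s) 0 1 +
          ENNReal.ofReal (εE e))) := by
        gcongr
        · exact h4 true
        · exact h4 false
    _ = ENNReal.ofReal (1 + r) * ENNReal.ofReal (1 - 2 * η)⁻¹ *
        (varIn (onS h1.toFun (E.a e) (E.b e)) (tg s true) (PK G s) 0 1 +
        varIn (onS h1.toFun (E.a e) (E.b e)) (tg s false) (PK G s) 0 1) +
        ENNReal.ofReal (1 + r) * (2 * ENNReal.ofReal (εE e)) := by ring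
    _ ≤ _ := by
        rw [← ENNReal.ofReal_mul (by linarith : (0:ℝ) ≤ 1 + r)]
        refine add_le_add le_rfl ?_
        calc ENNReal.ofReal (1 + r) * (2 * ENNReal.ofReal (εE e)) ≤
            ENNReal.ofReal 2 * (2 * ENNReal.ofReal (εE e)) := by gcongr; linarith
          _ = ENNReal.ofReal (4 * εE e) := by
            rw [ENNReal.ofReal_mul (by norm_num : (0:ℝ) ≤ 4), ← mul_assoc]
            congr 1
            rw [ENNReal.ofReal_ofNat, ENNReal.ofReal_ofNat]
            norm_num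

end plv

end Vale.Agent.P073.H581
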