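import Vale.Agent.P073.H581.PTv4
import Vale.Agent.P073.H761.SEnd8
import Vale.Agent.P073.H212.SoftTV

/-!
# P073, ROUND P, **[P-TV]**, part 5: the soft collapse on the edges in the plates
-/

open Set Metric Topology Filter
open scoped ENNReal

namespace Vale.Agent.P073.H581

open _root_.P073 _root_.P073.Net _root_.P073.PA691
open Vale.Agent.P073.St (V)
open Vale.Agent.P073.H471 Vale.Agent.P073.H267
open Vale.Agent.P073.H73 (onSeg)
open Vale.Agent.P073.H212 (tv_of_local tendsto_seg seg_sub)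
open _root_.P073.H761.SE (wlo whi mx sd mx_le soft_loc)

variable {Λ : Set V} {v : V} {K : BoxCx Λ v} {S : Rad K} {W : Wid K S} {B : Boxes W} {μ : ℝ}
  {R : Fac K} {Φ : ConHomeo Λ Λ} {α : Type*} {f : V → V} {A : α → Set V} {N t : α → ℝ} {k : α}

/-- **the soft collapse on an edge in a plate**, with the clamps -/
theorem tv_softPW (G : Geo B) (HS : Small W R f A N t) (H : IsSoft1 B μ R Φ) (hμ : 0 ≤ μ)
    {s : K.S} {c : ℝ} (hc : 0 ≤ c) {e : V × V} (he : segment ℝ e.1 e.2 ⊆ A k)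
    (hf : ContinuousOn f (segment ℝ e.1 e.2))
    (hz : ∀ x ∈ segment ℝ e.1 e.2, f x ∈ G.PB c s)
    (hn : ∀ x ∈ segment ℝ e.1 e.2, |f x (K.nrm s) - K.slo s (K.nrm s)| < B.τ s)
    (ht : 0 ≤ t k) :
    H239.tv (fun x => Φ.toFun (f x)) e Finset.univ ≤
      ENNReal.ofReal (1 + 3 * μ) *
        H239.tv (fun x => clV G s (f x)) e (Finset.univ.erase (K.nrm s)) +
        ENNReal.ofReal (3 * t k) := by
  have hN := HS.pos k
  have hD : 0 ≤ diam (A k) := diam_nonneg
  have hND : 0 < N k * (1 + diam (A k)) := by positivity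
  refine tv_of_local (Finset.univ.erase (K.nrm s)) (by positivity) (by linarith) fun t₀ ht₀ => ?_
  have m1 : e.1 + t₀ • (e.2 - e.1) ∈ segment ℝ e.1 e.2 := Small.onSeg_mem (e := e) ht₀
  set x : V := e.1 + t₀ • (e.2 - e.1) with hx
  have him : ∀ {Z : Set V}, f x ∈ Z → (f '' A k ∩ Z).Nonempty := fun h =>
    ⟨f x, mem_image_of_mem _ (he m1), h⟩
  have key := soft_loc (G := G) H hμ hc (hz x m1) (hn x m1)
    (q := t k / 7 / (N k * (1 + diam (A k))))
    (fun h => by rw [le_div_iff₀ hND]; exact HS.s k s (him h))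
    (fun e h => by rw [le_div_iff₀ hND]; exact HS.e k e (him h))
    (fun i h => by rw [le_div_iff₀ hND]; exact HS.v k i (him h))
  have h1 : ∀ᶠ t' in 𝓝[Icc 0 1] t₀, ∀ j,
      Φ.toFun (f (e.1 + t' • (e.2 - e.1))) j - Φ.toFun (f x) j ≤
        mx G s j (f x) (f (e.1 + t' • (e.2 - e.1))) + μ * sd G s (f x)
          (f (e.1 + t' • (e.2 - e.1))) +
          7 * (t k / 7 / (N k * (1 + diam (A k))) * ‖f (e.1 + t' • (e.2 - e.1)) - f x‖) ∧
      Φ.toFun (f x) j - Φ.toFun (f (e.1 + t' • (e.2 - e.1))) j ≤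
        mx G s j (f (e.1 + t' • (e.2 - e.1))) (f x) + μ * sd G s (f x)
          (f (e.1 + t' • (e.2 - e.1))) +
          7 * (t k / 7 / (N k * (1 + diam (A k))) * ‖f (e.1 + t' • (e.2 - e.1)) - f x‖) := by
    have h2 : Tendsto (fun t' : ℝ => f (e.1 + t' • (e.2 - e.1))) (𝓝[Icc 0 1] t₀) (𝓝 (f x)) :=
      (hf x m1).tendsto.comp (tendsto_seg e)
    exact h2 key
  filter_upwards [h1, self_mem_nhdsWithin] with t' h3 ht'
  have m2 : e.1 + t' • (e.2 - e.1) ∈ segment ℝ e.1 e.2 := Small.onSeg_mem (e := e) ht'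
  set x' : V := e.1 + t' • (e.2 - e.1) with hx'
  have hlen : ‖e.2 - e.1‖ ≤ 1 + diam (A k) := by
    have h4 := dist_le_diam_of_mem (HS.cpt k).isBounded (he (right_mem_segment ℝ e.1 e.2))
      (he (left_mem_segment ℝ e.1 e.2))
    rw [dist_eq_norm] at h4
    linarith
  have hq : 7 * (t k / 7 / (N k * (1 + diam (A k))) * ‖f x' - f x‖) ≤ t k * |t' - t₀| := by
    have h4 := HS.lip k x' (he m2) x (he m1)
    rw [hx, hx', seg_sub] at h4
    rw [← hx, ← hx'] at h4
    have h5 : ‖f x' - f x‖ ≤ N k * (1 + diam (A k)) * |t' - t₀| := by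
      refine h4.trans ?_
      calc N k * (|t' - t₀| * ‖e.2 - e.1‖) ≤ N k * (|t' - t₀| * (1 + diam (A k))) := by gcongr
        _ = _ := by ring
    calc 7 * (t k / 7 / (N k * (1 + diam (A k))) * ‖f x' - f x‖) ≤
        7 * (t k / 7 / (N k * (1 + diam (A k))) * (N k * (1 + diam (A k)) * |t' - t₀|)) := by
          gcongr
      _ = t k * |t' - t₀| := by field_simp
  set τ : ℝ := 7 * (t k / 7 / (N k * (1 + diam (A k))) * ‖f x' - f x‖) with hτ
  have hj : ∀ j, |Φ.toFun (f x') j - Φ.toFun (f x) j| ≤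
      (if j = K.nrm s then 0 else |clV G s (f x') j - clV G s (f x) j|) +
        μ * sd G s (f x) (f x') + τ := by
    intro j
    obtain ⟨h4, h5⟩ := h3 j
    have h6 := mx_le G s j (f x) (f x')
    have h7 := mx_le G s j (f x') (f x)
    have e1 : (if j = K.nrm s then (0:ℝ) else
        |_root_.P073.H761.SE.cw (wlo G s) (whi G s) j (f x) -
          _root_.P073.H761.SE.cw (wlo G s) (whi G s) j (f x')|) =
        if j = K.nrm s then 0 else |clV G s (f x') j - clV G s (f x) j| := by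
      split_ifs
      · rfl
      · exact abs_sub_comm _ _
    rw [e1] at h7
    change mx G s j (f x) (f x') ≤ if j = K.nrm s then 0 else
      |clV G s (f x') j - clV G s (f x) j| at h6
    rw [abs_le]
    constructor <;> linarith
  have hsd : sd G s (f x) (f x') =
      ∑ j ∈ Finset.univ.erase (K.nrm s), |clV G s (f x') j - clV G s (f x) j| := rfl
  have hsum : ∑ j, (if j = K.nrm s then 0 else |clV G s (f x') j - clV G s (f x) j|) =
      sd G s (f x) (f x') := by
    rw [← Finset.add_sum_erase _ _ (Finset.mem_univ (K.nrm s)), if_pos rfl, zero_add, hsd]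
    exact Finset.sum_congr rfl fun j hj => if_neg (Finset.ne_of_mem_erase hj)
  have h8 : ∑ j, |Φ.toFun (f x') j - Φ.toFun (f x) j| ≤
      (1 + 3 * μ) * sd G s (f x) (f x') + 3 * τ := by
    refine (Finset.sum_le_sum fun j _ => hj j).trans (le_of_eq ?_)
    simp only [Finset.sum_add_distrib, hsum, Finset.sum_const, Finset.card_univ,
      Fintype.card_fin, nsmul_eq_mul, Nat.cast_ofNat]
    ring
  refine le_trans h8 ?_
  rw [hsd]
  have h9 : 3 * τ ≤ 3 * t k * |t' - t₀| := by linarith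
  exact add_le_add le_rfl h9

end Vale.Agent.P073.H581
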