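import Vale.Agent.P073.H581.TileBX
import Vale.Agent.P073.H581.OutCl2
import Vale.Agent.P073.H669.TLevB

/-!
# P073, ROUND T, (T1): tiles and images of the protected cells
-/

open Set Metric Topology Filter
open scoped ENNReal

namespace Vale.Agent.P073.H581

open _root_.P073 (ConHomeo)
open _root_.P073.Net (dyc dyo IsTile SizeFn)
open _root_.P073.PA691 (BoxCx)
open Vale.Agent.P073.St (V)
open Vale.Agent.P073.H471 Vale.Agent.P073.H267 Vale.Agent.P073.H267.Geo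
open Vale.Agent.P073.H73 (Mesh Aligned)
open Vale.Agent.P073.H193 (Edges)
open Vale.Agent.P073.H238 (TStage1)
open _root_.P073.H236 (BFam dsp)
open Vale.Agent.P073.H669 (TLv)

theorem oneGen_of_aligned {Ω : Set V} {ρ : V → ℝ} {w : V} {M : Mesh Ω} {h : V → V} {P : Set M.ι}
    (hA : Aligned w ρ M h P) {i : M.ι} (hi : i ∈ P) : OneGen ρ w (h '' M.Q i) := by
  obtain ⟨m₀, h0⟩ := hA.gen i hi
  intro m z m' z' ht ht' h1 h2
  rw [h0 m z ht h1, h0 m' z' ht' h2]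

/-- **(T1), one round**: `h₀` before the insertion, equal to the reference map `h` at the protected
cells -/
theorem round_T1 {Ω Λ : Set V} {ρ : V → ℝ} {w : V} {M : Mesh Ω} {h h₀ g₀ : ConHomeo Ω Λ}
    {P : Set M.ι} (hΩ : IsOpen Ω) (hρ : SizeFn Λ ρ) (hA : Aligned w ρ M h.toFun P)
    (E : Edges M) (h0 : ∀ i ∈ P, ∀ x ∈ frontier (M.Q i), h₀.toFun x = h.toFun x)
    (h0i : ImgAt M P h.toFun h₀.toFun)
    {κ : V → V} (hκ : TileIff Λ ρ w κ)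
    (hF : ∀ k, g₀.toFun '' M.F k = _root_.P073.H579.Pre κ Λ h₀ (M.F k))
    (hE : ∀ e, g₀.toFun '' E.seg e = _root_.P073.H579.Pre κ Λ h₀ (E.seg e))
    (hN : ∀ x ∈ E.verts, κ (g₀.toFun x) = h₀.toFun x)
    (hQ : ∀ i, g₀.toFun '' M.Q i = _root_.P073.H579.Pre κ Λ h₀ (M.Q i))
    (Φ : ConHomeo Λ Λ) (hΦ : TileIff Λ ρ w Φ.toFun) :
    TileAt ρ w M P h.toFun (fun x => Φ.toFun (g₀.toFun x)) ∧
      ImgAt M P h.toFun (fun x => Φ.toFun (g₀.toFun x)) := by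
  constructor
  · exact round_tile hΩ hρ hA E (fun i hi => oneGen_of_aligned hA hi) TileAt.refl
      (h₂ := h₀) (fun i hi x hx => h0 i hi x hx) hκ hF (fun e k _ => hE e)
      (fun x hx _ _ => hN x hx) hΦ (fun x _ => rfl)
  · exact round_image hρ hA h0i hκ hQ Φ hΦ (fun x _ => rfl)

variable {Ω Λ : Set V} {w : V} {ρ : V → ℝ} {K : BoxCx Λ w} {S : Rad K} {W : Wid K S} {B : Boxes W}
  {G : Geo B} {M : Mesh Ω} {E : Edges M} {h h' g : ConHomeo Ω Λ} {ω : TBx K → ℝ}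
  {T : TBx K → Finset (ℝ × ℝ)} {η : ℝ} {τ : Type*} {A : τ → Set V} {C : Set ℝ} {εE : E.ε → ℝ}
  {δ : TBx K → ℝ} {Pr : Set M.ι}

/-- the insertion map of round T preserves the tiles -/
theorem tileIff_κT (CK : Cells ρ w K) (L : TLv G E h ω T η A C εE δ) {c : TBx K → ℝ}
    (hc0 : ∀ b, 0 < c b) (hc : ∀ b, c b ≤ δ b / 8) {κ : V → V}
    (hκ : _root_.P073.H345.IsQ (L.bxQ c hc0 hc) κ) : TileIff Λ ρ w κ :=
  tileIff_Q (L.bxQ c hc0 hc) (fun b => (L.K_sub hc0 hc b).trans (G.TB_sub b))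
    (fun b => (sat_TB CK G b).mono (L.K_sub hc0 hc b) Subset.rfl) hκ.on hκ.off

/-- the staircases of round T preserve the tiles -/
theorem tileIff_ST' (CK : Cells ρ w K) (L : TLv G E h ω T η A C εE δ) {c : TBx K → ℝ}
    (hc0 : ∀ b, 0 < c b) (hc : ∀ b, c b ≤ δ b / 8) {e D : TBx K → ℝ} (he : ∀ b, 0 < e b)
    (he8 : ∀ b, e b ≤ δ b / 8) (hD : ∀ b, dsp (T b) (δ b) + δ b + 60 * ω b ≤ D b)
    {S' : ConHomeo Λ Λ} (hS : (L.bfam hc0 hc e D he he8 hD).IsS S') :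
    TileIff Λ ρ w S'.toFun :=
  tileIff_isS hS fun b => (sat_TB CK G b).mono (L.K_sub hc0 hc b) Subset.rfl

/-- **(T1)**: the fields `tile`, `img` of `TOut` -/
theorem T1 (hΩ : IsOpen Ω) (hρ : SizeFn Λ ρ) (hA : Aligned w ρ M h.toFun Pr)
    (CK : Cells ρ w K) (L : TLv G E h ω T η A C εE δ) (O : TStage1 G M h h' Pr L.lev ω)
    {c : TBx K → ℝ} (hc0 : ∀ b, 0 < c b) (hc : ∀ b, c b ≤ δ b / 8) {κ : V → V}
    (hκ : _root_.P073.H345.IsQ (L.bxQ c hc0 hc) κ)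
    (hF : ∀ k, g.toFun '' M.F k = _root_.P073.H579.Pre κ Λ h' (M.F k))
    (hE : ∀ e, g.toFun '' E.seg e = _root_.P073.H579.Pre κ Λ h' (E.seg e))
    (hN : ∀ x ∈ E.verts, κ (g.toFun x) = h'.toFun x)
    (hQ : ∀ i, g.toFun '' M.Q i = _root_.P073.H579.Pre κ Λ h' (M.Q i))
    {e D : TBx K → ℝ} (he : ∀ b, 0 < e b) (he8 : ∀ b, e b ≤ δ b / 8)
    (hD : ∀ b, dsp (T b) (δ b) + δ b + 60 * ω b ≤ D b) {S' : ConHomeo Λ Λ}
    (hS : (L.bfam hc0 hc e D he he8 hD).IsS S') :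
    TileAt ρ w M Pr h.toFun (fun x => S'.toFun (g.toFun x)) ∧
      ImgAt M Pr h.toFun (fun x => S'.toFun (g.toFun x)) := by
  have hw : ∀ i ∈ Pr, ∀ x ∈ M.Q i, h'.toFun x = h.toFun x := fun i hi x hx =>
    (O.wall i hi x hx).self_of_nhds
  exact round_T1 hΩ hρ hA E
    (fun i hi x hx => hw i hi x ((M.poly i).cpt.isClosed.frontier_subset hx))
    (fun i hi => image_congr fun x hx => hw i hi x hx)
    (tileIff_κT CK L hc0 hc hκ) hF hE hN hQ S' (tileIff_ST' CK L hc0 hc he he8 hD hS)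

end Vale.Agent.P073.H581
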