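import Vale.Agent.P073.H581.T5Sg
import Vale.Agent.P073.H238.RT1Defs

/-!
# P073, ROUND T for `K3C`, **[RT-TV]** for all boxes, also the boxes at the hanging vertices

`t5GH`: as `t5G`, the first clause for all `b ∈ G₀`.
-/

open Set Metric Topology Filter
open scoped ENNReal

namespace Vale.Agent.P073.H581

open _root_.P073 _root_.P073.Net _root_.P073.PA691 _root_.P073.H236 _root_.P073.H196
open Vale.Agent.P073.St (V)
open Vale.Agent.P073.H471 Vale.Agent.P073.H267 Vale.Agent.P073.H267.Geo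
open Vale.Agent.P073.H73 (Mesh)
open Vale.Agent.P073.H193 (Edges)
open Vale.Agent.P073.H238 (oT TMid)
open _root_.P073.Croft (onS)
open Vale.Agent.P073.H579 (TStageW)
open Vale.Agent.P073.H669 (TLv)
open _root_.P073.H267 (tvE lenE)

variable {Ω Λ : Set V} {v : V} {K : BoxCx Λ v} {S₀ : Rad K} {Wd : Wid K S₀} {B : Boxes Wd}
  {G : Geo B} {M : Mesh Ω} {E : Edges M} {h h' : ConHomeo Ω Λ} {ω : TBx K → ℝ}
  {T : TBx K → Finset (ℝ × ℝ)} {η : ℝ} {τ₀ : Type*} {A₀ : τ₀ → Set V} {C : Set ℝ} {εE : E.ε → ℝ}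
  {δ : TBx K → ℝ} {Pr W : Set M.ι} {Act₀ : Set M.κ} {G₀ : Set (TBx K)}

/-- a box near the box of a hanging vertex is a tube of the same direction, which ends there -/
theorem hang_near (G : Geo B) {p : Hang K} {b' : TBx K} (hne : (.inr p : TBx K) ≠ b')
    {y y' : V} (hy : y ∈ G.TB false (.inr p)) (hy' : y' ∈ G.TB false b') {δ δ' : ℝ} (hδ : 0 < δ)
    (h1 : δ ≤ oT G (.inr p)) (hδ' : 0 < δ') (h2 : δ' ≤ oT G b')
    (hd : dist y y' ≤ 15 * (δ + δ')) :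
    ∃ e', b' = .inl e' ∧ K.dir e' = p.l ∧ (p.i = K.a e' ∨ p.i = K.b e') := by
  have h1' : δ ≤ G.oW p.i := h1
  rcases b' with e' | p'
  · have h2' : δ' ≤ G.oG e' := h2
    have hi := H238.end_of_near G hy' hy hδ'.le h2' hδ.le h1' (by rw [dist_comm]; linarith)
    refine ⟨e', rfl, ?_, hi⟩
    by_contra hdl
    rw [mem_inl] at hy'
    obtain ⟨⟨h3, h4⟩, -⟩ := hy'
    rw [mem_inr] at hy
    simp only [Bool.false_eq_true, if_false] at hy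
    obtain ⟨-, ⟨hu1, hu2⟩, hn⟩ := hy
    have hp := G.p_pos p.s
    have hpb := G.p_be p.s p.i (hang_mem p)
    have hτ := G.τ_p p.s
    have hτ0 := B.τ_pos p.s
    have ho := G.oW_be p.i
    have hog := G.oG_uT e'
    have hul := G.uT_lam e'
    have h5 : |y (K.dir e') - K.w p.i (K.dir e')| ≤ G.be p.i / 4 := by
      rcases fin3_cases p.k_n p.k_l p.l_n.symm (K.dir e') with hk | hk | hk
      · rw [hk, abs_u p (by linarith)]; linarith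
      · rw [hk, p.nrm]; linarith
      · exact absurd hk hdl
    rw [abs_le] at h5
    have h6 := abs_le.1 (H238.abs_sub_le_dist y y' (K.dir e'))
    rcases hi with hi | hi
    · have hla := G.lam_a e'
      rw [← hi] at h3 hla
      linarith [h6.1, h6.2, h5.1, h5.2]
    · have hlb := G.lam_b e'
      rw [← hi] at h4 hlb
      linarith [h6.1, h6.2, h5.1, h5.2]
  · exfalso
    have h2' : δ' ≤ G.oW p'.i := h2
    by_cases hi : p.i = p'.i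
    · have hs : p.s ≠ p'.s := fun hs => hne (by rw [hang_eq hi hs])
      rw [← hi] at h2'
      exact (disjoint_ss (W := Wd) hs).notMem_of_mem_left
        (H238.near_inr G hy (z := y') (by linarith) (by linarith))
        (Zs_subset (TB_subset_Zs p' hy'))
    · rcases le_total (G.oW p'.i) (G.oW p.i) with hle | hle
      · refine (S₀.U_disj _ _ hi).notMem_of_mem_left
          (H238.near_ball G hy (z := y') (by linarith))
          (H238.near_ball G hy' (z := y') (by rw [dist_self]; linarith))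
      · refine (S₀.U_disj _ _ hi).notMem_of_mem_left
          (H238.near_ball G hy (z := y) (by rw [dist_self]; linarith))
          (H238.near_ball G hy' (z := y) (by rw [dist_comm]; linarith))

section

variable {L : TLv G E h ω T η A₀ C εE δ} {c : TBx K → ℝ} {hc0 : ∀ b, 0 < c b}
  {hc : ∀ b, c b ≤ δ b / 8}

/-- in the box of a tube which ends at the hanging vertex the clamped coordinate is constant -/
theorem StF.const_inr {e : TBx K → ℝ} {S : ConHomeo Λ Λ} {φ : G₀ → V → ℝ → ℝ} {A : ℝ}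
    {τ : G₀ → ℝ → ℝ} {q d : G₀ → ℝ} (X : StF L hc0 hc G₀ e S φ A τ q d) {e' : K.G} {p : Hang K}
    (he' : (.inl e' : TBx K) ∈ G₀) (hdir : K.dir e' = p.l) (hi' : p.i = K.a e' ∨ p.i = K.b e')
    {lo hi : ℝ} (hlo : G.tlo true (.inr p) p.l ≤ lo) (hhi : hi ≤ G.thi true (.inr p) p.l) :
    ∀ y ∈ (L.bxQ c hc0 hc (.inl e')).K, ∀ y' ∈ (L.bxQ c hc0 hc (.inl e')).K,
      clamp lo hi (S.toFun y p.l) = clamp lo hi (S.toFun y' p.l) := by
  have key : ∀ y ∈ (L.bxQ c hc0 hc (.inl e')).K,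
      K.w (K.a e') p.l + G.be (K.a e') ≤ S.toFun y p.l ∧
        S.toFun y p.l ≤ K.w (K.b e') p.l - G.be (K.b e') := by
    intro y hy
    rw [bxQ_K L hc0 hc] at hy
    have h1 : y ∈ rtK G ω (.inl e') 60 := rtK_mono L (by norm_num) hy
    have h2 : S.toFun y ∈ rtK G ω (.inl e') 60 := X.vrt.mem (b := ⟨_, he'⟩) h1
    have h3 := (mem_inl.1 (rtK_sub L (by norm_num) h2)).1
    rwa [hdir] at h3
  have e1 : G.tlo true (.inr p) p.l = K.w p.i p.l - G.be p.i := by simp [Geo.tlo]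
  have e2 : G.thi true (.inr p) p.l = K.w p.i p.l + G.be p.i := by simp [Geo.thi]
  intro y hy y' hy'
  have h1 := key y hy
  have h2 := key y' hy'
  unfold clamp
  rcases hi' with hi' | hi'
  · rw [← hi'] at h1 h2
    rw [min_eq_left (by linarith [h1.1] : hi ≤ S.toFun y p.l),
      min_eq_left (by linarith [h2.1] : hi ≤ S.toFun y' p.l)]
  · rw [← hi'] at h1 h2
    rw [max_eq_left ((min_le_right _ _).trans (by linarith [h1.2])),
      max_eq_left ((min_le_right _ _).trans (by linarith [h2.2]))]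

end

/-- the estimates in all boxes which meet an edge, any box -/
theorem StF.fest_any {L : TLv G E h ω T η A₀ C εE δ} {c : TBx K → ℝ} {hc0 : ∀ b, 0 < c b}
    {hc : ∀ b, c b ≤ δ b / 8}
    (hosc : ∀ b ∈ G₀, ∀ k, ∀ x ∈ M.F k, ∀ y ∈ M.F k, h.toFun x ∈ G.TB false b →
      dist (h.toFun x) (h.toFun y) ≤ ω b)
    {e : TBx K → ℝ} {S : ConHomeo Λ Λ} {φ : G₀ → V → ℝ → ℝ} {A : ℝ}
    {τ : G₀ → ℝ → ℝ} {q d : G₀ → ℝ} (X : StF L hc0 hc G₀ e S φ A τ q d) (hA : 0 ≤ A)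
    (hq : ∀ b, q b ≤ A) (he : ∀ b, 0 < e b) (he2 : ∀ b, 2 * e b < δ b) {ed : E.ε} {b₀ : TBx K}
    (hbG : b₀ ∈ G₀) (hmeet : (h.toFun '' E.seg ed ∩ G.TB false b₀).Nonempty) {lo hi : ℝ}
    (hlo : G.tlo true b₀ b₀.ax + 50 * ω b₀ ≤ lo) (hhi : hi ≤ G.thi true b₀ b₀.ax - 50 * ω b₀)
    {b : TBx K} (hb : b ∈ G₀) (hne : (h.toFun '' E.seg ed ∩ G.TB false b).Nonempty) :
    FEst (L.bxQ c hc0 hc b) (TMid G b (ω b)) (fun y => clamp lo hi (S.toFun y b₀.ax)) A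
        (δ b) (A * (e b / c b)) := by
  have hω := L.ω0
  rcases b₀ with e' | p
  · exact X.fest_all hosc hA hq he he2 hbG hmeet hlo hhi hb hne
  · by_cases hbb : b = .inr p
    · subst hbb
      exact X.fest hA hq he he2 ⟨.inr p, hbG⟩ hlo hhi
    · obtain ⟨_, ⟨x, hx, rfl⟩, hxb⟩ := hmeet
      obtain ⟨_, ⟨x', hx', rfl⟩, hxb'⟩ := hne
      have h1 := osc_edge hosc ed hbG x hx x' hx' hxb
      have hωp := hω (.inr p)
      have hωb := hω b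
      obtain ⟨e', rfl, hdir, hi'⟩ := hang_near G (Ne.symm hbb) hxb hxb' hωp (L.ωo _) hωb
        (L.ωo _) (by linarith)
      have h3 : TMid G (.inl e') (ω (.inl e')) ⊆ (L.bxQ c hc0 hc (.inl e')).K := by
        intro y hy
        rw [bxQ_K L hc0 hc]
        rw [tmid_rtK] at hy
        exact rtK_mono L (by norm_num) hy
      have hlo' : G.tlo true (.inr p) p.l ≤ lo := by
        have : G.tlo true (.inr p) p.l + 50 * ω (.inr p) ≤ lo := hlo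
        linarith
      have hhi' : hi ≤ G.thi true (.inr p) p.l := by
        have : hi ≤ G.thi true (.inr p) p.l - 50 * ω (.inr p) := hhi
        linarith
      exact FEst.const hA (L.δ0 _).le (mul_nonneg hA (div_nonneg (he _).le (hc0 _).le)) h3
        (X.const_inr hb hdir hi' hlo' hhi')

/-- **all edges**, one edge, any box -/
theorem t5F_any (L : TLv G E h ω T η A₀ C εE δ) (O : TStageW G M h h' Pr W Act₀ G₀ L.lev ω)
    (hosc : ∀ b ∈ G₀, ∀ k, ∀ x ∈ M.F k, ∀ y ∈ M.F k, h.toFun x ∈ G.TB false b →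
      dist (h.toFun x) (h.toFun y) ≤ ω b) (hΛ : IsOpen Λ) {A : ℝ} (hA : 1 ≤ A)
    {c : TBx K → ℝ} (hc0 : ∀ b, 0 < c b) (hc : ∀ b, c b ≤ δ b / 8) {ed : E.ε}
    (hbands : ∀ b ∈ G₀, ∃ l r, Bands L h' ed b (c b) l r) {κ : V → V}
    (hκ : H345.IsQ (fun b : G₀ => L.bxQ c hc0 hc b.1) κ) {g : ConHomeo Ω Λ}
    (himg : ∀ e, g.toFun '' E.seg e = H579.Pre κ Λ h' (E.seg e))
    (hvert : ∀ x ∈ E.verts, κ (g.toFun x) = h'.toFun x) {e : TBx K → ℝ} (he : ∀ b, 0 < e b)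
    (he2 : ∀ b, 2 * e b < δ b) {ε : ℝ}
    (hsl : ∀ b ∈ G₀, (h'.toFun '' E.seg ed ∩ G.TB false b).Nonempty →
      ENNReal.ofReal (A * (e b / c b)) * len (onS h'.toFun (E.a ed) (E.b ed)) (Icc 0 1) ≤
        ENNReal.ofReal (ε / 2))
    {S : ConHomeo Λ Λ} {φ : G₀ → V → ℝ → ℝ} {τ : G₀ → ℝ → ℝ} {q d : G₀ → ℝ}
    (X : StF L hc0 hc G₀ e S φ A τ q d) (hq : ∀ b, q b ≤ A) {b₀ : TBx K} (hbG : b₀ ∈ G₀)
    (hmeet : (h.toFun '' E.seg ed ∩ G.TB false b₀).Nonempty) {lo hi : ℝ}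
    (hlo : G.tlo true b₀ b₀.ax + 50 * ω b₀ ≤ lo) (hhi : hi ≤ G.thi true b₀ b₀.ax - 50 * ω b₀) :
    eVariationOn (fun t : ℝ => clamp lo hi (S.toFun (onS g.toFun (E.a ed) (E.b ed) t)
      b₀.ax)) (Icc 0 1) ≤
        ENNReal.ofReal (8 * A) * (∑' b : G₀, L.wt h' false ed b.1) +
          ENNReal.ofReal (3 * A) * lenE E h.toFun ed + ENNReal.ofReal ε := by
  have hA0 : 0 ≤ A := by linarith
  have H : H345.Fam Λ (fun b : G₀ => L.bxQ c hc0 hc b.1) :=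
    H579.fam_comp (L.fam345 hc0 hc hΛ) Subtype.val_injective
  have hfc : ContinuousOn (fun y => clamp lo hi (S.toFun y b₀.ax)) Λ := by
    have h1 : Continuous (clamp lo hi) := by unfold clamp; fun_prop
    exact h1.comp_continuousOn ((continuous_apply _).comp_continuousOn S.cont)
  have hf : ∀ b ∈ G₀, (h.toFun '' E.seg ed ∩ G.TB false b).Nonempty →
      FEst (L.bxQ c hc0 hc b) (TMid G b (ω b)) (fun y => clamp lo hi (S.toFun y b₀.ax)) A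
        (δ b) (A * (e b / c b)) :=
    fun b hb hne => X.fest_any hosc hA0 hq he he2 hbG hmeet hlo hhi hb hne
  have hfo : FOff (fun b : G₀ => L.bxQ c hc0 hc b.1) Λ
      (fun y => clamp lo hi (S.toFun y b₀.ax)) A := X.foff hA hΛ b₀.ax lo hi
  have hio : ∀ b ∈ G₀, 0 ≤ A * (e b / c b) := fun b _ =>
    mul_nonneg hA0 (div_nonneg (he b).le (hc0 b).le)
  generalize hF : (fun y : V => clamp lo hi (S.toFun y b₀.ax)) = F at hfc hf hfo
  have key := t5S_len L O hosc hΛ hA0 hc0 hc hbands hκ (isQ_cont H hκ) himg hvert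
    (io := fun b => A * (e b / c b)) hio hsl hfc hf hfo
  rw [← hF] at key
  exact key

/-- **(T5) for the clamped level coordinates**, all boxes -/
theorem exists_t5H (L : TLv G E h ω T η A₀ C εE δ) (O : TStageW G M h h' Pr W Act₀ G₀ L.lev ω)
    (hosc : ∀ b ∈ G₀, ∀ k, ∀ x ∈ M.F k, ∀ y ∈ M.F k, h.toFun x ∈ G.TB false b →
      dist (h.toFun x) (h.toFun y) ≤ ω b) (hΛ : IsOpen Λ) {A : ℝ} (hA : 1 ≤ A) :
    ∃ c₁ : TBx K → ℝ, (∀ b, 0 < c₁ b) ∧ ∀ (c : TBx K → ℝ) (hc0 : ∀ b, 0 < c b)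
      (hc : ∀ b, c b ≤ δ b / 8), (∀ b ∈ G₀, c b ≤ c₁ b) →
    ∀ ε : E.ε → ℝ, (∀ e, 0 < ε e) →
    ∃ e₁ : TBx K → ℝ, (∀ b, 0 < e₁ b) ∧
    ∀ κ, H345.IsQ (fun b : G₀ => L.bxQ c hc0 hc b.1) κ → ∀ g : ConHomeo Ω Λ,
      (∀ e, g.toFun '' E.seg e = H579.Pre κ Λ h' (E.seg e)) →
      (∀ x ∈ E.verts, κ (g.toFun x) = h'.toFun x) →
    ∀ e : TBx K → ℝ, (∀ b, 0 < e b) → (∀ b, 2 * e b < δ b) → (∀ b ∈ G₀, e b ≤ e₁ b) →
    ∀ (S : ConHomeo Λ Λ) (φ : G₀ → V → ℝ → ℝ) (τ : G₀ → ℝ → ℝ) (q d : G₀ → ℝ),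
      StF L hc0 hc G₀ e S φ A τ q d → (∀ b, q b ≤ A) →
    (∀ (ed : E.ε) (b₀ : TBx K), b₀ ∈ G₀ →
      (h.toFun '' E.seg ed ∩ G.TB false b₀).Nonempty → ∀ lo hi : ℝ,
      G.tlo true b₀ b₀.ax + 50 * ω b₀ ≤ lo → hi ≤ G.thi true b₀ b₀.ax - 50 * ω b₀ →
      eVariationOn (fun t : ℝ => clamp lo hi ((g.trans S).toFun
        (E.a ed + t • (E.b ed - E.a ed)) b₀.ax)) (Icc 0 1) ≤
        ENNReal.ofReal (8 * A) * (∑' b : G₀, L.wt h' false ed b.1) +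
          ENNReal.ofReal (3 * A) * lenE E h.toFun ed + ENNReal.ofReal (ε ed)) ∧
    ∀ (ed : E.ε) (b : G₀),
      (∀ x ∈ E.seg ed, closedBall (h.toFun x) (30 * ω b.1) ⊆ G.TB true b.1) → ∀ lo hi : ℝ,
      G.tlo true b.1 b.1.ax + 50 * ω b.1 ≤ lo → hi ≤ G.thi true b.1 b.1.ax - 50 * ω b.1 →
      eVariationOn (fun t : ℝ => clamp lo hi ((g.trans S).toFun
        (E.a ed + t • (E.b ed - E.a ed)) b.1.ax)) (Icc 0 1) ≤
        ENNReal.ofReal (q b) * L.wt h' true ed b.1 + ENNReal.ofReal (ε ed) := by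
  choose c₁ hc₁ hbands using fun b => exists_c1W L O b
  refine ⟨c₁, hc₁, fun c hc0 hc hcc ε hε => ?_⟩
  choose t₁ ht₁ hsliv using fun b => exists_t1 h' (ε := fun e => ε e / 2)
    (fun e => half_pos (hε e)) b
  have hA0 : 0 < A := by linarith
  refine ⟨fun b => c b * t₁ b / A, fun b => div_pos (mul_pos (hc0 b) (ht₁ b)) hA0, ?_⟩
  intro κ hκ g himg hvert e he he2 hee S φ τ q d X hq
  have hio : ∀ b ∈ G₀, A * (e b / c b) ≤ t₁ b := by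
    intro b hb
    have h1 := hee b hb
    have hcb := hc0 b
    rw [← mul_div_assoc, div_le_iff₀ hcb]
    rw [le_div_iff₀ hA0] at h1
    linarith
  have hsl : ∀ b ∈ G₀, ∀ e₀ : E.ε, (h'.toFun '' E.seg e₀ ∩ G.TB false b).Nonempty →
      ENNReal.ofReal (A * (e b / c b)) * len (onS h'.toFun (E.a e₀) (E.b e₀)) (Icc 0 1) ≤
        ENNReal.ofReal (ε e₀ / 2) := by
    intro b hb e₀ hne
    refine le_trans ?_ (hsliv b (t₁ b) (ht₁ b) le_rfl e₀ hne)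
    gcongr
    exact hio b hb
  refine ⟨fun ed b₀ hbG hmeet lo hi hlo hhi => ?_, fun ed b hdeep lo hi hlo hhi => ?_⟩
  · exact t5F_any L O hosc hΛ hA hc0 hc (fun b hb => hbands b (c b) (hc0 b) (hcc b hb) ed)
      hκ himg hvert he he2 (fun b hb hne => hsl b hb ed hne) X hq hbG hmeet hlo hhi
  · refine t5F_sharp L O hΛ hc0 hc hκ himg hvert he he2 X b (fun hne => ?_) hdeep hlo hhi
    refine le_trans (mul_le_mul' (ENNReal.ofReal_le_ofReal ?_) le_rfl)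
      ((hsl b.1 b.2 ed hne).trans (ENNReal.ofReal_le_ofReal (by linarith [hε ed])))
    exact mul_le_mul_of_nonneg_right (hq b) (div_nonneg (he _).le (hc0 _).le)

section

variable {Cs : Set ℝ} {A : Empty → Set V}

/-- **(T5)** for the lift `g` of `h'`, all boxes -/
def T5AtH (C₅ : ℝ) (L : TLv G E h ω T η A Cs εE δ) (G₀ : Set (TBx K)) {c : TBx K → ℝ}
    (hc0 : ∀ b, 0 < c b) (hc : ∀ b, c b ≤ δ b / 8) (h' g : ConHomeo Ω Λ) : Prop :=
  ∀ ε : E.ε → ℝ, (∀ e, 0 < ε e) →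
    ∃ e₁ : TBx K → ℝ, (∀ b, 0 < e₁ b) ∧ ∀ (e : TBx K → ℝ) (he : ∀ b, 0 < e b)
      (he2 : ∀ b, 2 * e b < δ b)
      (V₀ : G₀ → Finset ℝ) (X : FixD (F1 L hc0 hc he he2 G₀) V₀)
      (Hα H₁ Tf : ConHomeo Λ Λ), (∀ b, e b ≤ e₁ b) → RTS L hc0 hc he he2 X Hα H₁ Tf →
      SNum X →
      (∀ e₀, ∀ b : G₀, (h.toFun '' E.seg e₀ ∩ G.TB false b.1).Nonempty → ∀ lo hi : ℝ,
        G.tlo true b.1 b.1.ax + 50 * ω b.1 ≤ lo → lo ≤ hi →
        hi ≤ G.thi true b.1 b.1.ax - 50 * ω b.1 →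
        eVariationOn (fun t : ℝ => H238.K3.clm lo hi (((Hα.trans H₁).trans Tf).toFun
          (g.toFun (E.a e₀ + t • (E.b e₀ - E.a e₀))) b.1.ax)) (Icc 0 1) ≤
          ENNReal.ofReal C₅ * (∑' b' : G₀, L.wt h' false e₀ b'.1 + lenE E h.toFun e₀) +
            ENNReal.ofReal (ε e₀)) ∧
      ∀ e₀, ∀ b : G₀, (∀ x ∈ E.seg e₀, closedBall (h.toFun x) (30 * ω b.1) ⊆ G.TB true b.1) →
        ∀ lo hi : ℝ, G.tlo true b.1 b.1.ax + 50 * ω b.1 ≤ lo → lo ≤ hi →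
        hi ≤ G.thi true b.1 b.1.ax - 50 * ω b.1 →
        eVariationOn (fun t : ℝ => H238.K3.clm lo hi (((Hα.trans H₁).trans Tf).toFun
          (g.toFun (E.a e₀ + t • (E.b e₀ - E.a e₀))) b.1.ax)) (Icc 0 1) ≤
          ENNReal.ofReal (1 + 4 * X.d b / X.g b) * L.wt h' true e₀ b.1 + ENNReal.ofReal (ε e₀)

/-- **(T5), all boxes**, `C₅ = 280` -/
theorem t5AtH (hΛ : IsOpen Λ) (L : TLv G E h ω T η A Cs εE δ)
    (hosc : ∀ b ∈ G₀, ∀ k, ∀ x ∈ M.F k, ∀ y ∈ M.F k, h.toFun x ∈ G.TB false b →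
      dist (h.toFun x) (h.toFun y) ≤ ω b) (O : TStageW G M h h' Pr W Act₀ G₀ L.lev ω) :
    ∃ c₁ : TBx K → ℝ, (∀ b, 0 < c₁ b) ∧ ∀ (c : TBx K → ℝ) (hc0 : ∀ b, 0 < c b)
      (hc : ∀ b, c b ≤ δ b / 8), (∀ b ∈ G₀, c b ≤ c₁ b) → ∀ (κ : V → V) (g : ConHomeo Ω Λ),
      St2W L hc0 hc Pr W Act₀ G₀ h' κ g → T5AtH 280 L G₀ hc0 hc h' g := by
  obtain ⟨c₁, hc₁, H⟩ := exists_t5H L O hosc hΛ (A := 35) (by norm_num)
  refine ⟨c₁, hc₁, fun c hc0 hc hcc κ g D ε hε => ?_⟩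
  obtain ⟨e₁, he₁, H2⟩ := H c hc0 hc hcc ε hε
  refine ⟨e₁, he₁, fun e he he2 V₀ X Hα H₁ Tf hee HS N => ?_⟩
  have h1 := H2 κ D.isQ g D.edge D.vert e he he2 (fun b _ => hee b) _ _ _ _ _
    (stF_of_rts HS N) (fun b => by have := N.eps b; linarith)
  refine ⟨fun e₀ b hmeet lo hi hlo _ hhi => ?_, fun e₀ b hdeep lo hi hlo _ hhi => ?_⟩
  · refine (h1.1 e₀ b.1 b.2 hmeet lo hi hlo hhi).trans ?_
    rw [mul_add]
    gcongr <;> norm_num
  · exact h1.2 e₀ b hdeep lo hi hlo hhi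

end

/-- **[RT-TV]**, all boxes -/
def T5GH (C₅ : ℝ) : Prop :=
  ∀ (Ω Λ : Set V) (v : V) (K : BoxCx Λ v) (S₀ : Rad K) (Wd : Wid K S₀) (B : Boxes Wd) (G : Geo B)
    (M : Mesh Ω) (E : Edges M) (h h' : ConHomeo Ω Λ) (ω : TBx K → ℝ)
    (T : TBx K → Finset (ℝ × ℝ)) (η : ℝ) (A : Empty → Set V) (C : Set ℝ) (εE : E.ε → ℝ)
    (δ : TBx K → ℝ) (L : TLv G E h ω T η A C εE δ) (Pr W : Set M.ι) (Act₀ : Set M.κ)
    (G₀ : Set (TBx K)), IsOpen Ω → IsOpen Λ →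
    (∀ b ∈ G₀, ∀ k, ∀ x ∈ M.F k, ∀ y ∈ M.F k, h.toFun x ∈ G.TB false b →
      dist (h.toFun x) (h.toFun y) ≤ ω b) →
    TStageW G M h h' Pr W Act₀ G₀ L.lev ω →
    ∃ c₁ : TBx K → ℝ, (∀ b, 0 < c₁ b) ∧ ∀ (c : TBx K → ℝ) (hc0 : ∀ b, 0 < c b)
      (hc : ∀ b, c b ≤ δ b / 8), (∀ b ∈ G₀, c b ≤ c₁ b) → ∀ (κ : V → V) (g : ConHomeo Ω Λ),
      St2W L hc0 hc Pr W Act₀ G₀ h' κ g → T5AtH C₅ L G₀ hc0 hc h' g

theorem t5GH : T5GH 280 := by
  intro Ω Λ v K S₀ Wd B G M E h h' ω T η A C εE δ L Pr W Act₀ G₀ _ hΛ hosc O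
  exact t5AtH hΛ L hosc O

end Vale.Agent.P073.H581
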