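import Vale.Agent.P073.H581.T5e
import Vale.Agent.P073.H236.Stage3L

/-!
# P073, ROUND T for `K3C`, (T5) for a general staircase: the abstract estimate along a curve

`f : V → ℝ` = one coordinate of any staircase (or of its clamping to a smaller window). It is used
only through the estimates `fon`, `ffull`, `foff`.
-/

open Set Metric Topology Filter
open scoped ENNReal

namespace Vale.Agent.P073.H581

open _root_.P073 _root_.P073.H236

/-! ### the flats of one box -/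

section flats

variable (B : BX 3)

/-- distance of two heights, measured in the flats -/
noncomputable def wfl (s t : ℝ) : ℝ :=
  ∑ k ∈ Finset.range B.N, |fl B.c (B.a k) s - fl B.c (B.a k) t|

variable {B} {s t : ℝ}

theorem wfl_nonneg : 0 ≤ wfl B s t := Finset.sum_nonneg fun _ _ => abs_nonneg _

theorem wfl_le : wfl B s t ≤ |s - t| := B.lvs.sum_fl_le s t

/-- off the bands, between two levels -/
theorem wfl_off (hs : ∀ k < B.N, 2 * B.c ≤ |s - B.a k|) (ht : ∀ k < B.N, 2 * B.c ≤ |t - B.a k|)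
    (hno : ∀ k < B.N, B.a k ∉ uIcc s t) : wfl B s t = 0 := by
  have hc := B.lvs.c0
  refine Finset.sum_eq_zero fun k hk => ?_
  rw [Finset.mem_range] at hk
  have h1 := hno k hk
  rw [mem_uIcc] at h1
  push Not at h1
  have h2 := hs k hk
  have h3 := ht k hk
  rcases le_total (B.a k) s with h4 | h4
  · rcases le_total (B.a k) t with h5 | h5
    · rw [abs_of_nonneg (sub_nonneg.2 h4)] at h2
      rw [abs_of_nonneg (sub_nonneg.2 h5)] at h3
      rw [fl_of_ge hc.le (by linarith), fl_of_ge hc.le (by linarith), sub_self, abs_zero]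
    · exact absurd (h1.2 h5) (not_lt.2 h4)
  · rcases le_total (B.a k) t with h5 | h5
    · exact absurd (h1.1 h4) (not_lt.2 h5)
    · rw [abs_of_nonpos (sub_nonpos.2 h4)] at h2
      rw [abs_of_nonpos (sub_nonpos.2 h5)] at h3
      rw [fl_of_le (by linarith), fl_of_le (by linarith), sub_self, abs_zero]

variable (B) in
/-- thickness -/
noncomputable def mB : (Fin 3 → ℝ) → ℝ := bmp B.j B.lo B.hi B.r B.c

theorem mB_Q (y : Fin 3 → ℝ) : mB B (B.Q y) = mB B y := bmp_update _ _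

/-- the inverse of the insertion map is `1`-Lipschitz off the levels -/
theorem abs_sub_le_Q {y y' : Fin 3 → ℝ} (hno : ∀ k < B.N, B.a k ∉ uIcc (B.Q y B.j) (B.Q y' B.j)) :
    |y B.j - y' B.j| ≤ |B.Q y B.j - B.Q y' B.j| + |mB B y - mB B y'| := by
  have hc := B.lvs.c0
  have e1 : ∀ y : Fin 3 → ℝ, B.Q y B.j = cl (qm B.lvs.L B.c) (mB B y) (y B.j) := fun y =>
    vc_same y
  rw [e1, e1] at hno ⊢
  refine abs_sub_le_cl (qm_monotone hc.le B.lvs.sepd) (expd_qm hc.le B.lvs.sepd)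
    (bmp_nonneg hc.le _) (bmp_nonneg hc.le _) fun a ha => ?_
  obtain ⟨k', hk', rfl⟩ := B.lvs.mem_L.1 (Finset.mem_coe.1 ha)
  exact hno k' hk'

/-- off the bands -/
theorem eq_of_offB {y : Fin 3 → ℝ} (hz : ∀ k < B.N, 2 * B.c ≤ |B.Q y B.j - B.a k|) :
    B.Q y = y := by
  refine H345.Q_eq_self _ fun k hk => ?_
  by_contra hcon
  push Not at hcon
  exact absurd (hz k hk) (not_le.2 (H345.Q_mem_cell _ hk hcon))

/-- two points of a vertical fibre are in one flat -/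
theorem abs_sub_of_Q {y y' : Fin 3 → ℝ} (h : B.Q y = B.Q y') : |y B.j - y' B.j| ≤ 2 * B.c := by
  have hc := B.lvs.c0
  have key : ∀ y y' : Fin 3 → ℝ, B.Q y = B.Q y' → y B.j < y' B.j →
      y' B.j - y B.j ≤ 2 * B.c := by
    intro y y' h hlt
    have hm : mB B y = mB B y' := by rw [← mB_Q, h, mB_Q]
    have e1 : ∀ y : Fin 3 → ℝ, B.Q y B.j = cl (qm B.lvs.L B.c) (mB B y) (y B.j) := fun y =>
      vc_same y
    have h1 : cl (qm B.lvs.L B.c) (mB B y') (y B.j) = cl (qm B.lvs.L B.c) (mB B y') (y' B.j) := by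
      rw [← e1, ← hm, ← e1, h]
    have hk := flat_of_cl_eq (qm_monotone hc.le B.lvs.sepd) (bmp_nonneg hc.le _) hlt h1
    have hL : qm B.lvs.L B.c (y B.j) ∈ B.lvs.L := by
      by_contra hcon
      exact hlt.ne (qm_inj hc B.lvs.sepd hk hcon)
    have h3 := (qm_eq_iff hc B.lvs.sepd hL (y B.j)).1 rfl
    have h4 := (qm_eq_iff hc B.lvs.sepd hL (y' B.j)).1 hk.symm
    linarith [h3.1, h4.2]
  rcases lt_trichotomy (y B.j) (y' B.j) with h1 | h1 | h1
  · rw [abs_sub_comm, abs_of_pos (sub_pos.2 h1)]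
    exact key y y' h h1
  · rw [h1, sub_self, abs_zero]; linarith
  · rw [abs_of_pos (sub_pos.2 h1)]
    exact key y' y h.symm h1

end flats

/-- comparison of variations -/
theorem evar_le_of_abs {f g : ℝ → ℝ} {s : Set ℝ} {C : ℝ} (hC : 0 ≤ C)
    (h : ∀ x ∈ s, ∀ y ∈ s, |f x - f y| ≤ C * |g x - g y|) :
    eVariationOn f s ≤ ENNReal.ofReal C * eVariationOn g s := by
  refine iSup_le ?_
  rintro ⟨N, u, hu, hm⟩
  calc ∑ i ∈ Finset.range N, edist (f (u (i + 1))) (f (u i))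
      ≤ ∑ i ∈ Finset.range N, ENNReal.ofReal C * edist (g (u (i + 1))) (g (u i)) := by
        refine Finset.sum_le_sum fun i _ => ?_
        rw [ofReal_abs_edist, ofReal_abs_edist, ← ENNReal.ofReal_mul hC]
        exact ENNReal.ofReal_le_ofReal (h _ (hm _) _ (hm _))
    _ = ENNReal.ofReal C * ∑ i ∈ Finset.range N, edist (g (u (i + 1))) (g (u i)) := by
        rw [Finset.mul_sum]
    _ ≤ _ := mul_le_mul_right (eVariationOn.sum_le hu hm) _

/-- **the variation on a fibre** -/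
theorem evar_fibreF {B : BX 3} {Y : ℝ → Fin 3 → ℝ} {γ : ℝ → ℝ} {a₀ a₁ x : ℝ} {z : Fin 3 → ℝ}
    (hγ : MonotoneOn γ (Icc a₀ a₁)) (hγc : ContinuousOn γ (Icc a₀ a₁))
    (hY : ContinuousOn Y (Icc a₀ a₁)) (hYi : InjOn Y (Icc a₀ a₁))
    (hfib : ∀ t ∈ Icc a₀ a₁, γ t = x → B.Q (Y t) = z) {f : (Fin 3 → ℝ) → ℝ} {C : ℝ} (hC : 0 ≤ C)
    (hf : ∀ t ∈ Icc a₀ a₁, ∀ t' ∈ Icc a₀ a₁, γ t = x → γ t' = x →
      |f (Y t) - f (Y t')| ≤ C * |Y t B.j - Y t' B.j|) :
    eVariationOn (fun t => f (Y t)) (Icc a₀ a₁ ∩ γ ⁻¹' {x}) ≤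
      ENNReal.ofReal (C * (2 * B.c)) := by
  rcases (Icc a₀ a₁ ∩ γ ⁻¹' {x}).eq_empty_or_nonempty with he | hne
  · rw [he]; simp
  obtain ⟨p, q, hpq, hI⟩ := fibre_Icc hγ hγc hne
  rw [hI]
  have hsub : Icc p q ⊆ Icc a₀ a₁ := by rw [← hI]; exact inter_subset_left
  have hmem : ∀ t ∈ Icc p q, γ t = x := fun t ht => by
    have h1 : t ∈ Icc a₀ a₁ ∩ γ ⁻¹' {x} := by rw [hI]; exact ht
    exact h1.2
  have hne' : ∀ t ∈ Icc p q, ∀ i, i ≠ B.j → Y t i = z i := by
    intro t ht i hi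
    rw [← hfib t (hsub ht) (hmem t ht), B.Q_ne hi]
  have hYj : ContinuousOn (fun t => Y t B.j) (Icc p q) :=
    (continuous_apply B.j).comp_continuousOn (hY.mono hsub)
  have hinj : InjOn (fun t => Y t B.j) (Icc p q) := by
    intro t ht t' ht' h
    refine hYi (hsub ht) (hsub ht') ?_
    ext i
    by_cases hi : i = B.j
    · rw [hi]; exact h
    · rw [hne' t ht i hi, hne' t' ht' i hi]
  refine (evar_le_of_abs (g := fun t => Y t B.j) hC fun t ht t' ht' =>
    hf t (hsub ht) t' (hsub ht') (hmem t ht) (hmem t' ht')).trans ?_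
  rw [ENNReal.ofReal_mul hC]
  refine mul_le_mul_right ?_ _
  have hend : |Y p B.j - Y q B.j| ≤ 2 * B.c := abs_sub_of_Q (by
    rw [hfib p (hsub (left_mem_Icc.2 hpq)) (hmem p (left_mem_Icc.2 hpq)),
      hfib q (hsub (right_mem_Icc.2 hpq)) (hmem q (right_mem_Icc.2 hpq))])
  rcases hYj.strictMonoOn_of_injOn_Icc' hpq hinj with hm | hm
  · have h := hm.monotoneOn.eVariationOn_eq (left_mem_Icc.2 hpq) (right_mem_Icc.2 hpq)
    rw [inter_self] at h
    rw [h]
    refine ENNReal.ofReal_le_ofReal ((le_abs_self _).trans ?_)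
    rw [abs_sub_comm]; exact hend
  · have hle : Y q B.j ≤ Y p B.j := hm.antitoneOn (left_mem_Icc.2 hpq) (right_mem_Icc.2 hpq) hpq
    have h1 := eVariationOn.comp_le_of_antitoneOn (id : ℝ → ℝ) (fun t => Y t B.j) hm.antitoneOn
      (t := Icc p q) (s := Icc (Y q B.j) (Y p B.j)) fun t ht =>
        ⟨hm.antitoneOn ht (right_mem_Icc.2 hpq) ht.2, hm.antitoneOn (left_mem_Icc.2 hpq) ht ht.1⟩
    have h2 := (monotone_id.monotoneOn (Icc (Y q B.j) (Y p B.j))).eVariationOn_eq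
      (left_mem_Icc.2 hle) (right_mem_Icc.2 hle)
    rw [inter_self] at h2
    refine h1.trans (h2.le.trans ?_)
    exact ENNReal.ofReal_le_ofReal ((le_abs_self _).trans hend)

/-! ### the curve -/

variable {ι : Type*}

/-- the data of a curve: `T` = the boxes which meet it; `X b` = the parameters of the crossings with
the levels of `b`; `[l b x, r b x]` = the parameters of the band around the crossing `x` -/
structure CrvF (B : ι → BX 3) (U : ι → Set (Fin 3 → ℝ)) (κ : (Fin 3 → ℝ) → Fin 3 → ℝ)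
    (f : (Fin 3 → ℝ) → ℝ) (A : ℝ) (om io : ι → ℝ) (Y Z q : ℝ → Fin 3 → ℝ) (γ : ℝ → ℝ) (T : Finset ι) (X : ι → Finset ℝ)
    (l r : ι → ℝ → ℝ) : Prop where
  κon : ∀ b, ∀ y ∈ (B b).K, κ y = (B b).Q y
  κoff : ∀ y, (∀ b, y ∉ (B b).K) → κ y = y
  κmem : ∀ b y, κ y ∈ (B b).K → y ∈ (B b).K
  dis : ∀ b b', b ≠ b' → Disjoint (interior (B b).K) (B b').K
  A0 : 0 ≤ A
  io0 : ∀ b ∈ T, 0 ≤ io b
  omc : ∀ b ∈ T, 2 * (B b).c ≤ om b
  fon : ∀ b ∈ T, ∀ y ∈ (B b).K, ∀ y' ∈ (B b).K, |f y - f y'| ≤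
    A * (‖y - y'‖ + om b / (2 * (B b).c) * wfl (B b) (y (B b).j) (y' (B b).j))
  UK : ∀ b, U b ⊆ (B b).K
  Uf : ∀ b, ∀ y ∈ U b, (B b).Full y
  UQ : ∀ b, ∀ y ∈ (B b).K, (B b).Q y ∈ U b ↔ y ∈ U b
  ffull : ∀ b ∈ T, ∀ y ∈ U b, ∀ y' ∈ U b,
    |f y - f y'| ≤ A * (om b / (2 * (B b).c) * wfl (B b) (y (B b).j) (y' (B b).j)) +
      io b * |y (B b).j - y' (B b).j|
  fc : ContinuousOn (fun t => f (Y t)) (Icc 0 1)
  foff : ∀ t ∈ Icc (0:ℝ) 1, (∀ b, Y t ∉ interior (B b).K) → ∀ᶠ t' in 𝓝[Icc 0 1] t,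
    (∀ b, Y t' ∉ (B b).K) → |f (Y t) - f (Y t')| ≤ A * ‖Y t - Y t'‖
  γm : MonotoneOn γ (Icc 0 1)
  γc : ContinuousOn γ (Icc 0 1)
  γI : MapsTo γ (Icc 0 1) (Icc 0 1)
  Yc : ContinuousOn Y (Icc 0 1)
  Yi : InjOn Y (Icc 0 1)
  lf : ∀ t ∈ Icc (0:ℝ) 1, ∀ᶠ t' in 𝓝[Icc 0 1] t, ∀ b, Y t' ∈ (B b).K → Y t ∈ (B b).K
  eq : ∀ t ∈ Icc (0:ℝ) 1, κ (Y t) = Z (γ t)
  Zc : ContinuousOn Z (Icc 0 1)
  mem : ∀ b, ∀ s ∈ Icc (0:ℝ) 1, Z s ∈ (B b).K → b ∈ T
  fade : ∀ s ∈ Icc (0:ℝ) 1, (∀ b, Z s ∉ interior (U b)) →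
    ∀ᶠ s' in 𝓝[Icc 0 1] s, Z s' = q s'
  cross : ∀ b ∈ T, ∀ s ∈ Icc (0:ℝ) 1, Z s ∈ (B b).K →
    (∃ k < (B b).N, Z s (B b).j = (B b).a k) → s ∈ X b
  XK : ∀ b ∈ T, ∀ x ∈ X b, Z x ∈ (B b).K
  lr : ∀ b ∈ T, ∀ x ∈ X b, l b x ≤ r b x
  band : ∀ b ∈ T, ∀ s ∈ Icc (0:ℝ) 1, Z s ∈ (B b).K →
    (∃ k < (B b).N, |Z s (B b).j - (B b).a k| ≤ 2 * (B b).c) → ∃ x ∈ X b, s ∈ Icc (l b x) (r b x)

namespace CrvF

variable {B : ι → BX 3} {U : ι → Set (Fin 3 → ℝ)} {κ : (Fin 3 → ℝ) → Fin 3 → ℝ}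
    {f : (Fin 3 → ℝ) → ℝ} {A : ℝ}
    {om io : ι → ℝ} {Y Z q : ℝ → Fin 3 → ℝ} {γ : ℝ → ℝ} {T : Finset ι} {X : ι → Finset ℝ}
    {l r : ι → ℝ → ℝ}

/-- indices of the cost functions -/
abbrev Ix (ι : Type*) : Type _ := Fin 3 ⊕ (Σ _ : ι, Option (ℝ × Bool))

/-- the slope in the flats -/
noncomputable def P (B : ι → BX 3) (om : ι → ℝ) (b : ι) : ℝ := om b / (2 * (B b).c)

/-- the cost functions -/
noncomputable def W (B : ι → BX 3) (A : ℝ) (om io : ι → ℝ) (Z q : ℝ → Fin 3 → ℝ)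
    (l r : ι → ℝ → ℝ) : Ix ι → ℝ → ℝ
  | Sum.inl i => fun s => A * q s i
  | Sum.inr ⟨b, none⟩ => fun s => io b * Z s (B b).j
  | Sum.inr ⟨b, some (x, true)⟩ => fun s =>
      2 * A * P B om b * Z (clamp (l b x) (r b x) s) (B b).j
  | Sum.inr ⟨b, some (x, false)⟩ => fun s =>
      2 * A * P B om b * mB (B b) (Z (clamp (l b x) (r b x) s))

/-- the index set -/
noncomputable def I (T : Finset ι) (X : ι → Finset ℝ) : Finset (Ix ι) :=
  (Finset.univ : Finset (Fin 3)).disjSum (T.sigma fun b => Finset.insertNone (X b ×ˢ Finset.univ))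

/-- the sum of the costs -/
theorem sum_I (T : Finset ι) (X : ι → Finset ℝ) (g : Ix ι → ℝ≥0∞) :
    ∑ o ∈ I T X, g o = ∑ i, g (Sum.inl i) + ∑ b ∈ T, (g (Sum.inr ⟨b, none⟩) +
      ∑ x ∈ X b, (g (Sum.inr ⟨b, some (x, true)⟩) + g (Sum.inr ⟨b, some (x, false)⟩))) := by
  unfold I
  rw [Finset.sum_disjSum, Finset.sum_sigma]
  congr 1
  refine Finset.sum_congr rfl fun b _ => ?_
  rw [Finset.sum_insertNone, Finset.sum_product]
  congr 1
  refine Finset.sum_congr rfl fun x _ => ?_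
  rw [Fintype.sum_bool]

theorem mem_Z (C : CrvF B U κ f A om io Y Z q γ T X l r) {t : ℝ} (ht : t ∈ Icc (0:ℝ) 1) {b : ι} :
    Z (γ t) ∈ (B b).K ↔ Y t ∈ (B b).K := by
  rw [← C.eq t ht]
  refine ⟨C.κmem b _, fun h => ?_⟩
  rw [C.κon b _ h]
  exact (B b).suppQ.maps h

theorem P1 (C : CrvF B U κ f A om io Y Z q γ T X l r) {b : ι} (hb : b ∈ T) : 1 ≤ P B om b := by
  have hc := (B b).lvs.c0
  unfold P
  rw [le_div_iff₀ (by linarith)]
  linarith [C.omc b hb]

theorem full_Y (C : CrvF B U κ f A om io Y Z q γ T X l r) {t : ℝ} (ht : t ∈ Icc (0:ℝ) 1) {b : ι}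
    (hb : Y t ∈ (B b).K) : Z (γ t) ∈ U b ↔ Y t ∈ U b := by
  rw [← C.eq t ht, C.κon b _ hb]
  exact C.UQ b _ hb

/-- the norm against the coordinates -/
theorem norm_le_sum3 (y : Fin 3 → ℝ) : ‖y‖ ≤ ∑ i, |y i| := by
  refine (pi_norm_le_iff_of_nonneg (Finset.sum_nonneg fun _ _ => abs_nonneg _)).2 fun i => ?_
  rw [Real.norm_eq_abs]
  exact Finset.single_le_sum (f := fun i => |y i|) (fun _ _ => abs_nonneg _) (Finset.mem_univ i)

/-- **the estimate in one box**, for nearby parameters -/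
theorem in_box (C : CrvF B U κ f A om io Y Z q γ T X l r) {b : ι} {t t' : ℝ}
    (ht : t ∈ Icc (0:ℝ) 1)
    (ht' : t' ∈ Icc (0:ℝ) 1) (hb : Y t ∈ (B b).K) (hb' : Y t' ∈ (B b).K)
    (hno : ∀ k < (B b).N, (B b).a k ∉ uIcc (Z (γ t) (B b).j) (Z (γ t') (B b).j))
    -- both in the full zone, or both in the zone where `Z = q`
    (hz : (Z (γ t) ∈ U b ∧ Z (γ t') ∈ U b) ∨
      (Z (γ t) = q (γ t) ∧ Z (γ t') = q (γ t')))
    -- both off the bands, or both in one band and in one interval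
    (hband : ((∀ k < (B b).N, 2 * (B b).c ≤ |Z (γ t) (B b).j - (B b).a k|) ∧
      ∀ k < (B b).N, 2 * (B b).c ≤ |Z (γ t') (B b).j - (B b).a k|) ∨
      ∃ x ∈ X b, γ t ∈ Icc (l b x) (r b x) ∧ γ t' ∈ Icc (l b x) (r b x)) :
    edist (f (Y t)) (f (Y t')) ≤
      ∑ o ∈ I T X, edist (W B A om io Z q l r o (γ t)) (W B A om io Z q l r o (γ t')) := by
  classical
  have hbT : b ∈ T := C.mem b (γ t) (C.γI ht) ((C.mem_Z ht).2 hb)
  have hc := (B b).lvs.c0
  have hP := C.P1 hbT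
  have hA := C.A0
  have hio := C.io0 b hbT
  have eQ : (B b).Q (Y t) = Z (γ t) := by rw [← C.κon b _ hb, C.eq t ht]
  have eQ' : (B b).Q (Y t') = Z (γ t') := by rw [← C.κon b _ hb', C.eq t' ht']
  -- the increments
  set y := Y t with hy
  set y' := Y t' with hy'
  set z := Z (γ t) with hzz
  set z' := Z (γ t') with hzz'
  set j := (B b).j with hj
  have hne : ∀ i, i ≠ j → y i = z i ∧ y' i = z' i := fun i hi => by
    rw [← eQ, ← eQ', (B b).Q_ne hi, (B b).Q_ne hi]; exact ⟨rfl, rfl⟩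
  have hd : |y j - y' j| ≤ |z j - z' j| + |mB (B b) z - mB (B b) z'| := by
    have h1 := abs_sub_le_Q (B := B b) (y := y) (y' := y') (by rw [eQ, eQ']; exact hno)
    rw [eQ, eQ'] at h1
    rwa [← mB_Q y, ← mB_Q y', eQ, eQ'] at h1
  have hfon := C.fon b hbT y hb y' hb'
  have hPd : om b / (2 * (B b).c) = P B om b := rfl
  rw [hPd] at hfon
  -- the costs
  set c0 : ℝ := ∑ i, A * |q (γ t) i - q (γ t') i| with hc0
  set c1 : ℝ := io b * |z j - z' j| with hc1
  have hcost0 : ENNReal.ofReal c0 = ∑ i, edist (W B A om io Z q l r (Sum.inl i) (γ t))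
      (W B A om io Z q l r (Sum.inl i) (γ t')) := by
    rw [hc0, ENNReal.ofReal_sum_of_nonneg fun i _ => by positivity]
    refine Finset.sum_congr rfl fun i _ => ?_
    rw [ofReal_abs_edist]
    congr 1
    show _ = |A * q (γ t) i - A * q (γ t') i|
    rw [← mul_sub, abs_mul, abs_of_nonneg hA]
  have hcost1 : ENNReal.ofReal c1 = edist (W B A om io Z q l r (Sum.inr ⟨b, none⟩) (γ t))
      (W B A om io Z q l r (Sum.inr ⟨b, none⟩) (γ t')) := by
    rw [ofReal_abs_edist]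
    congr 1
    show _ = |io b * z j - io b * z' j|
    rw [← mul_sub, abs_mul, abs_of_nonneg hio]
  have hc00 : 0 ≤ c0 := Finset.sum_nonneg fun i _ => by positivity
  have hc10 : 0 ≤ c1 := by positivity
  have hqz : z = q (γ t) → z' = q (γ t') → A * (∑ i, |z i - z' i|) = c0 := by
    intro e1 e2
    rw [hc0, e1, e2, Finset.mul_sum]
  -- one box in the sum
  have hbox : ∀ (R : ℝ≥0∞), R ≤ ∑ x ∈ X b,
      (edist (W B A om io Z q l r (Sum.inr ⟨b, some (x, true)⟩) (γ t))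
        (W B A om io Z q l r (Sum.inr ⟨b, some (x, true)⟩) (γ t')) +
      edist (W B A om io Z q l r (Sum.inr ⟨b, some (x, false)⟩) (γ t))
        (W B A om io Z q l r (Sum.inr ⟨b, some (x, false)⟩) (γ t'))) →
      ENNReal.ofReal c0 + (ENNReal.ofReal c1 + R) ≤
        ∑ o ∈ I T X, edist (W B A om io Z q l r o (γ t)) (W B A om io Z q l r o (γ t')) := by
    intro R hR
    rw [sum_I T X fun o => edist (W B A om io Z q l r o (γ t)) (W B A om io Z q l r o (γ t')),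
      hcost0, hcost1]
    refine add_le_add le_rfl ?_
    refine (add_le_add le_rfl hR).trans ?_
    exact Finset.single_le_sum (f := fun b =>
      edist (W B A om io Z q l r (Sum.inr ⟨b, none⟩) (γ t))
        (W B A om io Z q l r (Sum.inr ⟨b, none⟩) (γ t')) + ∑ x ∈ X b,
      (edist (W B A om io Z q l r (Sum.inr ⟨b, some (x, true)⟩) (γ t))
        (W B A om io Z q l r (Sum.inr ⟨b, some (x, true)⟩) (γ t')) +
      edist (W B A om io Z q l r (Sum.inr ⟨b, some (x, false)⟩) (γ t))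
        (W B A om io Z q l r (Sum.inr ⟨b, some (x, false)⟩) (γ t')))) (fun _ _ => zero_le) hbT
  have hoffb : ∀ R : ℝ, |f y - f y'| ≤ R → R ≤ c0 + c1 → edist (f y) (f y') ≤
      ∑ o ∈ I T X, edist (W B A om io Z q l r o (γ t)) (W B A om io Z q l r o (γ t')) := by
    intro R h1 h2
    refine le_trans ?_ (hbox 0 zero_le)
    rw [add_zero, ofReal_abs_edist, ← ENNReal.ofReal_add hc00 hc10]
    exact ENNReal.ofReal_le_ofReal (h1.trans h2)
  rcases hband with ⟨h1, h2⟩ | ⟨x, hx, h3, h4⟩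
  · -- off the bands
    have e1 : z = y := by rw [← eQ]; exact eq_of_offB fun k hk => by rw [eQ]; exact h1 k hk
    have e2 : z' = y' := by rw [← eQ']; exact eq_of_offB fun k hk => by rw [eQ']; exact h2 k hk
    have hw : wfl (B b) (y j) (y' j) = 0 := by
      rw [← e1, ← e2]; exact wfl_off h1 h2 hno
    rcases hz with ⟨h5, h6⟩ | ⟨h5, h6⟩
    · have h7 := C.ffull b hbT y ((C.full_Y ht hb).1 h5) y' ((C.full_Y ht' hb').1 h6)
      rw [hw, mul_zero, mul_zero, zero_add] at h7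
      refine hoffb _ h7 ?_
      have : io b * |y j - y' j| = c1 := by rw [hc1, e1, e2]
      linarith
    · rw [hw, mul_zero, add_zero] at hfon
      refine hoffb _ hfon ?_
      have h7 := mul_le_mul_of_nonneg_left (norm_le_sum3 (y - y')) hA
      have h8 : A * (∑ i, |(y - y') i|) = c0 := by
        rw [← hqz h5 h6, e1, e2]; rfl
      linarith
  · -- in one band
    have hw : wfl (B b) (y j) (y' j) ≤ |y j - y' j| := wfl_le
    set d := |z j - z' j| with hdd
    set dm := |mB (B b) z - mB (B b) z'| with hdm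
    have hd0 : 0 ≤ d := abs_nonneg _
    have hdm0 : 0 ≤ dm := abs_nonneg _
    have hyj0 : 0 ≤ |y j - y' j| := abs_nonneg _
    have hAP : 0 ≤ 2 * A * P B om b := by positivity
    have hcost2 : ENNReal.ofReal (2 * A * P B om b * (d + dm)) ≤ ∑ x ∈ X b,
        (edist (W B A om io Z q l r (Sum.inr ⟨b, some (x, true)⟩) (γ t))
          (W B A om io Z q l r (Sum.inr ⟨b, some (x, true)⟩) (γ t')) +
        edist (W B A om io Z q l r (Sum.inr ⟨b, some (x, false)⟩) (γ t))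
          (W B A om io Z q l r (Sum.inr ⟨b, some (x, false)⟩) (γ t'))) := by
      refine le_trans ?_ (Finset.single_le_sum (f := fun x =>
        (edist (W B A om io Z q l r (Sum.inr ⟨b, some (x, true)⟩) (γ t))
          (W B A om io Z q l r (Sum.inr ⟨b, some (x, true)⟩) (γ t')) +
        edist (W B A om io Z q l r (Sum.inr ⟨b, some (x, false)⟩) (γ t))
          (W B A om io Z q l r (Sum.inr ⟨b, some (x, false)⟩) (γ t')))) (fun _ _ => zero_le) hx)
      rw [ofReal_abs_edist, ofReal_abs_edist,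
        ← ENNReal.ofReal_add (abs_nonneg _) (abs_nonneg _)]
      apply ENNReal.ofReal_le_ofReal
      show _ ≤ |2 * A * P B om b * Z (clamp (l b x) (r b x) (γ t)) (B b).j -
        2 * A * P B om b * Z (clamp (l b x) (r b x) (γ t')) (B b).j| +
        |2 * A * P B om b * mB (B b) (Z (clamp (l b x) (r b x) (γ t))) -
        2 * A * P B om b * mB (B b) (Z (clamp (l b x) (r b x) (γ t')))|
      rw [clamp_of_mem h3, clamp_of_mem h4, ← mul_sub, ← mul_sub, abs_mul (2 * A * P B om b),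
        abs_mul (2 * A * P B om b), abs_of_nonneg hAP, mul_add]
    have hfin : ∀ R : ℝ, |f y - f y'| ≤ R → R ≤ c0 + (c1 + 2 * A * P B om b * (d + dm)) →
        edist (f y) (f y') ≤
        ∑ o ∈ I T X, edist (W B A om io Z q l r o (γ t)) (W B A om io Z q l r o (γ t')) := by
      intro R h1 h2
      refine le_trans ?_ (hbox _ hcost2)
      rw [ofReal_abs_edist, ← ENNReal.ofReal_add hc10 (by positivity),
        ← ENNReal.ofReal_add hc00 (by positivity)]
      exact ENNReal.ofReal_le_ofReal (h1.trans h2)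
    rcases hz with ⟨h5, h6⟩ | ⟨h5, h6⟩
    · have h7 := C.ffull b hbT y ((C.full_Y ht hb).1 h5) y' ((C.full_Y ht' hb').1 h6)
      rw [hPd] at h7
      refine hfin _ h7 ?_
      have em : dm = 0 := by
        have e1 : mB (B b) z = (B b).c := bmp_full (B b).hr (C.Uf b _ h5)
        have e2 : mB (B b) z' = (B b).c := bmp_full (B b).hr (C.Uf b _ h6)
        rw [hdm, e1, e2, sub_self, abs_zero]
      rw [em, add_zero] at hd ⊢
      have h8 : A * (P B om b * wfl (B b) (y j) (y' j)) ≤ A * (P B om b * d) := by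
        have := hw.trans hd
        gcongr
      have h9 : io b * |y j - y' j| ≤ c1 := mul_le_mul_of_nonneg_left hd hio
      have h10 : A * (P B om b * d) ≤ 2 * A * P B om b * d := by
        have : 0 ≤ A * (P B om b * d) := by positivity
        linarith
      linarith
    · refine hfin _ hfon ?_
      have h7 : ‖y - y'‖ ≤ (∑ i, |z i - z' i|) + |y j - y' j| := by
        refine (norm_le_sum3 _).trans ?_
        rw [← Finset.sum_erase_add _ _ (Finset.mem_univ j)]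
        refine add_le_add ?_ le_rfl
        refine le_trans (Finset.sum_le_sum fun i hi => ?_)
          (Finset.sum_le_sum_of_subset_of_nonneg (Finset.erase_subset j Finset.univ)
            fun i _ _ => abs_nonneg (z i - z' i))
        have hi' := Finset.ne_of_mem_erase hi
        rw [Pi.sub_apply, (hne i hi').1, (hne i hi').2]
      have h8 : A * (‖y - y'‖ + P B om b * wfl (B b) (y j) (y' j)) ≤
          A * ((∑ i, |z i - z' i|) + (d + dm) + P B om b * (d + dm)) := by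
        have h9 := hw.trans hd
        gcongr
        exact h7.trans (add_le_add le_rfl hd)
      have h9 : A * ((∑ i, |z i - z' i|) + (d + dm) + P B om b * (d + dm)) =
          c0 + (A * (d + dm) + A * P B om b * (d + dm)) := by
        rw [← hqz h5 h6]; ring
      have h10 : A * (d + dm) ≤ A * P B om b * (d + dm) := by
        have : A * 1 ≤ A * P B om b := mul_le_mul_of_nonneg_left hP hA
        have := mul_le_mul_of_nonneg_right this (add_nonneg hd0 hdm0)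
        linarith
      linarith

end CrvF

end Vale.Agent.P073.H581
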