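import Vale.Agent.P073.H581.T5Sa

/-!
# P073, ROUND T for `K3C`, (T5) for a general staircase: the variation along a curve
-/

open Set Metric Topology Filter
open scoped ENNReal

namespace Vale.Agent.P073.H581

open _root_.P073 _root_.P073.H236

variable {ι : Type*}

namespace CrvF

variable {B : ι → BX 3} {U : ι → Set (Fin 3 → ℝ)} {κ : (Fin 3 → ℝ) → Fin 3 → ℝ}
    {f : (Fin 3 → ℝ) → ℝ} {A : ℝ}
    {om io : ι → ℝ} {Y Z q : ℝ → Fin 3 → ℝ} {γ : ℝ → ℝ} {T : Finset ι} {X : ι → Finset ℝ}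
    {l r : ι → ℝ → ℝ}

/-- a point of the boundary of all boxes which contain it is fixed -/
theorem fixed (C : CrvF B U κ f A om io Y Z q γ T X l r) {t : ℝ}
    (h : ∀ b, Y t ∉ interior (B b).K) : κ (Y t) = Y t := by
  by_cases h1 : ∃ b, Y t ∈ (B b).K
  · obtain ⟨b, hb⟩ := h1
    rw [C.κon b _ hb]
    exact (B b).suppQ.bdry (h b)
  · push Not at h1
    exact C.κoff _ h1

/-- **the local estimate** -/
theorem loc (C : CrvF B U κ f A om io Y Z q γ T X l r) {t : ℝ} (ht : t ∈ Icc (0:ℝ) 1)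
    (htX : γ t ∉ T.biUnion X) : ∀ᶠ t' in 𝓝[Icc 0 1] t,
      edist (f (Y t)) (f (Y t')) ≤
      ∑ o ∈ I T X, edist (W B A om io Z q l r o (γ t)) (W B A om io Z q l r o (γ t')) := by
  classical
  have hγt : Tendsto γ (𝓝[Icc 0 1] t) (𝓝[Icc 0 1] (γ t)) :=
    tendsto_nhdsWithin_of_tendsto_nhds_of_eventually_within _ (C.γc t ht)
      (eventually_nhdsWithin_of_forall fun t' ht' => C.γI ht')
  have hs := C.γI ht
  set s := γ t with hsdef
  have hZc : ∀ j, Tendsto (fun s' => Z s' j) (𝓝[Icc 0 1] s) (𝓝 (Z s j)) := fun j =>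
    ((continuous_apply j).continuousAt.tendsto.comp (C.Zc s hs))
  -- no levels
  have f1 : ∀ b ∈ T, Z s ∈ (B b).K → ∀ᶠ s' in 𝓝[Icc 0 1] s, ∀ k < (B b).N,
      (B b).a k ∉ uIcc (Z s (B b).j) (Z s' (B b).j) := by
    intro b hb hbK
    have h1 : ∀ᶠ s' in 𝓝[Icc 0 1] s, ∀ k ∈ {k | k < (B b).N},
        (B b).a k ∉ uIcc (Z s (B b).j) (Z s' (B b).j) := by
      refine (eventually_all_finite (finite_lt_nat _)).2 fun k hk => ?_
      have hne : Z s (B b).j ≠ (B b).a k := fun h => htX
        (Finset.mem_biUnion.2 ⟨b, hb, C.cross b hb s hs hbK ⟨k, hk, h⟩⟩)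
      have h2 : ∀ᶠ y in 𝓝 (Z s (B b).j), |y - Z s (B b).j| < |(B b).a k - Z s (B b).j| := by
        have h3 : 0 < |(B b).a k - Z s (B b).j| := abs_pos.2 (sub_ne_zero.2 hne.symm)
        filter_upwards [Metric.ball_mem_nhds _ h3] with y hy
        rwa [Metric.mem_ball, Real.dist_eq] at hy
      filter_upwards [(hZc _).eventually h2] with s' h4 h5
      have h6 := abs_sub_left_of_mem_uIcc h5
      exact absurd h6 (not_le.2 h4)
    filter_upwards [h1] with s' h2 k hk
    exact h2 k hk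
  -- full or faded
  have f2 : ∀ b, Z s ∈ (B b).K → ∀ᶠ s' in 𝓝[Icc 0 1] s,
      (Z s ∈ U b ∧ Z s' ∈ U b) ∨ (Z s = q s ∧ Z s' = q s') := by
    intro b hbK
    by_cases h : ∃ b0, Z s ∈ interior (U b0)
    · obtain ⟨b0, hb0⟩ := h
      have hbb : b = b0 := by
        by_contra hne
        have h3 : Z s ∈ interior (B b0).K := interior_mono (C.UK b0) hb0
        exact Set.disjoint_left.1 (C.dis b0 b (Ne.symm hne)) h3 hbK
      subst hbb
      have h1 : ∀ᶠ s' in 𝓝[Icc 0 1] s, Z s' ∈ interior (U b) :=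
        (C.Zc s hs).eventually (isOpen_interior.mem_nhds hb0)
      filter_upwards [h1] with s' h2
      exact Or.inl ⟨interior_subset hb0, interior_subset h2⟩
    · push Not at h
      have h1 := C.fade s hs h
      filter_upwards [h1] with s' h2
      exact Or.inr ⟨h1.self_of_nhdsWithin hs, h2⟩
  -- bands
  have f3 : ∀ b ∈ T, Z s ∈ (B b).K → ∀ᶠ s' in 𝓝[Icc 0 1] s, s' ∈ Icc (0:ℝ) 1 →
      Z s' ∈ (B b).K →
      ((∀ k < (B b).N, 2 * (B b).c ≤ |Z s (B b).j - (B b).a k|) ∧
      ∀ k < (B b).N, 2 * (B b).c ≤ |Z s' (B b).j - (B b).a k|) ∨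
      ∃ x ∈ X b, s ∈ Icc (l b x) (r b x) ∧ s' ∈ Icc (l b x) (r b x) := by
    intro b hb hbK
    have g1 : ∀ k, Tendsto (fun s' => |Z s' (B b).j - (B b).a k|) (𝓝[Icc 0 1] s)
        (𝓝 |Z s (B b).j - (B b).a k|) := fun k => ((hZc _).sub_const _).abs
    have h1 : ∀ᶠ s' in 𝓝[Icc 0 1] s, ∀ k ∈ {k | k < (B b).N},
        (|Z s (B b).j - (B b).a k| < 2 * (B b).c → |Z s' (B b).j - (B b).a k| < 2 * (B b).c) := by
      refine (eventually_all_finite (finite_lt_nat _)).2 fun k _ => ?_
      by_cases h : |Z s (B b).j - (B b).a k| < 2 * (B b).c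
      · filter_upwards [(g1 k).eventually (gt_mem_nhds h)] with s' h2 _ using h2
      · exact Eventually.of_forall fun _ h2 => absurd h2 h
    have h2 : ∀ᶠ s' in 𝓝[Icc 0 1] s, ∀ x ∈ X b, s' ∈ Icc (l b x) (r b x) →
        s ∈ Icc (l b x) (r b x) := by
      refine (Finset.eventually_all _).2 fun x _ => ?_
      by_cases h : s ∈ Icc (l b x) (r b x)
      · exact Eventually.of_forall fun _ _ => h
      · filter_upwards [mem_nhdsWithin_of_mem_nhds (isClosed_Icc.isOpen_compl.mem_nhds h)]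
          with s' h3 h4
        exact absurd h4 h3
    filter_upwards [h1, h2] with s' h3 h4 hs' hsK
    by_cases h5 : ∃ k < (B b).N, |Z s' (B b).j - (B b).a k| < 2 * (B b).c
    · right
      obtain ⟨k, hk, h6⟩ := h5
      obtain ⟨x, hx, h7⟩ := C.band b hb s' hs' hsK ⟨k, hk, h6.le⟩
      exact ⟨x, hx, h4 x hx h7, h7⟩
    · push Not at h5
      left
      refine ⟨fun k hk => ?_, h5⟩
      by_contra h8
      exact absurd (h3 k hk (not_le.1 h8)) (not_lt.2 (h5 k hk))
  have F' : ∀ b ∈ T, Z s ∈ (B b).K → ∀ᶠ t' in 𝓝[Icc 0 1] t, Y t' ∈ (B b).K →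
      edist (f (Y t)) (f (Y t')) ≤
      ∑ o ∈ I T X, edist (W B A om io Z q l r o (γ t)) (W B A om io Z q l r o (γ t')) := by
    intro b hb hbK
    filter_upwards [hγt.eventually (f1 b hb hbK), hγt.eventually (f2 b hbK),
      hγt.eventually (f3 b hb hbK), self_mem_nhdsWithin] with t' h1 h2 h3 ht' hK
    exact C.in_box ht ht' ((C.mem_Z ht).1 hbK) hK h1 h2
      (h3 (C.γI ht') ((C.mem_Z ht').2 hK))
  have F'' : ∀ᶠ t' in 𝓝[Icc 0 1] t, ∀ b ∈ T, Z s ∈ (B b).K → Y t' ∈ (B b).K →
      edist (f (Y t)) (f (Y t')) ≤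
      ∑ o ∈ I T X, edist (W B A om io Z q l r o (γ t)) (W B A om io Z q l r o (γ t')) := by
    refine (Finset.eventually_all _).2 fun b hb => ?_
    by_cases h : Z s ∈ (B b).K
    · filter_upwards [F' b hb h] with t' h1 _ using h1
    · exact Eventually.of_forall fun _ h1 => absurd h1 h
  by_cases hint : ∃ b, Y t ∈ interior (B b).K
  · obtain ⟨b, hb⟩ := hint
    have hbK : Z s ∈ (B b).K := (C.mem_Z ht).2 (interior_subset hb)
    have h1 : ∀ᶠ t' in 𝓝[Icc 0 1] t, Y t' ∈ interior (B b).K :=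
      (C.Yc t ht).eventually (isOpen_interior.mem_nhds hb)
    filter_upwards [F'', h1] with t' h2 h3
    exact h2 b (C.mem b s hs hbK) hbK (interior_subset h3)
  · push Not at hint
    have e2 := C.fixed hint
    have e3 : Z s = Y t := by rw [hsdef, ← C.eq t ht, e2]
    have h1 := C.fade s hs fun b hb => hint b (by
      rw [e3] at hb
      exact interior_mono (C.UK b) hb)
    filter_upwards [F'', C.lf t ht, hγt.eventually h1, C.foff t ht hint, self_mem_nhdsWithin]
      with t' h2 h3 h4 h5 ht'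
    by_cases h6 : ∃ b, Y t' ∈ (B b).K
    · obtain ⟨b, hb⟩ := h6
      have hbK : Z s ∈ (B b).K := (C.mem_Z ht).2 (h3 b hb)
      exact h2 b (C.mem b s hs hbK) hbK hb
    · push Not at h6
      have e5 : Y t' = q (γ t') := by rw [← h4, ← C.eq t' ht', C.κoff _ h6]
      have e6 : Y t = q (γ t) := by rw [← e3]; exact h1.self_of_nhdsWithin hs
      have hA := C.A0
      have h7 : |f (Y t) - f (Y t')| ≤ ∑ i, A * |q (γ t) i - q (γ t') i| := by
        refine (h5 h6).trans ?_
        rw [e5, e6, ← Finset.mul_sum]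
        exact mul_le_mul_of_nonneg_left (norm_le_sum3 _) hA
      rw [sum_I T X fun o => edist (W B A om io Z q l r o (γ t)) (W B A om io Z q l r o (γ t'))]
      refine le_trans ?_ le_self_add
      rw [ofReal_abs_edist]
      refine (ENNReal.ofReal_le_ofReal h7).trans (le_of_eq ?_)
      rw [ENNReal.ofReal_sum_of_nonneg fun i _ => by positivity]
      refine Finset.sum_congr rfl fun i _ => ?_
      rw [ofReal_abs_edist]
      congr 1
      show _ = |A * q (γ t) i - A * q (γ t') i|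
      rw [← mul_sub, abs_mul, abs_of_nonneg hA]

/-- **[T5-S]**, the variation of `f` along an edge -/
theorem evar_le (C : CrvF B U κ f A om io Y Z q γ T X l r) :
    eVariationOn (fun t => f (Y t)) (Icc 0 1) ≤
      ∑ b ∈ T, ((X b).card * ENNReal.ofReal (2 * A * om b)) +
      (∑ i, ENNReal.ofReal A * eVariationOn (fun s => q s i) (Icc 0 1) +
      ∑ b ∈ T, (ENNReal.ofReal (io b) * eVariationOn (fun s => Z s (B b).j) (Icc 0 1) +
        ∑ x ∈ X b, ENNReal.ofReal (2 * A * P B om b) *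
          (eVariationOn (fun s => Z s (B b).j) (Icc (l b x) (r b x)) +
          eVariationOn (fun s => mB (B b) (Z s)) (Icc (l b x) (r b x))))) := by
  classical
  have hA := C.A0
  have key := evar_le_cross (I T X) (Z := W B A om io Z q l r) C.γm C.γc C.fc (T.biUnion X)
    (fun x => ∑ b ∈ T with x ∈ X b, ENNReal.ofReal (2 * A * om b)) ?_
    (fun s hs hsX => C.loc hs hsX)
  · refine key.trans (add_le_add ?_ ?_)
    · -- crossings
      refine le_of_eq ?_
      simp only [Finset.sum_filter]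
      rw [Finset.sum_comm]
      refine Finset.sum_congr rfl fun b hb => ?_
      rw [← Finset.sum_filter, Finset.sum_const, nsmul_eq_mul]
      congr 3
      ext x
      rw [Finset.mem_filter, Finset.mem_biUnion]
      exact ⟨fun h => h.2, fun h => ⟨⟨b, hb, h⟩, h⟩⟩
    · have hcomp : ∀ f : ℝ → ℝ, eVariationOn (fun s => f (γ s)) (Icc 0 1) ≤
          eVariationOn f (Icc 0 1) := fun f =>
        eVariationOn.comp_le_of_monotoneOn f γ C.γm C.γI
      rw [sum_I T X fun o => eVariationOn (fun s => W B A om io Z q l r o (γ s)) (Icc 0 1)]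
      refine add_le_add (Finset.sum_le_sum fun i _ => ?_) (Finset.sum_le_sum fun b hb => ?_)
      · exact (hcomp _).trans (evar_smul _ hA _ _)
      · refine add_le_add ?_ (Finset.sum_le_sum fun x hx => ?_)
        · exact (hcomp _).trans (evar_smul _ (C.io0 b hb) _ _)
        · have hP := C.P1 hb
          have hAP : 0 ≤ 2 * A * P B om b := by positivity
          rw [mul_add]
          refine add_le_add ?_ ?_
          · refine (hcomp _).trans ((evar_smul _ hAP _ _).trans ?_)
            gcongr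
            exact evar_clamp (fun s => Z s (B b).j) (C.lr b hb x hx) _
          · refine (hcomp _).trans ((evar_smul _ hAP _ _).trans ?_)
            gcongr
            exact evar_clamp (fun s => mB (B b) (Z s)) (C.lr b hb x hx) _
  · intro x hx
    obtain ⟨b, hb, hbx⟩ := Finset.mem_biUnion.1 hx
    have hc := (B b).lvs.c0
    have hP := C.P1 hb
    have hK : ∀ t ∈ Icc (0:ℝ) 1, γ t = x → Y t ∈ (B b).K := fun t ht htx =>
      (C.mem_Z ht).1 (by rw [htx]; exact C.XK b hb x hbx)
    have hQ : ∀ t ∈ Icc (0:ℝ) 1, γ t = x → (B b).Q (Y t) = Z x := fun t ht htx => by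
      rw [← C.κon b _ (hK t ht htx), C.eq t ht, htx]
    have h1 := evar_fibreF (B := B b) C.γm C.γc C.Yc C.Yi (x := x) (z := Z x) hQ (f := f)
      (C := A * (1 + P B om b)) (by positivity) fun t ht t' ht' htx ht'x => ?_
    · refine h1.trans ?_
      refine le_trans ?_ (Finset.single_le_sum (f := fun b => ENNReal.ofReal (2 * A * om b))
        (fun _ _ => zero_le) (Finset.mem_filter.2 ⟨hb, hbx⟩))
      apply ENNReal.ofReal_le_ofReal
      have e1 : A * (1 + P B om b) * (2 * (B b).c) = A * (2 * (B b).c + om b) := by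
        unfold P; field_simp
      rw [e1]
      have h2 := C.omc b hb
      nlinarith
    · have h2 := C.fon b hb _ (hK t ht htx) _ (hK t' ht' ht'x)
      have h3 : ‖Y t - Y t'‖ ≤ |Y t (B b).j - Y t' (B b).j| := by
        refine (pi_norm_le_iff_of_nonneg (abs_nonneg _)).2 fun i => ?_
        rw [Real.norm_eq_abs]
        by_cases hi : i = (B b).j
        · rw [hi]; rfl
        · have h4 : Y t i = Y t' i := by
            rw [← (B b).Q_ne hi (Y t), ← (B b).Q_ne hi (Y t'), hQ t ht htx, hQ t' ht' ht'x]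
          rw [Pi.sub_apply, h4, sub_self, abs_zero]
          exact abs_nonneg _
      refine h2.trans ?_
      have h4 : wfl (B b) (Y t (B b).j) (Y t' (B b).j) ≤ |Y t (B b).j - Y t' (B b).j| := wfl_le
      have h5 : om b / (2 * (B b).c) * wfl (B b) (Y t (B b).j) (Y t' (B b).j) ≤
          P B om b * |Y t (B b).j - Y t' (B b).j| :=
        mul_le_mul_of_nonneg_left h4 (by unfold P at hP; linarith)
      calc A * (‖Y t - Y t'‖ + om b / (2 * (B b).c) * wfl (B b) (Y t (B b).j) (Y t' (B b).j))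
          ≤ A * (|Y t (B b).j - Y t' (B b).j| + P B om b * |Y t (B b).j - Y t' (B b).j|) := by
            gcongr
        _ = _ := by ring

end CrvF

/-! ### the sharp form in the full zone -/

/-- **the sharp form** -/
theorem evar_fullF {B : BX 3} {U : Set (Fin 3 → ℝ)} {f : (Fin 3 → ℝ) → ℝ}
    {Y Z : ℝ → Fin 3 → ℝ} {γ : ℝ → ℝ}
    {q om io : ℝ} (hq : 0 ≤ q) (hio : 0 ≤ io) (hom : 0 ≤ om)
    (hUf : ∀ y ∈ U, B.Full y)
    (hf : ∀ y ∈ U, ∀ y' ∈ U, |f y - f y'| ≤
      q * (om / (2 * B.c) * wfl B (y B.j) (y' B.j)) + io * |y B.j - y' B.j|)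
    (hfc : ContinuousOn (fun t => f (Y t)) (Icc 0 1))
    (γm : MonotoneOn γ (Icc 0 1)) (γc : ContinuousOn γ (Icc 0 1))
    (Yc : ContinuousOn Y (Icc 0 1)) (Yi : InjOn Y (Icc 0 1))
    (hYU : ∀ t ∈ Icc (0:ℝ) 1, Y t ∈ U)
    (hQ : ∀ t ∈ Icc (0:ℝ) 1, B.Q (Y t) = Z (γ t)) (X : Finset ℝ)
    (hX : ∀ t ∈ Icc (0:ℝ) 1, (∃ k < B.N, Z (γ t) B.j = B.a k) → γ t ∈ X) :
    eVariationOn (fun t => f (Y t)) (Icc 0 1) ≤
      X.card * ENNReal.ofReal (q * om + io * (2 * B.c)) +
      ENNReal.ofReal io * eVariationOn (fun t => Z (γ t) B.j) (Icc 0 1) := by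
  have hc := B.lvs.c0
  have hYF : ∀ t ∈ Icc (0:ℝ) 1, B.Full (Y t) := fun t ht => hUf _ (hYU t ht)
  have hqm : ∀ t ∈ Icc (0:ℝ) 1, qm B.lvs.L B.c (Y t B.j) = Z (γ t) B.j := by
    intro t ht
    have h2 := congrFun (hQ t ht) B.j
    rw [B.Q_full (hYF t ht)] at h2
    rwa [Function.update_self] at h2
  have key := evar_le_cross (Finset.univ : Finset Unit) (Z := fun _ s => io * Z s B.j) γm γc
    (G := fun t => f (Y t)) hfc X (fun _ => ENNReal.ofReal (q * om + io * (2 * B.c))) ?_ ?_
  · refine key.trans (add_le_add ?_ ?_)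
    · rw [Finset.sum_const, nsmul_eq_mul]
    · rw [Finset.univ_unique, Finset.sum_singleton]
      exact evar_smul io hio _ _
  · intro x _
    have h1 := evar_fibreF (B := B) γm γc Yc Yi (x := x) (z := Z x)
      (fun t ht htx => by rw [hQ t ht, htx]) (f := f) (C := q * (om / (2 * B.c)) + io)
      (by
        have : 0 ≤ om / (2 * B.c) := div_nonneg (by linarith) (by linarith)
        positivity) fun t ht t' ht' _ _ => ?_
    · refine h1.trans (ENNReal.ofReal_le_ofReal (le_of_eq ?_))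
      field_simp
    · refine (hf _ (hYU t ht) _ (hYU t' ht')).trans ?_
      have h4 : wfl B (Y t B.j) (Y t' B.j) ≤ |Y t B.j - Y t' B.j| := wfl_le
      have h5 : 0 ≤ om / (2 * B.c) := div_nonneg (by linarith) (by linarith)
      calc _ ≤ q * (om / (2 * B.c) * |Y t B.j - Y t' B.j|) + io * |Y t B.j - Y t' B.j| := by
            gcongr
        _ = _ := by ring
  · intro t ht htX
    have hno0 : ∀ k < B.N, Z (γ t) B.j ≠ B.a k := fun k hk h => htX (hX t ht ⟨k, hk, h⟩)
    -- nearby values are in the same gap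
    have hZc : ContinuousOn (fun t => qm B.lvs.L B.c (Y t B.j)) (Icc 0 1) :=
      (qm_continuous _ _).comp_continuousOn ((continuous_apply B.j).comp_continuousOn Yc)
    have h1 : ∀ᶠ t' in 𝓝[Icc 0 1] t, ∀ k ∈ {k | k < B.N},
        B.a k ∉ uIcc (Z (γ t) B.j) (qm B.lvs.L B.c (Y t' B.j)) := by
      refine (eventually_all_finite (finite_lt_nat _)).2 fun k hk => ?_
      have h3 : 0 < |B.a k - Z (γ t) B.j| := abs_pos.2 (sub_ne_zero.2 (hno0 k hk).symm)
      have h4 := Metric.tendsto_nhds.1 (hZc t ht) _ h3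
      filter_upwards [h4] with t' h5 h6
      rw [hqm t ht, Real.dist_eq] at h5
      exact absurd (abs_sub_left_of_mem_uIcc h6) (not_le.2 h5)
    filter_upwards [h1, self_mem_nhdsWithin] with t' h2 ht'
    rw [Finset.univ_unique, Finset.sum_singleton]
    show edist (f (Y t)) (f (Y t')) ≤ edist (io * Z (γ t) B.j) (io * Z (γ t') B.j)
    rw [ofReal_abs_edist, ofReal_abs_edist, ← mul_sub, abs_mul, abs_of_nonneg hio]
    refine ENNReal.ofReal_le_ofReal ?_
    have hno : ∀ k < B.N, B.a k ∉ uIcc (qm B.lvs.L B.c (Y t B.j)) (qm B.lvs.L B.c (Y t' B.j)) :=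
      fun k hk => by rw [hqm t ht]; exact h2 k hk
    have hno' : ∀ k < B.N, B.a k ∉ uIcc (B.Q (Y t) B.j) (B.Q (Y t') B.j) := fun k hk => by
      rw [hQ t ht, hQ t' ht', ← hqm t ht, ← hqm t' ht']; exact hno k hk
    have hd := abs_sub_le_Q (B := B) hno'
    have em : |mB B (Y t) - mB B (Y t')| = 0 := by
      have e1 : mB B (Y t) = B.c := bmp_full B.hr (hYF t ht)
      have e2 : mB B (Y t') = B.c := bmp_full B.hr (hYF t' ht')
      rw [e1, e2, sub_self, abs_zero]
    rw [em, add_zero, hQ t ht, hQ t' ht'] at hd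
    -- no flats between
    have hw : wfl B (Y t B.j) (Y t' B.j) = 0 := by
      have key2 : ∀ s s' : ℝ, s ≤ s' → (∀ k < B.N,
          B.a k ∉ uIcc (qm B.lvs.L B.c s) (qm B.lvs.L B.c s')) → ∀ k < B.N,
          fl B.c (B.a k) s = fl B.c (B.a k) s' := by
        intro s s' hss hn k hk
        have hm := qm_monotone hc.le B.lvs.sepd hss
        have hkL : B.a k ∈ B.lvs.L := B.lvs.mem_L.2 ⟨k, hk, rfl⟩
        have h3 := hn k hk
        rw [uIcc_of_le hm, mem_Icc, not_and_or, not_le, not_le] at h3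
        rcases h3 with h3 | h3
        · have h4 : B.a k + B.c < s := by
            by_contra hcon
            push Not at hcon
            have := qm_monotone hc.le B.lvs.sepd hcon
            rw [qm_flat hc.le B.lvs.sepd hkL (t := B.a k + B.c) (by
              rw [add_sub_cancel_left, abs_of_nonneg hc.le])] at this
            linarith
          rw [fl_of_ge hc.le h4.le, fl_of_ge hc.le (h4.le.trans hss)]
        · have h4 : s' < B.a k - B.c := by
            by_contra hcon
            push Not at hcon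
            have := qm_monotone hc.le B.lvs.sepd hcon
            rw [qm_flat hc.le B.lvs.sepd hkL (t := B.a k - B.c) (by
              rw [show B.a k - B.c - B.a k = -B.c by ring, abs_neg, abs_of_nonneg hc.le])] at this
            linarith
          rw [fl_of_le h4.le, fl_of_le (hss.trans h4.le)]
      refine Finset.sum_eq_zero fun k hk => ?_
      rw [Finset.mem_range] at hk
      rcases le_total (Y t B.j) (Y t' B.j) with h | h
      · rw [key2 _ _ h hno k hk, sub_self, abs_zero]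
      · rw [key2 _ _ h (fun k hk => by rw [uIcc_comm]; exact hno k hk) k hk, sub_self, abs_zero]
    refine (hf _ (hYU t ht) _ (hYU t' ht')).trans ?_
    rw [hw, mul_zero, mul_zero, zero_add]
    exact mul_le_mul_of_nonneg_left hd hio

end Vale.Agent.P073.H581
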