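import Vale.Agent.P073.H581.T5Sb
import Vale.Agent.P073.H579.OutSa

/-!
# P073, ROUND T for `K3C`, (T5) for a general staircase

`h'` = the map after STAGE 1 (H579's `TStageW`, cells `W`, active faces `Act₀`, boxes `G₀`), `g` = the
lift. `f` = any function with the estimates `FEst` in the boxes which meet the edge and `FOff` off
all boxes, for instance one coordinate of the staircase, or its clamping to a smaller window.
-/

open Set Metric Topology Filter
open scoped ENNReal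

namespace Vale.Agent.P073.H581

open _root_.P073 _root_.P073.TR _root_.P073.Net _root_.P073.PA691
open Vale.Agent.P073.St (V)
open Vale.Agent.P073.H471 Vale.Agent.P073.H267 Vale.Agent.P073.H267.Geo
open Vale.Agent.P073.H73 (Mesh)
open Vale.Agent.P073.H193 (Edges)
open Vale.Agent.P073.H238 (oT marg TAct TProt skel TMid)
open _root_.P073.Croft (Cells Crs levs Generic onS cross varIn TransAt SepL)
open _root_.P073.H236 (BX Lvs BFam stp dsp bmp qm)
open Vale.Agent.P073.H579 (TStageW)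
open _root_.P073.H669 (mem_TB TB_sub_false)
open Vale.Agent.P073.H669 (TLv)
open _root_.P073.H267 (tvE lenE)

/-- the estimates in one box: slope `om / 2 c` in the flats, `A` elsewhere, `io` between the flats
of the zone `U` -/
structure FEst (B : BX 3) (U : Set V) (f : V → ℝ) (A om io : ℝ) : Prop where
  on : ∀ y ∈ B.K, ∀ y' ∈ B.K, |f y - f y'| ≤
    A * (‖y - y'‖ + om / (2 * B.c) * wfl B (y B.j) (y' B.j))
  full : ∀ y ∈ U, ∀ y' ∈ U, |f y - f y'| ≤
    A * (om / (2 * B.c) * wfl B (y B.j) (y' B.j)) + io * |y B.j - y' B.j|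

/-- the estimate off the boxes -/
def FOff {ι : Type*} (B : ι → BX 3) (Λ : Set V) (f : V → ℝ) (A : ℝ) : Prop :=
  ∀ y ∈ Λ, (∀ b, y ∉ interior (B b).K) →
    ∀ᶠ y' in 𝓝 y, (∀ b, y' ∉ (B b).K) → |f y - f y'| ≤ A * ‖y - y'‖

variable {Ω Λ : Set V} {v : V} {K : BoxCx Λ v} {S : Rad K} {Wd : Wid K S} {B : Boxes Wd}
  {G : Geo B} {M : Mesh Ω} {E : Edges M} {h h' : ConHomeo Ω Λ} {ω : TBx K → ℝ}
  {T : TBx K → Finset (ℝ × ℝ)} {η : ℝ} {τ : Type*} {A : τ → Set V} {C : Set ℝ} {εE : E.ε → ℝ}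
  {δ : TBx K → ℝ} {Pr W : Set M.ι} {Act₀ : Set M.κ} {G₀ : Set (TBx K)}

section

variable (L : TLv G E h ω T η A C εE δ)

theorem Xs_finW (O : TStageW G M h h' Pr W Act₀ G₀ L.lev ω) (e : E.ε) (b : TBx K) :
    (Xs L h' e b).Finite := (L.cross_finW O false e b).subset (Xs_sub L e b)

theorem transW (O : TStageW G M h h' Pr W Act₀ G₀ L.lev ω) {e : E.ε} {b : TBx K} {x : ℝ}
    (hx : x ∈ Xs L h' e b) : TransAt (onS h'.toFun (E.a e) (E.b e)) b.ax x := by
  have hx' := Xs_sub L e b hx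
  obtain ⟨r, hr, w, hw, h0, h1, haff⟩ := (L.crs false e).trans b x (L.cross_subG O false e b hx')
  obtain ⟨ε, hε, hgerm⟩ := Metric.eventually_nhds_iff.1 (L.cross_germW O hx')
  refine ⟨min r (ε / 2), lt_min hr (by linarith), w, hw, ?_, ?_, fun s hs => ?_⟩
  · linarith [min_le_left r (ε / 2)]
  · linarith [min_le_left r (ε / 2)]
  · have h2 : dist s x < ε := by
      rw [Real.dist_eq, abs_lt]
      have := min_le_right r (ε / 2)
      constructor <;> linarith [hs.1, hs.2]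
    have h3 := min_le_left r (ε / 2)
    rw [hgerm h2, hgerm (by rw [dist_self]; exact hε)]
    exact haff s ⟨by linarith [hs.1], by linarith [hs.2]⟩

/-- **the thresholds for the thickness** -/
theorem exists_c1W (O : TStageW G M h h' Pr W Act₀ G₀ L.lev ω) (b : TBx K) :
    ∃ c₁ > 0, ∀ c, 0 < c → c ≤ c₁ → ∀ e, ∃ l r, Bands L h' e b c l r := by
  have h1 : ∀ᶠ c in 𝓝[>] (0:ℝ), ∀ e ∈ {e : E.ε | (h'.toFun '' E.seg e ∩ G.TB false b).Nonempty},
      ∃ l r, Bands L h' e b c l r := by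
    refine (eventually_all_finite (fin_edges h' b)).2 fun e _ => ?_
    have hc0 : ∀ b, 0 < δ b / 8 := fun b => by have := L.δ0 b; positivity
    exact exists_bands (onS_cont h' e) (isClosed_Kc L b) (c₀ := δ b / 8)
      (A := (20 * ω b)⁻¹) (m := mT G ω b) (hc0 b) (by have := L.ω0 b; positivity)
      (fun k hk k' hk' hne => lvs_sep ((L.bxQ (fun b => δ b / 8) hc0 (fun _ => le_rfl) b).lvs)
        hk hk' hne) (Xs_finW L O e b)
      (fun s hs hsK hk => ⟨hs, hsK, by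
        obtain ⟨k, hk, hk'⟩ := hk
        exact ⟨k, hk, hk'⟩⟩)
      (fun x hx => transW L O hx)
      (fun x hx => by
        obtain ⟨-, -, k, hk, hk'⟩ := hx
        exact ⟨k, hk, hk'⟩)
      (fun c hc y y' => mT_sub_le (L.ω0 b) hc y y')
  obtain ⟨c₁, hc₁, h2⟩ := exists_of_ev h1
  refine ⟨c₁, hc₁, fun c h3 h4 e => ?_⟩
  by_cases he : (h'.toFun '' E.seg e ∩ G.TB false b).Nonempty
  · exact h2 c h3 h4 e he
  · have hno : ∀ s ∈ Icc (0:ℝ) 1, onS h'.toFun (E.a e) (E.b e) s ∉ Kc G ω b := fun s hs hK =>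
      he ⟨_, onS_img h' e hs, Kc_sub L b hK⟩
    have hX : ∀ x, x ∉ Xs L h' e b := fun x hx => hno x hx.1 hx.2.1
    exact ⟨fun _ => 0, fun _ => 0, fun x hx => absurd hx (hX x), fun x hx => absurd hx (hX x),
      fun x hx => absurd hx (hX x), fun s hs hK => absurd hK (hno s hs)⟩

/-- the counts of the crossings, weighted with the steps -/
theorem card_wt {b : TBx K} {f : Bool} {e : E.ε} {X : Finset ℝ}
    (hX : (X : Set ℝ) ⊆ cross (onS h'.toFun (E.a e) (E.b e)) b.ax (L.lev b) (G.TB f b)) :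
    (X.card : ℝ≥0∞) * ENNReal.ofReal (δ b) ≤ L.wt h' f e b := by
  have h4 : (X.card : ℝ≥0∞) ≤
      cnt (cross (onS h'.toFun (E.a e) (E.b e)) b.ax (L.lev b) (G.TB f b)) := by
    have h5 : ((X : Set ℝ).encard : ℝ≥0∞) = (X.card : ℝ≥0∞) := by
      rw [Set.encard_coe_eq_coe_finsetCard]; simp
    rw [← h5]
    unfold cnt
    exact_mod_cast encard_le_encard hX
  rw [mul_comm]
  unfold TLv.wt
  exact mul_le_mul' (ENNReal.ofReal_le_ofReal (L.stp_ge b)) h4

/-- **the parameter change of the edges** -/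
theorem exists_parW (hΛ : IsOpen Λ) {c : TBx K → ℝ} (hc0 : ∀ b, 0 < c b)
    (hc : ∀ b, c b ≤ δ b / 8) {κ : V → V}
    (hκ : H345.IsQ (fun b : G₀ => L.bxQ c hc0 hc b.1) κ) (hκc : ContinuousOn κ Λ)
    {g : ConHomeo Ω Λ} (himg : ∀ e, g.toFun '' E.seg e = H579.Pre κ Λ h' (E.seg e))
    (hvert : ∀ x ∈ E.verts, κ (g.toFun x) = h'.toFun x) (e₀ : E.ε) :
    ∃ γ : ℝ → ℝ, MonotoneOn γ (Icc 0 1) ∧ ContinuousOn γ (Icc 0 1) ∧
      MapsTo γ (Icc 0 1) (Icc 0 1) ∧ ∀ t ∈ Icc (0:ℝ) 1,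
        κ (onS g.toFun (E.a e₀) (E.b e₀) t) = onS h'.toFun (E.a e₀) (E.b e₀) (γ t) := by
  have H : H345.Fam Λ (fun b : G₀ => L.bxQ c hc0 hc b.1) :=
    H579.fam_comp (L.fam345 hc0 hc hΛ) Subtype.val_injective
  refine exists_par (E.ne e₀) (E.seg_sub_Ω e₀) hκc (himg e₀)
    (hvert _ (Or.inl ⟨e₀, rfl⟩)) (hvert _ (Or.inr ⟨e₀, rfl⟩)) fun x hx => ?_
  have hxΛ : h'.toFun x ∈ Λ := h'.mapsTo (E.seg_sub_Ω e₀ hx)
  have e1 : {y | y ∈ Λ ∧ κ y = h'.toFun x} = {y | κ y = h'.toFun x} := by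
    ext y
    exact ⟨fun h => h.2, fun h => ⟨hκ.mem_Λ H (by rw [show κ y = _ from h]; exact hxΛ), h⟩⟩
  rw [e1]
  exact (fib_convex hκ H _).isPreconnected

/-- the edges are short -/
theorem osc_edge (hosc : ∀ b ∈ G₀, ∀ k, ∀ x ∈ M.F k, ∀ y ∈ M.F k, h.toFun x ∈ G.TB false b →
      dist (h.toFun x) (h.toFun y) ≤ ω b) (e₀ : E.ε) {b : TBx K} (hb : b ∈ G₀) :
    ∀ x ∈ E.seg e₀, ∀ y ∈ E.seg e₀, h.toFun x ∈ G.TB false b →
      dist (h.toFun x) (h.toFun y) ≤ ω b := by
  intro x hx y hy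
  obtain ⟨k, hk⟩ := E.own e₀
  exact hosc b hb k x (hk hx) y (hk hy)

/-- at most two boxes of `G₀` meet a small set -/
theorem card_boxesG (ω0 : ∀ b, 0 < ω b) (ωo : ∀ b, ω b ≤ oT G b) {X : Set V}
    (hosc : ∀ b ∈ G₀, ∀ x ∈ X, ∀ y ∈ X, h.toFun x ∈ G.TB false b →
      dist (h.toFun x) (h.toFun y) ≤ ω b) (F : Finset (TBx K)) (hFG : ∀ b ∈ F, b ∈ G₀)
    (hF : ∀ b ∈ F, ∃ x ∈ X, h.toFun x ∈ G.TB false b) : F.card ≤ 2 := by
  classical
  have key : F.card ≤ (Finset.univ : Finset Bool).card := by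
    refine Finset.card_le_card_of_injOn (fun b => b.isLeft) (fun _ _ => Finset.mem_univ _) ?_
    intro b hb b' hb' hbb
    obtain ⟨x, hx, hxb⟩ := hF b hb
    obtain ⟨x', hx', hxb'⟩ := hF b' hb'
    have h1 := hosc b (hFG b hb) x hx x' hx' hxb
    have h2 := ωo b
    have h3 := ω0 b
    rcases b with e | q <;> rcases b' with e' | q'
    · congr 1
      by_contra hne
      have h4 : ω (.inl e) ≤ G.oG e := h2
      exact (disjoint_se (W := Wd) hne).notMem_of_mem_left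
        (H238.near_inl G hxb (z := h.toFun x') (by linarith))
        (Ze_subset (TB_subset_Ze e' hxb'))
    · exact absurd hbb (by simp)
    · exact absurd hbb (by simp)
    · congr 1
      have h4 : ω (.inr q) ≤ G.oW q.i := h2
      by_cases hi : q.i = q'.i
      · by_contra hne
        have hs : q.s ≠ q'.s := fun hs => hne (hang_eq hi hs)
        exact (disjoint_ss (W := Wd) hs).notMem_of_mem_left
          (H238.near_inr G hxb (z := h.toFun x') (by linarith) (by linarith))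
          (Zs_subset (TB_subset_Zs q' hxb'))
      · exfalso
        exact (S.U_disj _ _ hi).notMem_of_mem_left
          (H238.near_ball G hxb (z := h.toFun x') (by linarith))
          (H238.near_ball G hxb' (z := h.toFun x') (by
            rw [dist_self]
            have h5 : 0 < oT G (.inr q') := (ω0 _).trans_le (ωo _)
            have h6 : 0 < G.oW q'.i := h5
            linarith))
  simpa using key

include L in
/-- the middle zone -/
theorem tmid_Kc {b : TBx K} {y : V} (hy : y ∈ TMid G b (ω b)) : y ∈ Kc G ω b := by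
  have h0 := L.ω0 b
  refine ⟨?_, fun i hi => ?_⟩
  · have h4 := hy.1 b.ax
    have h5 := hy.2 b.ax
    simp only [if_true] at h4 h5
    exact ⟨h4, h5⟩
  · have h4 := hy.1 i
    have h5 := hy.2 i
    simp only [if_neg hi] at h4 h5
    constructor <;> linarith

theorem tmid_full {c : TBx K → ℝ} (hc0 : ∀ b, 0 < c b) (hc : ∀ b, c b ≤ δ b / 8) {b : TBx K}
    {y : V} (hy : y ∈ TMid G b (ω b)) : (L.bxQ c hc0 hc b).Full y := by
  have h0 := L.ω0 b
  intro i hi
  have hi' : i ≠ b.ax := hi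
  have h4 := hy.1 i
  have h5 := hy.2 i
  simp only [if_neg hi'] at h4 h5
  show G.tlo true b i - 20 * ω b ≤ y i ∧ y i ≤ G.thi true b i + 20 * ω b
  constructor <;> linarith

theorem tmid_Q {c : TBx K → ℝ} (hc0 : ∀ b, 0 < c b) (hc : ∀ b, c b ≤ δ b / 8) {b : TBx K}
    {y : V} (hy : y ∈ (L.bxQ c hc0 hc b).K) :
    (L.bxQ c hc0 hc b).Q y ∈ TMid G b (ω b) ↔ y ∈ TMid G b (ω b) := by
  have h1 := (L.bxQ c hc0 hc b).suppQ.maps hy
  have h2 : ∀ i, i ≠ b.ax → (L.bxQ c hc0 hc b).Q y i = y i := fun i hi =>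
    (L.bxQ c hc0 hc b).Q_ne hi y
  have h3 : G.tlo true b b.ax ≤ y b.ax ∧ y b.ax ≤ G.thi true b b.ax := hy.1
  have h4 : G.tlo true b b.ax ≤ (L.bxQ c hc0 hc b).Q y b.ax ∧
      (L.bxQ c hc0 hc b).Q y b.ax ≤ G.thi true b b.ax := h1.1
  constructor
  · intro h
    refine ⟨fun i => ?_, fun i => ?_⟩
    · by_cases hi : i = b.ax
      · subst hi; simpa using h3.1
      · have h5 := h.1 i
        rw [h2 i hi] at h5
        exact h5
    · by_cases hi : i = b.ax
      · subst hi; simpa using h3.2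
      · have h5 := h.2 i
        rw [h2 i hi] at h5
        exact h5
  · intro h
    refine ⟨fun i => ?_, fun i => ?_⟩
    · by_cases hi : i = b.ax
      · subst hi; simpa using h4.1
      · rw [h2 i hi]; exact h.1 i
    · by_cases hi : i = b.ax
      · subst hi; simpa using h4.2
      · rw [h2 i hi]; exact h.2 i

/-- **(T5) for a general staircase, all edges**, one edge -/
theorem t5S_len (O : TStageW G M h h' Pr W Act₀ G₀ L.lev ω)
    (hosc : ∀ b ∈ G₀, ∀ k, ∀ x ∈ M.F k, ∀ y ∈ M.F k, h.toFun x ∈ G.TB false b →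
      dist (h.toFun x) (h.toFun y) ≤ ω b) (hΛ : IsOpen Λ)
    {a : ℝ} (ha : 0 ≤ a) {ε : ℝ} {e₀ : E.ε}
    {c : TBx K → ℝ} (hc0 : ∀ b, 0 < c b) (hc : ∀ b, c b ≤ δ b / 8)
    (hbands : ∀ b ∈ G₀, ∃ l r, Bands L h' e₀ b (c b) l r) {κ : V → V}
    (hκ : H345.IsQ (fun b : G₀ => L.bxQ c hc0 hc b.1) κ) (hκc : ContinuousOn κ Λ)
    {g : ConHomeo Ω Λ} (himg : ∀ e, g.toFun '' E.seg e = H579.Pre κ Λ h' (E.seg e))
    (hvert : ∀ x ∈ E.verts, κ (g.toFun x) = h'.toFun x) {io : TBx K → ℝ}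
    (hio : ∀ b ∈ G₀, 0 ≤ io b)
    (hsliv : ∀ b ∈ G₀, (h'.toFun '' E.seg e₀ ∩ G.TB false b).Nonempty →
      ENNReal.ofReal (io b) * len (onS h'.toFun (E.a e₀) (E.b e₀)) (Icc 0 1) ≤
        ENNReal.ofReal (ε / 2))
    {f : V → ℝ} (hfc : ContinuousOn f Λ)
    (hf : ∀ b ∈ G₀, (h.toFun '' E.seg e₀ ∩ G.TB false b).Nonempty →
      FEst (L.bxQ c hc0 hc b) (TMid G b (ω b)) f a (δ b) (io b))
    (hfo : FOff (fun b : G₀ => L.bxQ c hc0 hc b.1) Λ f a) :
    eVariationOn (fun t => f (onS g.toFun (E.a e₀) (E.b e₀) t)) (Icc 0 1) ≤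
      ENNReal.ofReal (8 * a) * (∑' b : G₀, L.wt h' false e₀ b.1) +
        ENNReal.ofReal (3 * a) * lenE E h.toFun e₀ + ENNReal.ofReal ε := by
  classical
  have H : H345.Fam Λ (fun b : G₀ => L.bxQ c hc0 hc b.1) :=
    H579.fam_comp (L.fam345 hc0 hc hΛ) Subtype.val_injective
  have hω := L.ω0
  obtain ⟨γ, γm, γc, γI, hγ⟩ := exists_parW L hΛ hc0 hc hκ hκc himg hvert e₀
  have hmemK : ∀ (b : TBx K) y, y ∈ (L.bxQ c hc0 hc b).K ↔ y ∈ Kc G ω b := fun b y =>
    mem_Kc L hc0 hc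
  have hfinG : {b : G₀ | (h.toFun '' E.seg e₀ ∩ G.TB false b.1).Nonempty}.Finite :=
    (fin_boxes (G := G) h e₀).preimage (f := fun b : G₀ => b.1) Subtype.val_injective.injOn
  set Tf : Finset G₀ := hfinG.toFinset with hTf
  have hTf' : ∀ b : G₀, b ∈ Tf ↔ (h.toFun '' E.seg e₀ ∩ G.TB false b.1).Nonempty := fun b => by
    rw [hTf, Finite.mem_toFinset]; rfl
  have hcard : Tf.card ≤ 2 := by
    have h2 : (Tf.map ⟨Subtype.val, Subtype.val_injective⟩).card ≤ 2 := by
      refine card_boxesG (h := h) (G₀ := G₀) hω L.ωo (fun b hb => osc_edge hosc e₀ hb) _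
        (fun b hb => ?_) fun b hb => ?_
      · obtain ⟨b', hb', rfl⟩ := Finset.mem_map.1 hb
        exact b'.2
      · obtain ⟨b', hb', rfl⟩ := Finset.mem_map.1 hb
        obtain ⟨_, ⟨x, hx, rfl⟩, hxb⟩ := (hTf' b').1 hb'
        exact ⟨x, hx, hxb⟩
    rwa [Finset.card_map] at h2
  have hxseg : ∀ s ∈ Icc (0:ℝ) 1, E.a e₀ + s • (E.b e₀ - E.a e₀) ∈ E.seg e₀ := fun s hs =>
    Croft.onS_mem hs
  choose! l r hB1 hB2 hB3 hB4 using fun b : G₀ => hbands b.1 b.2
  set Z : ℝ → V := onS h'.toFun (E.a e₀) (E.b e₀) with hZ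
  set q : ℝ → V := onS h.toFun (E.a e₀) (E.b e₀) with hq
  set X : G₀ → Finset ℝ := fun b => (Xs_finW L O e₀ b.1).toFinset with hX
  have hmX : ∀ (b : G₀) x, x ∈ X b ↔ x ∈ Xs L h' e₀ b.1 := fun b x => by
    rw [hX]; exact Finite.mem_toFinset _
  have hom0 : ∀ b : G₀, 0 < δ b.1 := fun b => L.δ0 b.1
  have hcrv : CrvF (fun b : G₀ => L.bxQ c hc0 hc b.1) (fun b : G₀ => TMid G b.1 (ω b.1)) κ f a
      (fun b => δ b.1) (fun b => io b.1)
      (onS g.toFun (E.a e₀) (E.b e₀)) Z q γ Tf X l r := by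
    refine
      { κon := hκ.on
        κoff := hκ.off
        κmem := fun b y hy => (hκ.mem_iff H).1 hy
        dis := fun b b' hne => ?_
        A0 := ha
        io0 := fun b _ => hio b.1 b.2
        omc := fun b _ => ?_
        fon := fun b hb => (hf b.1 b.2 ((hTf' b).1 hb)).on
        UK := fun b y hy => (hmemK b.1 y).2 (tmid_Kc L hy)
        Uf := fun b y hy => tmid_full L hc0 hc hy
        UQ := fun b y hy => tmid_Q L hc0 hc hy
        ffull := fun b hb => (hf b.1 b.2 ((hTf' b).1 hb)).full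
        fc := hfc.comp (onS_cont g e₀) (onS_maps g e₀)
        foff := fun t ht hno => ?_
        γm := γm
        γc := γc
        γI := γI
        Yc := onS_cont g e₀
        Yi := onS_inj g e₀
        lf := fun t ht => ?_
        eq := hγ
        Zc := onS_cont h' e₀
        mem := fun b s hs hsK => ?_
        fade := fun s hs hno => ?_
        cross := fun b hb s hs hsK hk => ?_
        XK := fun b hb x hx => ?_
        lr := fun b hb x hx => hB1 b x ((hmX b x).1 hx)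
        band := fun b hb s hs hsK hk => ?_ }
    · exact (disjoint_TB (fun hh => hne (Subtype.ext hh))).mono
        (interior_mono (L.K_sub hc0 hc b.1)) (L.K_sub hc0 hc b'.1)
    · have h2 := L.δ0 b.1
      have h3 := hc b.1
      have h4 : (L.bxQ c hc0 hc b.1).c = c b.1 := rfl
      rw [h4]; linarith
    · exact (onS_cont g e₀ t ht).eventually (hfo _ (onS_maps g e₀ ht) hno)
    · obtain ⟨U, hU, hfU⟩ := H.lf _ (onS_maps g e₀ ht)
      have h2 : ∀ᶠ y in 𝓝 (onS g.toFun (E.a e₀) (E.b e₀) t),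
          ∀ b ∈ {b : G₀ | ((L.bxQ c hc0 hc b.1).K ∩ U).Nonempty}, y ∈ (L.bxQ c hc0 hc b.1).K →
          onS g.toFun (E.a e₀) (E.b e₀) t ∈ (L.bxQ c hc0 hc b.1).K := by
        refine (eventually_all_finite hfU).2 fun b _ => ?_
        by_cases hb : onS g.toFun (E.a e₀) (E.b e₀) t ∈ (L.bxQ c hc0 hc b.1).K
        · exact Eventually.of_forall fun _ _ => hb
        · filter_upwards [(L.bxQ c hc0 hc b.1).isCompact_K.isClosed.isOpen_compl.mem_nhds hb]
            with y hy hy'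
          exact absurd hy' hy
      have h3 : ∀ᶠ y in 𝓝 (onS g.toFun (E.a e₀) (E.b e₀) t),
          ∀ b : G₀, y ∈ (L.bxQ c hc0 hc b.1).K →
          onS g.toFun (E.a e₀) (E.b e₀) t ∈ (L.bxQ c hc0 hc b.1).K := by
        filter_upwards [h2, hU] with y hy hyU b hb
        exact hy b ⟨y, hb, hyU⟩ hb
      exact (onS_cont g e₀ t ht).eventually h3
    · rw [hTf']
      have h2 : Z s ∈ G.TB false b.1 := L.K_sub hc0 hc b.1 hsK
      have h3 := (O.mem b.1 _ (E.seg_sub_Ω e₀ (hxseg s hs))).1 h2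
      exact ⟨_, ⟨_, hxseg s hs, rfl⟩, h3⟩
    · have hxΩ := E.seg_sub_Ω e₀ (hxseg s hs)
      have h2 := O.off' _ hxΩ (fun b hbG hb => hno ⟨b, hbG⟩ ((O.memM b _ hxΩ).2 hb))
      have h3 : ContinuousAt (fun s : ℝ => E.a e₀ + s • (E.b e₀ - E.a e₀)) s := by fun_prop
      exact mem_nhdsWithin_of_mem_nhds (h3.eventually h2)
    · rw [hmX]
      refine ⟨hs, (hmemK b.1 _).1 hsK, ?_⟩
      obtain ⟨k, hk, hk'⟩ := hk
      exact ⟨k, hk, hk'⟩
    · exact (hmemK b.1 _).2 ((hmX b x).1 hx).2.1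
    · obtain ⟨k, hk, hk'⟩ := hk
      obtain ⟨x, hx, h2⟩ := hB4 b s hs ((hmemK b.1 _).1 hsK) ⟨k, hk, hk'⟩
      exact ⟨x, (hmX b x).2 hx, h2⟩
  have key := hcrv.evar_le
  have hlen : lenE E h.toFun e₀ = len q (Icc 0 1) := rfl
  rw [hlen]
  refine key.trans ?_
  set ℓ := len q (Icc 0 1) with hℓ
  -- one box
  have hone : ∀ b ∈ Tf, ENNReal.ofReal (io b.1) *
        eVariationOn (fun s => Z s (L.bxQ c hc0 hc b.1).j) (Icc 0 1) +
      ∑ x ∈ X b, ENNReal.ofReal (2 * a * CrvF.P (fun b : G₀ => L.bxQ c hc0 hc b.1)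
          (fun b => δ b.1) b) *
        (eVariationOn (fun s => Z s (L.bxQ c hc0 hc b.1).j) (Icc (l b x) (r b x)) +
        eVariationOn (fun s => mB (L.bxQ c hc0 hc b.1) (Z s)) (Icc (l b x) (r b x))) ≤
      ENNReal.ofReal (ε / 2) + ENNReal.ofReal (6 * a) * ((X b).card * ENNReal.ofReal (δ b.1)) := by
    intro b hb
    have hbne : (h'.toFun '' E.seg e₀ ∩ G.TB false b.1).Nonempty := by
      obtain ⟨_, ⟨x, hx, rfl⟩, hxb⟩ := (hTf' b).1 hb
      exact ⟨_, ⟨x, hx, rfl⟩, (O.mem b.1 x (E.seg_sub_Ω e₀ hx)).2 hxb⟩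
    refine add_le_add ?_ ?_
    · refine le_trans ?_ (hsliv b.1 b.2 hbne)
      gcongr
      exact evar_coord_le_len _ _ _
    · -- the bands
      have hcb := hc0 b.1
      have h2 : ∀ x ∈ X b, ENNReal.ofReal (2 * a * CrvF.P (fun b : G₀ => L.bxQ c hc0 hc b.1)
          (fun b => δ b.1) b) *
          (eVariationOn (fun s => Z s (L.bxQ c hc0 hc b.1).j) (Icc (l b x) (r b x)) +
          eVariationOn (fun s => mB (L.bxQ c hc0 hc b.1) (Z s)) (Icc (l b x) (r b x))) ≤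
          ENNReal.ofReal (6 * a) * ENNReal.ofReal (δ b.1) := by
        intro x hx
        have hx' := (hmX b x).1 hx
        have h3 := hB2 b x hx'
        have h4 := hB3 b x hx'
        have hP : CrvF.P (fun b : G₀ => L.bxQ c hc0 hc b.1) (fun b => δ b.1) b =
          δ b.1 / (2 * c b.1) := rfl
        have hP0 : 0 ≤ 2 * a * (δ b.1 / (2 * c b.1)) := by
          have := hom0 b
          positivity
        rw [hP]
        calc _ ≤ ENNReal.ofReal (2 * a * (δ b.1 / (2 * c b.1))) *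
              (ENNReal.ofReal (4 * c b.1) + ENNReal.ofReal (2 * c b.1)) :=
              mul_le_mul_right (add_le_add h3 h4) _
          _ = ENNReal.ofReal (6 * a * δ b.1) := by
              rw [← ENNReal.ofReal_add (by positivity) (by positivity),
                ← ENNReal.ofReal_mul hP0]
              congr 1
              field_simp
              ring
          _ = _ := ENNReal.ofReal_mul (by positivity)
      refine (Finset.sum_le_sum h2).trans (le_of_eq ?_)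
      rw [Finset.sum_const, nsmul_eq_mul]
      ring
  -- the counts
  have hcnt : ∑ b ∈ Tf, ((X b).card : ℝ≥0∞) * ENNReal.ofReal (δ b.1) ≤
      ∑' b : G₀, L.wt h' false e₀ b.1 := by
    refine (Finset.sum_le_sum fun b _ => ?_).trans (ENNReal.sum_le_tsum Tf)
    refine card_wt L (f := false) (e := e₀) ?_
    intro x hx
    exact Xs_sub L e₀ b.1 ((hmX b x).1 hx)
  have hsum := (Finset.sum_le_sum hone).trans (le_of_eq (show
      ∑ b ∈ Tf, (ENNReal.ofReal (ε / 2) +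
        ENNReal.ofReal (6 * a) * ((X b).card * ENNReal.ofReal (δ b.1))) =
      (Tf.card : ℝ≥0∞) * ENNReal.ofReal (ε / 2) +
        ENNReal.ofReal (6 * a) * ∑ b ∈ Tf, ((X b).card : ℝ≥0∞) * ENNReal.ofReal (δ b.1) by
    rw [Finset.sum_add_distrib, Finset.sum_const, ← Finset.mul_sum, nsmul_eq_mul]))
  have hcard' : (Tf.card : ℝ≥0∞) * ENNReal.ofReal (ε / 2) ≤ ENNReal.ofReal ε := by
    calc (Tf.card : ℝ≥0∞) * ENNReal.ofReal (ε / 2) ≤ ENNReal.ofReal 2 * ENNReal.ofReal (ε / 2) := by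
          gcongr
          rw [ENNReal.ofReal_ofNat]
          exact_mod_cast hcard
      _ = ENNReal.ofReal ε := by
          rw [← ENNReal.ofReal_mul (by norm_num)]
          congr 1; ring
  have hq3 : ∑ i, ENNReal.ofReal a * eVariationOn (fun s => q s i) (Icc 0 1) ≤
      ENNReal.ofReal (3 * a) * ℓ := by
    calc ∑ i, ENNReal.ofReal a * eVariationOn (fun s => q s i) (Icc 0 1)
        ≤ ∑ _i : Fin 3, ENNReal.ofReal a * ℓ := by
          refine Finset.sum_le_sum fun i _ => ?_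
          gcongr
          exact evar_coord_le_len _ _ _
      _ = _ := by
          rw [Finset.sum_const, Finset.card_univ, Fintype.card_fin, nsmul_eq_mul,
            ENNReal.ofReal_mul (by norm_num)]
          simp [mul_assoc]
  have hcr : ∑ b ∈ Tf, ((X b).card : ℝ≥0∞) * ENNReal.ofReal (2 * a * δ b.1) =
      ENNReal.ofReal (2 * a) * ∑ b ∈ Tf, ((X b).card : ℝ≥0∞) * ENNReal.ofReal (δ b.1) := by
    rw [Finset.mul_sum]
    refine Finset.sum_congr rfl fun b _ => ?_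
    rw [ENNReal.ofReal_mul (by positivity)]
    ring
  rw [hcr]
  set s := ∑ b ∈ Tf, ((X b).card : ℝ≥0∞) * ENNReal.ofReal (δ b.1)
  calc _ ≤ ENNReal.ofReal (2 * a) * s + (ENNReal.ofReal (3 * a) * ℓ +
        (ENNReal.ofReal ε + ENNReal.ofReal (6 * a) * s)) := by
        gcongr
        exact hsum.trans (add_le_add hcard' le_rfl)
    _ = ENNReal.ofReal (8 * a) * s + ENNReal.ofReal (3 * a) * ℓ + ENNReal.ofReal ε := by
        have e8 : ENNReal.ofReal (8 * a) = ENNReal.ofReal (2 * a) + ENNReal.ofReal (6 * a) := by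
          rw [← ENNReal.ofReal_add (by positivity) (by positivity)]
          congr 1; ring
        rw [e8]; ring
    _ ≤ _ := by gcongr

end

end Vale.Agent.P073.H581
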