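import Vale.Agent.P073.H581.T5Sc
import Vale.Agent.P073.H236.SA1

/-!
# P073, ROUND T for `K3C`, (T5): one variable, the clamped staircase

The end zones of the windows are not filled, so only the coordinate clamped to the interior of the
window has a small variation.
-/

open Set Metric Topology Filter
open scoped ENNReal

namespace Vale.Agent.P073.H581

open _root_.P073 _root_.P073.H236

variable {N : ℕ} {a : ℕ → ℝ} {c al be t₀ om e : ℝ}

theorem abs_clamp_sub_le (l r s t : ℝ) : |clamp l r s - clamp l r t| ≤ |s - t| := by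
  have h1 : |max l (min r s) - max l (min r t)| ≤ |min r s - min r t| := by
    have := abs_max_sub_max_le_max l (min r s) l (min r t)
    simpa using this
  have h2 : |min r s - min r t| ≤ |s - t| := by
    have := abs_min_sub_min_le_max r s r t
    simpa using this
  exact h1.trans h2

/-- the flats are inside the clamping window -/
theorem fl_clamp {b l r : ℝ} (hc : 0 ≤ c) (h1 : l ≤ b - c) (h2 : b + c ≤ r) (t : ℝ) :
    fl c b (clamp l r t) = fl c b t := by
  unfold clamp
  rcases le_total t l with h | h
  · have hlr : l ≤ r := by linarith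
    rw [min_eq_right (h.trans hlr), max_eq_left h, fl_of_le h1, fl_of_le (h.trans h1)]
  · rcases le_total t r with h' | h'
    · rw [min_eq_right h', max_eq_right h]
    · have hlr : l ≤ r := by linarith
      rw [min_eq_left h', max_eq_right hlr, fl_of_ge hc h2, fl_of_ge hc (h2.trans h')]

/-- **the clamped staircase** -/
theorem abs_clamp_stair_le {B : BX 3} (h' : Tgt B.N B.al B.be t₀ om e) {f : ℝ → ℝ} {q lo hi : ℝ}
    (hq : 0 ≤ q) (hf : ∀ s t, |f s - f t| ≤ q * |s - t|) (hm : Monotone f)
    (hlo : f (t₀ + e) ≤ lo) (hhi : hi ≤ f (t₀ + B.N * om - e)) (s t : ℝ) :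
    |clamp lo hi (f (H236.sm B.N B.a B.c B.al B.be t₀ om e s)) -
      clamp lo hi (f (H236.sm B.N B.a B.c B.al B.be t₀ om e t))| ≤
      q * ((om - 2 * e) / (2 * B.c) * wfl B s t) + q * (e / B.c) * |s - t| := by
  have hL := B.lvs
  have hc := hL.c0
  have hN := hL.pos
  set l := B.a 0 - B.c with hl
  set r := B.a (B.N - 1) + B.c with hr
  set σ := H236.sm B.N B.a B.c B.al B.be t₀ om e with hσ
  have hσm : Monotone σ := (sm_strictMono hL h').monotone
  have hak : ∀ k < B.N, l ≤ B.a k - B.c ∧ B.a k + B.c ≤ r := by
    intro k hk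
    constructor
    · have h1 : B.a 0 ≤ B.a k := by
        rcases Nat.eq_zero_or_pos k with rfl | h2
        · exact le_rfl
        · have := hL.add_le h2 hk
          linarith
      linarith
    · have h1 : B.a k ≤ B.a (B.N - 1) := by
        rcases (show k ≤ B.N - 1 by omega).eq_or_lt with h2 | h2
        · rw [h2]
        · have := hL.add_le h2 (by omega)
          linarith
      linarith
  have hlr : l ≤ r := by
    have := hak 0 hN
    linarith
  have e1 : σ l = t₀ + e := by
    rw [hσ, hl, H236.sm_flat hL hN (t := B.a 0 - B.c) (by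
      rw [show B.a 0 - B.c - B.a 0 = -B.c by ring, abs_neg, abs_of_pos hc])]
    push_cast; ring
  have e2 : σ r = t₀ + B.N * om - e := by
    rw [hσ, hr, H236.sm_flat hL (k := B.N - 1) (by omega) (t := B.a (B.N - 1) + B.c) (by
      rw [show B.a (B.N - 1) + B.c - B.a (B.N - 1) = B.c by ring, abs_of_pos hc])]
    rw [Nat.cast_sub hN]
    push_cast
    field_simp
    ring
  have key : ∀ s, clamp lo hi (f (σ s)) = clamp lo hi (f (σ (clamp l r s))) := by
    intro s
    rcases le_total s l with h | h
    · have h3 : clamp l r s = l := by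
        unfold clamp; rw [min_eq_right (h.trans hlr), max_eq_left h]
      have h4 : f (σ s) ≤ lo := (hm (hσm h)).trans (by rw [e1]; exact hlo)
      have h5 : f (σ l) ≤ lo := by rw [e1]; exact hlo
      rw [h3]
      unfold clamp
      rw [max_eq_left ((min_le_right _ _).trans h4), max_eq_left ((min_le_right _ _).trans h5)]
    · rcases le_total s r with h' | h'
      · rw [show clamp l r s = s by unfold clamp; rw [min_eq_right h', max_eq_right h]]
      · have h3 : clamp l r s = r := by
          unfold clamp; rw [min_eq_left h', max_eq_right hlr]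
        have h5 : hi ≤ f (σ r) := by rw [e2]; exact hhi
        have h4 : hi ≤ f (σ s) := h5.trans (hm (hσm h'))
        rw [h3]
        unfold clamp
        rw [min_eq_left h4, min_eq_left h5]
  have hmem : ∀ s, clamp l r s ∈ Icc l r := fun s =>
    ⟨le_max_left _ _, max_le hlr (min_le_left _ _)⟩
  rw [key s, key t]
  refine (abs_clamp_sub_le _ _ _ _).trans ((hf _ _).trans ?_)
  have h1 := abs_sm_sub_le_fl hL h' (hmem s) (hmem t)
  have h2 : |∑ b ∈ hL.L, fl B.c b (clamp l r s) - ∑ b ∈ hL.L, fl B.c b (clamp l r t)| ≤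
      wfl B s t := by
    rw [hL.sum_L, hL.sum_L, ← Finset.sum_sub_distrib]
    refine (Finset.abs_sum_le_sum_abs _ _).trans (le_of_eq ?_)
    refine Finset.sum_congr rfl fun k hk => ?_
    have h3 := hak k (Finset.mem_range.1 hk)
    rw [fl_clamp hc.le h3.1 h3.2, fl_clamp hc.le h3.1 h3.2]
  have h3 := abs_clamp_sub_le l r s t
  have hom : 0 ≤ (om - 2 * e) / (2 * B.c) := div_nonneg (by linarith [h'.eo]) (by linarith)
  have hec : 0 ≤ e / B.c := div_nonneg h'.e0.le hc.le
  calc q * |σ (clamp l r s) - σ (clamp l r t)|
      ≤ q * ((om - 2 * e) / (2 * B.c) * wfl B s t + e / B.c * |s - t|) := by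
        refine mul_le_mul_of_nonneg_left (h1.trans ?_) hq
        gcongr
    _ = _ := by ring

end Vale.Agent.P073.H581
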