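import Vale.Agent.P073.H581.T5Sd
import Vale.Agent.P073.H196.PStair

/-!
# P073, ROUND T for `K3C`, (T5): the clamped level coordinate, all edges

`StF` = what is used about the staircase `S`. `exists_t5F` = (T5) for `S ∘ g`.
-/

open Set Metric Topology Filter
open scoped ENNReal

namespace Vale.Agent.P073.H581

open _root_.P073 _root_.P073.TR _root_.P073.Net _root_.P073.PA691 _root_.P073.H196
open _root_.P073.PR720 (LF)
open Vale.Agent.P073.St (V)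
open Vale.Agent.P073.H471 Vale.Agent.P073.H267 Vale.Agent.P073.H267.Geo
open Vale.Agent.P073.H73 (Mesh)
open Vale.Agent.P073.H193 (Edges)
open Vale.Agent.P073.H238 (oT marg TAct TProt skel TMid)
open _root_.P073.Croft (Cells Crs levs Generic onS cross varIn TransAt SepL)
open _root_.P073.H236 (BX Lvs BFam stp dsp bmp qm rtK rtK_mono rtK_sub bxQ_K Tgt)
open Vale.Agent.P073.H579 (TStageW)
open _root_.P073.H669 (mem_TB TB_sub_false)
open Vale.Agent.P073.H669 (TLv)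
open _root_.P073.H267 (tvE lenE)

/-- near a point: a common box, or both points fixed -/
theorem vrt_local {ι : Type*} {j : ι → Fin 3} {al be : ι → ℝ} {lo hi : ι → Fin 3 → ℝ} {Λ : Set V}
    {F : V → V} {φ : ι → V → ℝ → ℝ} (H : Vrt F j al be lo hi φ) (hΛ : IsOpen Λ)
    (hF : ContinuousOn F Λ)
    (lf : ∀ z ∈ Λ, ∃ U ∈ 𝓝 z, {b | (bigBox (j b) (al b) (be b) (lo b) (hi b) ∩ U).Nonempty}.Finite)
    {y : V} (hy : y ∈ Λ) :
    ∀ᶠ y' in 𝓝 y, (∃ b, y ∈ bigBox (j b) (al b) (be b) (lo b) (hi b) ∧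
      y' ∈ bigBox (j b) (al b) (be b) (lo b) (hi b)) ∨ (F y' = y' ∧ F y = y) := by
  classical
  set P : ι → Set V := fun b => bigBox (j b) (al b) (be b) (lo b) (hi b) with hP
  obtain ⟨U, hU, hfin⟩ := lf y hy
  have hev : ∀ᶠ y' in 𝓝 y, ∀ b, y' ∈ P b → y ∈ P b := by
    have h1 : ∀ b ∈ {b | (P b ∩ U).Nonempty}, ∀ᶠ y' in 𝓝 y, y' ∈ P b → y ∈ P b := by
      intro b _
      by_cases hb : y ∈ P b
      · exact Eventually.of_forall fun _ _ => hb
      · have h2 : (P b)ᶜ ∈ 𝓝 y := (isClosed_bigBox _ _ _ _ _).isOpen_compl.mem_nhds hb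
        filter_upwards [h2] with y' hy' hy''
        exact absurd hy'' hy'
    have h2 := (hfin.eventually_all).2 h1
    filter_upwards [h2, hU] with y' h3 hyU b hb
    exact h3 b ⟨y', hb, hyU⟩ hb
  by_cases hcl : ∀ᶠ y' in 𝓝 y, ∃ b, y' ∈ P b
  · filter_upwards [hev, hcl] with y' h1 ⟨b, hb⟩
    exact Or.inl ⟨b, h1 b hb, hb⟩
  · have hfr : ∃ᶠ y' in 𝓝 y, ∀ b, y' ∉ P b := by
      intro hcon
      exact hcl (hcon.mono fun y' h => by push Not at h; exact h)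
    have hGy : F y = y := by
      have hc : ContinuousAt F y := hF.continuousAt (hΛ.mem_nhds hy)
      by_contra hne
      have h3 : ∀ᶠ y' in 𝓝 y, F y' ≠ y' := by
        have h4 : Tendsto (fun y' => (F y', y')) (𝓝 y) (𝓝 (F y, y)) := hc.prodMk_nhds tendsto_id
        have h5 : {p : V × V | p.1 ≠ p.2} ∈ 𝓝 (F y, y) :=
          (isOpen_ne_fun continuous_fst continuous_snd).mem_nhds hne
        exact h4 h5
      obtain ⟨y', h4, h5⟩ := (hfr.and_eventually h3).exists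
      exact h5 (H.off y' h4)
    filter_upwards [hev] with y' h1
    by_cases hb : ∃ b, y' ∈ P b
    · obtain ⟨b, hb⟩ := hb
      exact Or.inl ⟨b, h1 b hb, hb⟩
    · push Not at hb
      exact Or.inr ⟨H.off y' hb, hGy⟩

/-- the insertion map is continuous -/
theorem isQ_cont {γ : Type*} {Λ : Set V} {B : γ → BX 3} (H : H345.Fam Λ B) {κ : V → V}
    (hκ : H345.IsQ B κ) : ContinuousOn κ Λ := by
  obtain ⟨κ₀, h1, h2, -⟩ := H.exists_isQ
  have h3 : κ = κ₀ := by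
    funext y
    by_cases hy : ∃ g, y ∈ (B g).K
    · obtain ⟨g, hg⟩ := hy
      rw [hκ.on g y hg, h1.on g y hg]
    · push Not at hy
      rw [hκ.off y hy, h1.off y hy]
  rw [h3]
  exact h2.cont

variable {Ω Λ : Set V} {v : V} {K : BoxCx Λ v} {S₀ : Rad K} {Wd : Wid K S₀} {B : Boxes Wd}
  {G : Geo B} {M : Mesh Ω} {E : Edges M} {h h' : ConHomeo Ω Λ} {ω : TBx K → ℝ}
  {T : TBx K → Finset (ℝ × ℝ)} {η : ℝ} {τ₀ : Type*} {A₀ : τ₀ → Set V} {C : Set ℝ} {εE : E.ε → ℝ}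
  {δ : TBx K → ℝ} {Pr W : Set M.ι} {Act₀ : Set M.κ} {G₀ : Set (TBx K)}

section

variable (L : TLv G E h ω T η A₀ C εE δ) {c : TBx K → ℝ} (hc0 : ∀ b, 0 < c b)
  (hc : ∀ b, c b ≤ δ b / 8)

/-- **what is used about the staircase**: `S` vertical in the boxes `rtK b 60`; weights
`A δ / 2 c` in the flats, `A` elsewhere; in `rtK b 12` the stair of the uniform cells and then a
`q`-Lipschitz map `τ` with displacement `d` -/
structure StF (G₀ : Set (TBx K)) (e : TBx K → ℝ) (S : ConHomeo Λ Λ) (φ : G₀ → V → ℝ → ℝ) (A : ℝ)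
    (τ : G₀ → ℝ → ℝ) (q d : G₀ → ℝ) : Prop where
  vrt : Vrt S.toFun (fun b : G₀ => b.1.ax) (fun b => G.tlo true b.1 b.1.ax)
    (fun b => G.thi true b.1 b.1.ax) (fun b i => G.tlo true b.1 i - 60 * ω b.1)
    (fun b i => G.thi true b.1 i + 60 * ω b.1) φ
  on : ∀ b : G₀, ∀ y ∈ rtK G ω b.1 60, ∀ y' ∈ rtK G ω b.1 60,
    |φ b y (y b.1.ax) - φ b y' (y' b.1.ax)| ≤ A * (‖y - y'‖ +
      δ b.1 / (2 * c b.1) * wfl (L.bxQ c hc0 hc b.1) (y b.1.ax) (y' b.1.ax))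
  out : ∀ b : G₀, ∀ y ∈ rtK G ω b.1 60, ∀ y' ∈ rtK G ω b.1 60, y ∉ rtK G ω b.1 20 →
    y' ∉ rtK G ω b.1 20 → |φ b y (y b.1.ax) - φ b y' (y' b.1.ax)| ≤ A * ‖y - y'‖
  full : ∀ b : G₀, ∀ y ∈ rtK G ω b.1 12, φ b y (y b.1.ax) =
    τ b (_root_.P073.H236.sm (L.N b.1) (L.a b.1) (c b.1) (G.tlo true b.1 b.1.ax)
      (G.thi true b.1 b.1.ax) (G.tlo true b.1 b.1.ax + 30 * ω b.1) (δ b.1) (e b.1) (y b.1.ax))
  mono : ∀ b, Monotone (τ b)
  lip : ∀ b s t, |τ b s - τ b t| ≤ q b * |s - t|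
  near : ∀ b t, |τ b t - t| ≤ d b
  q0 : ∀ b, 0 ≤ q b
  num : ∀ b : G₀, dsp (T b.1) (δ b.1) + e b.1 + d b ≤ 20 * ω b.1

theorem bigBox_rtK' (b : TBx K) : bigBox b.ax (G.tlo true b b.ax) (G.thi true b b.ax)
    (fun i => G.tlo true b i - 60 * ω b) (fun i => G.thi true b i + 60 * ω b) = rtK G ω b 60 := rfl

theorem tmid_rtK (b : TBx K) : TMid G b (ω b) = rtK G ω b 10 := by
  ext y
  constructor
  · intro hy
    refine ⟨?_, fun i hi => ?_⟩
    · have h4 := hy.1 b.ax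
      have h5 := hy.2 b.ax
      simp only [if_true] at h4 h5
      exact ⟨h4, h5⟩
    · have h4 := hy.1 i
      have h5 := hy.2 i
      simp only [if_neg hi] at h4 h5
      exact ⟨h4, h5⟩
  · rintro ⟨h1, h2⟩
    refine ⟨fun i => ?_, fun i => ?_⟩
    · by_cases hi : i = b.ax
      · subst hi; simpa using h1.1
      · simpa [hi] using (h2 i hi).1
    · by_cases hi : i = b.ax
      · subst hi; simpa using h1.2
      · simpa [hi] using (h2 i hi).2

variable {L hc0 hc}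

namespace StF

variable {e : TBx K → ℝ} {S : ConHomeo Λ Λ} {φ : G₀ → V → ℝ → ℝ} {A : ℝ} {τ : G₀ → ℝ → ℝ}
  {q d : G₀ → ℝ} (X : StF L hc0 hc G₀ e S φ A τ q d)
include X

theorem val {b : G₀} {y : V} (hy : y ∈ rtK G ω b.1 60) :
    S.toFun y b.1.ax = φ b y (y b.1.ax) := by
  rw [X.vrt.on b y hy, Function.update_self]

theorem val_ne {b : G₀} {y : V} (hy : y ∈ rtK G ω b.1 60) {i : Fin 3} (hi : i ≠ b.1.ax) :
    S.toFun y i = y i := by
  rw [X.vrt.on b y hy, Function.update_of_ne hi]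

/-- **the clamped stair in the zone `rtK 12`** -/
theorem sharp (he : ∀ b, 0 < e b) (he2 : ∀ b, 2 * e b < δ b) {b : G₀} {lo hi : ℝ}
    (hlo : G.tlo true b.1 b.1.ax + 50 * ω b.1 ≤ lo) (hhi : hi ≤ G.thi true b.1 b.1.ax - 50 * ω b.1)
    {y y' : V} (hy : y ∈ rtK G ω b.1 12) (hy' : y' ∈ rtK G ω b.1 12) :
    |clamp lo hi (S.toFun y b.1.ax) - clamp lo hi (S.toFun y' b.1.ax)| ≤
      q b * ((δ b.1 - 2 * e b.1) / (2 * (L.bxQ c hc0 hc b.1).c) *
        wfl (L.bxQ c hc0 hc b.1) (y (L.bxQ c hc0 hc b.1).j) (y' (L.bxQ c hc0 hc b.1).j)) +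
      q b * (e b.1 / c b.1) *
        |y (L.bxQ c hc0 hc b.1).j - y' (L.bxQ c hc0 hc b.1).j| := by
  have hω := L.ω0 b.1
  have h60 := rtK_mono L (b := b.1) (show (12:ℝ) ≤ 60 by norm_num)
  rw [X.val (h60 hy), X.val (h60 hy'), X.full b y hy, X.full b y' hy']
  have hT : Tgt (L.N b.1) (G.tlo true b.1 b.1.ax) (G.thi true b.1 b.1.ax)
      (G.tlo true b.1 b.1.ax + 30 * ω b.1) (δ b.1) (e b.1) :=
    Tgt.of_cells (L.cells b.1) (he b.1) (he2 b.1) (by linarith) (by linarith)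
  refine abs_clamp_stair_le (B := L.bxQ c hc0 hc b.1) hT (X.q0 b) (X.lip b) (X.mono b) ?_ ?_ _ _
  · have h1 := (abs_le.1 (X.near b (G.tlo true b.1 b.1.ax + 30 * ω b.1 + e b.1))).2
    have h2 := X.num b
    have h3 := L.dsp_nonneg b.1
    linarith
  · have h1 := (abs_le.1 (X.near b (G.tlo true b.1 b.1.ax + 30 * ω b.1 +
      (L.N b.1 : ℝ) * δ b.1 - e b.1))).1
    have h2 := X.num b
    have h3 := (L.cells b.1).le_num
    have h4 : dsp (T b.1) (δ b.1) = ∑ p ∈ T b.1, (p.2 - p.1) + (2 * (T b.1).card + 1) * δ b.1 := by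
      unfold dsp; ring
    show hi ≤ τ b (G.tlo true b.1 b.1.ax + 30 * ω b.1 + (L.N b.1 : ℝ) * δ b.1 - e b.1)
    linarith

/-- **the estimates in the box** -/
theorem fest (hA : 0 ≤ A) (hq : ∀ b, q b ≤ A) (he : ∀ b, 0 < e b) (he2 : ∀ b, 2 * e b < δ b)
    (b : G₀) {lo hi : ℝ} (hlo : G.tlo true b.1 b.1.ax + 50 * ω b.1 ≤ lo)
    (hhi : hi ≤ G.thi true b.1 b.1.ax - 50 * ω b.1) :
    FEst (L.bxQ c hc0 hc b.1) (TMid G b.1 (ω b.1)) (fun y => clamp lo hi (S.toFun y b.1.ax)) A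
      (δ b.1) (A * (e b.1 / c b.1)) where
  on := fun y hy y' hy' => by
    rw [bxQ_K L hc0 hc] at hy hy'
    have h60 := rtK_mono L (b := b.1) (show (40:ℝ) ≤ 60 by norm_num)
    refine (abs_clamp_sub_le _ _ _ _).trans ?_
    rw [X.val (h60 hy), X.val (h60 hy')]
    exact X.on b y (h60 hy) y' (h60 hy')
  full := fun y hy y' hy' => by
    rw [tmid_rtK] at hy hy'
    have h12 := rtK_mono L (b := b.1) (show (10:ℝ) ≤ 12 by norm_num)
    refine (X.sharp he he2 hlo hhi (h12 hy) (h12 hy')).trans ?_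
    have h1 := hq b
    have h2 := X.q0 b
    have hcb : 0 < (L.bxQ c hc0 hc b.1).c := hc0 b.1
    have h3 : 0 ≤ wfl (L.bxQ c hc0 hc b.1) (y (L.bxQ c hc0 hc b.1).j)
      (y' (L.bxQ c hc0 hc b.1).j) := wfl_nonneg
    have h4 : 0 ≤ e b.1 / c b.1 := div_nonneg (he _).le (hc0 _).le
    have h5 := he b.1
    have h6 := he2 b.1
    have h7 : 0 ≤ (δ b.1 - 2 * e b.1) / (2 * (L.bxQ c hc0 hc b.1).c) :=
      div_nonneg (by linarith) (by linarith)
    have h8 : (δ b.1 - 2 * e b.1) / (2 * (L.bxQ c hc0 hc b.1).c) ≤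
        δ b.1 / (2 * (L.bxQ c hc0 hc b.1).c) := by
      gcongr
      linarith
    refine add_le_add ?_ ?_
    · exact mul_le_mul h1 (mul_le_mul_of_nonneg_right h8 h3) (mul_nonneg h7 h3) hA
    · exact mul_le_mul_of_nonneg_right (mul_le_mul_of_nonneg_right h1 h4) (abs_nonneg _)

/-- **the estimate off the boxes** -/
theorem foff (hA : 1 ≤ A) (hΛ : IsOpen Λ) (j' : Fin 3) (lo hi : ℝ) :
    FOff (fun b : G₀ => L.bxQ c hc0 hc b.1) Λ (fun y => clamp lo hi (S.toFun y j')) A := by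
  intro y hy _
  have hlf : ∀ z ∈ Λ, ∃ U ∈ 𝓝 z, {b : G₀ | (rtK G ω b.1 60 ∩ U).Nonempty}.Finite := by
    intro z hz
    obtain ⟨U, hU, hf⟩ := lf_TB G z hz
    refine ⟨U, hU, (hf.preimage (f := fun b : G₀ => b.1) Subtype.val_injective.injOn).subset ?_⟩
    rintro b ⟨x, hx, hxU⟩
    exact ⟨x, rtK_sub L (u := 60) (by norm_num) hx, hxU⟩
  have h1 := vrt_local X.vrt hΛ S.cont hlf hy
  -- the boxes near the point
  have h2 : ∀ᶠ y' in 𝓝 y, ∀ b : G₀, y' ∈ rtK G ω b.1 60 → y ∈ rtK G ω b.1 20 →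
      y' ∈ rtK G ω b.1 40 := by
    obtain ⟨U, hU, hf⟩ := hlf y hy
    have h3 : ∀ᶠ y' in 𝓝 y, ∀ b ∈ {b : G₀ | (rtK G ω b.1 60 ∩ U).Nonempty},
        y' ∈ rtK G ω b.1 60 → y ∈ rtK G ω b.1 20 → y' ∈ rtK G ω b.1 40 := by
      refine (eventually_all_finite hf).2 fun b _ => ?_
      have hω := L.ω0 b.1
      filter_upwards [Metric.closedBall_mem_nhds y hω] with y' hy' h4 h5
      rw [mem_closedBall, dist_pi_le_iff hω.le] at hy'
      refine ⟨h4.1, fun i hi => ?_⟩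
      have h6 := hy' i
      rw [Real.dist_eq] at h6
      obtain ⟨h7, h8⟩ := abs_le.1 h6
      obtain ⟨h9, h10⟩ := h5.2 i hi
      constructor <;> linarith
    filter_upwards [h3, hU] with y' h4 hyU b hb
    exact h4 b ⟨y', hb, hyU⟩ hb
  filter_upwards [h1, h2] with y' h3 h4 hno
  refine (abs_clamp_sub_le _ _ _ _).trans ?_
  have hcoord : ∀ i, |y i - y' i| ≤ ‖y - y'‖ := fun i => by
    rw [← Pi.sub_apply, ← Real.norm_eq_abs]; exact norm_le_pi_norm _ i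
  have hAy : ‖y - y'‖ ≤ A * ‖y - y'‖ := le_mul_of_one_le_left (norm_nonneg _) hA
  rcases h3 with ⟨b, hb, hb'⟩ | ⟨h5, h6⟩
  · have hb1 : y ∈ rtK G ω b.1 60 := hb
    have hb2 : y' ∈ rtK G ω b.1 60 := hb'
    by_cases hj : j' = b.1.ax
    · subst hj
      rw [X.val hb1, X.val hb2]
      have h40 : y' ∉ rtK G ω b.1 40 := fun h => hno b (by rw [bxQ_K L hc0 hc]; exact h)
      refine X.out b y hb1 y' hb2 (fun h => h40 (h4 b hb2 h)) fun h => h40 ?_
      exact rtK_mono L (by norm_num) h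
    · rw [X.val_ne hb1 hj, X.val_ne hb2 hj]
      exact (hcoord _).trans hAy
  · rw [h5, h6]
    exact (hcoord _).trans hAy

end StF

/-- constant functions on a box -/
theorem FEst.const {B : BX 3} {U : Set V} {f : V → ℝ} {A om io : ℝ} (hA : 0 ≤ A) (hom : 0 ≤ om)
    (hio : 0 ≤ io) (hU : U ⊆ B.K) (hf : ∀ y ∈ B.K, ∀ y' ∈ B.K, f y = f y') :
    FEst B U f A om io := by
  have hc := B.lvs.c0
  have h1 : ∀ y y' : V, 0 ≤ om / (2 * B.c) * wfl B (y B.j) (y' B.j) := fun y y' =>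
    mul_nonneg (div_nonneg hom (by linarith)) wfl_nonneg
  refine ⟨fun y hy y' hy' => ?_, fun y hy y' hy' => ?_⟩
  · rw [hf y hy y' hy', sub_self, abs_zero]
    exact mul_nonneg hA (add_nonneg (norm_nonneg _) (h1 y y'))
  · rw [hf y (hU hy) y' (hU hy'), sub_self, abs_zero]
    exact add_nonneg (mul_nonneg hA (h1 y y')) (mul_nonneg hio (abs_nonneg _))

end

end Vale.Agent.P073.H581
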