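import Vale.Agent.P073.H581.T5Se

/-!
# P073, ROUND T for `K3C`, (T5): the theorem for a staircase `S` with `StF`
-/

open Set Metric Topology Filter
open scoped ENNReal

namespace Vale.Agent.P073.H581

open _root_.P073 _root_.P073.TR _root_.P073.Net _root_.P073.PA691 _root_.P073.H196
open Vale.Agent.P073.St (V)
open Vale.Agent.P073.H471 Vale.Agent.P073.H267 Vale.Agent.P073.H267.Geo
open Vale.Agent.P073.H73 (Mesh)
open Vale.Agent.P073.H193 (Edges)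
open Vale.Agent.P073.H238 (oT marg TAct TProt skel TMid TMid_sub)
open _root_.P073.Croft (Cells Crs levs Generic onS cross varIn TransAt SepL)
open _root_.P073.H236 (BX Lvs BFam stp dsp bmp qm rtK rtK_mono rtK_sub bxQ_K Tgt)
open Vale.Agent.P073.H579 (TStageW)
open _root_.P073.H669 (mem_TB TB_sub_false)
open Vale.Agent.P073.H669 (TLv)
open _root_.P073.H267 (tvE lenE)

variable {Ω Λ : Set V} {v : V} {K : BoxCx Λ v} {S₀ : Rad K} {Wd : Wid K S₀} {B : Boxes Wd}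
  {G : Geo B} {M : Mesh Ω} {E : Edges M} {h h' : ConHomeo Ω Λ} {ω : TBx K → ℝ}
  {T : TBx K → Finset (ℝ × ℝ)} {η : ℝ} {τ₀ : Type*} {A₀ : τ₀ → Set V} {C : Set ℝ} {εE : E.ε → ℝ}
  {δ : TBx K → ℝ} {Pr W : Set M.ι} {Act₀ : Set M.κ} {G₀ : Set (TBx K)}

/-- a small set which meets the box of an edge and the box of a hanging vertex -/
theorem hang_end (ω0 : ∀ b, 0 < ω b) (ωo : ∀ b, ω b ≤ oT G b) {e' : K.G} {q : Hang K} {X : Set V}
    (hosc : ∀ x ∈ X, ∀ y ∈ X, h.toFun x ∈ G.TB false (.inl e') →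
      dist (h.toFun x) (h.toFun y) ≤ ω (.inl e'))
    (h1 : ∃ x ∈ X, h.toFun x ∈ G.TB false (.inl e'))
    (h2 : ∃ x ∈ X, h.toFun x ∈ G.TB false (.inr q)) : q.i = K.a e' ∨ q.i = K.b e' := by
  obtain ⟨x, hx, hxb⟩ := h1
  obtain ⟨x', hx', hxb'⟩ := h2
  have h3 := hosc x hx x' hx' hxb
  have h4 : ω (.inl e') ≤ G.oG e' := ωo _
  have h5 : 0 < ω (.inl e') := ω0 _
  have h6 : h.toFun x' ∈ Wd.se e' := H238.near_inl G hxb (by linarith)
  have h7 : h.toFun x' ∈ closedBall (K.w q.i) (2 * S₀.r q.i) :=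
    H238.near_ball G hxb' (z := h.toFun x') (by
      rw [dist_self]
      have h8 : 0 < oT G (.inr q) := (ω0 _).trans_le (ωo _)
      have h9 : 0 < G.oW q.i := h8
      linarith)
  exact S₀.U_edge q.i e' _ h7 (se_subset e' h6)

section

variable {L : TLv G E h ω T η A₀ C εE δ} {c : TBx K → ℝ} {hc0 : ∀ b, 0 < c b}
  {hc : ∀ b, c b ≤ δ b / 8}

/-- in the box of a hanging vertex the clamped coordinate is constant -/
theorem StF.const {e : TBx K → ℝ} {S : ConHomeo Λ Λ} {φ : G₀ → V → ℝ → ℝ} {A : ℝ}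
    {τ : G₀ → ℝ → ℝ} {q d : G₀ → ℝ} (X : StF L hc0 hc G₀ e S φ A τ q d) {e' : K.G} {p : Hang K}
    (hp : (.inr p : TBx K) ∈ G₀) (hi' : p.i = K.a e' ∨ p.i = K.b e') {lo hi : ℝ}
    (hlo : G.tlo true (.inl e') (K.dir e') ≤ lo) (hhi : hi ≤ G.thi true (.inl e') (K.dir e')) :
    ∀ y ∈ (L.bxQ c hc0 hc (.inr p)).K, ∀ y' ∈ (L.bxQ c hc0 hc (.inr p)).K,
      clamp lo hi (S.toFun y (K.dir e')) = clamp lo hi (S.toFun y' (K.dir e')) := by
  have key : ∀ y ∈ (L.bxQ c hc0 hc (.inr p)).K,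
      |S.toFun y (K.dir e') - K.w p.i (K.dir e')| ≤ G.be p.i := by
    intro y hy
    rw [bxQ_K L hc0 hc] at hy
    have h1 : y ∈ rtK G ω (.inr p) 60 := rtK_mono L (by norm_num) hy
    have h2 : S.toFun y ∈ rtK G ω (.inr p) 60 := X.vrt.mem (b := ⟨_, hp⟩) h1
    have h3 := TB_inr_ball p (rtK_sub L (by norm_num) h2)
    rw [mem_closedBall, dist_pi_le_iff (G.be_pos _).le] at h3
    have h4 := h3 (K.dir e')
    rwa [Real.dist_eq] at h4
  have e1 : G.tlo true (.inl e') (K.dir e') = K.w (K.a e') (K.dir e') + G.be (K.a e') := by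
    simp [Geo.tlo]
  have e2 : G.thi true (.inl e') (K.dir e') = K.w (K.b e') (K.dir e') - G.be (K.b e') := by
    simp [Geo.thi]
  intro y hy y' hy'
  have h1 := abs_le.1 (key y hy)
  have h2 := abs_le.1 (key y' hy')
  unfold clamp
  rcases hi' with hi' | hi'
  · rw [hi'] at h1 h2
    rw [max_eq_left ((min_le_right _ _).trans (by linarith [h1.2])),
      max_eq_left ((min_le_right _ _).trans (by linarith [h2.2]))]
  · rw [hi'] at h1 h2
    rw [min_eq_left (by linarith [h1.1] : hi ≤ S.toFun y (K.dir e')),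
      min_eq_left (by linarith [h2.1] : hi ≤ S.toFun y' (K.dir e'))]

end

/-- the estimates in the box of an edge -/
theorem StF.fest_inl {L : TLv G E h ω T η A₀ C εE δ} {c : TBx K → ℝ} {hc0 : ∀ b, 0 < c b}
    {hc : ∀ b, c b ≤ δ b / 8} {e : TBx K → ℝ} {S : ConHomeo Λ Λ} {φ : G₀ → V → ℝ → ℝ} {A : ℝ}
    {τ : G₀ → ℝ → ℝ} {q d : G₀ → ℝ} (X : StF L hc0 hc G₀ e S φ A τ q d) (hA : 0 ≤ A)
    (hq : ∀ b, q b ≤ A) (he : ∀ b, 0 < e b) (he2 : ∀ b, 2 * e b < δ b) {e' : K.G}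
    (hb : (.inl e' : TBx K) ∈ G₀) {lo hi : ℝ}
    (hlo : G.tlo true (.inl e') (K.dir e') + 50 * ω (.inl e') ≤ lo)
    (hhi : hi ≤ G.thi true (.inl e') (K.dir e') - 50 * ω (.inl e')) :
    FEst (L.bxQ c hc0 hc (.inl e')) (TMid G (.inl e') (ω (.inl e')))
      (fun y => clamp lo hi (S.toFun y (K.dir e'))) A
        (δ (.inl e')) (A * (e (.inl e') / c (.inl e'))) := by
  have h1 := X.fest hA hq he he2 ⟨.inl e', hb⟩ (lo := lo) (hi := hi) hlo hhi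
  exact h1

/-- the estimates in all boxes which meet an edge -/
theorem StF.fest_all {L : TLv G E h ω T η A₀ C εE δ} {c : TBx K → ℝ} {hc0 : ∀ b, 0 < c b}
    {hc : ∀ b, c b ≤ δ b / 8}
    (hosc : ∀ b ∈ G₀, ∀ k, ∀ x ∈ M.F k, ∀ y ∈ M.F k, h.toFun x ∈ G.TB false b →
      dist (h.toFun x) (h.toFun y) ≤ ω b)
    {e : TBx K → ℝ} {S : ConHomeo Λ Λ} {φ : G₀ → V → ℝ → ℝ} {A : ℝ}
    {τ : G₀ → ℝ → ℝ} {q d : G₀ → ℝ} (X : StF L hc0 hc G₀ e S φ A τ q d) (hA : 0 ≤ A)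
    (hq : ∀ b, q b ≤ A) (he : ∀ b, 0 < e b) (he2 : ∀ b, 2 * e b < δ b) {ed : E.ε} {e' : K.G}
    (hbG : (.inl e' : TBx K) ∈ G₀)
    (hmeet : (h.toFun '' E.seg ed ∩ G.TB false (.inl e')).Nonempty) {lo hi : ℝ}
    (hlo : G.tlo true (.inl e') (K.dir e') + 50 * ω (.inl e') ≤ lo)
    (hhi : hi ≤ G.thi true (.inl e') (K.dir e') - 50 * ω (.inl e')) {b : TBx K} (hb : b ∈ G₀)
    (hne : (h.toFun '' E.seg ed ∩ G.TB false b).Nonempty) :
    FEst (L.bxQ c hc0 hc b) (TMid G b (ω b)) (fun y => clamp lo hi (S.toFun y (K.dir e'))) A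
        (δ b) (A * (e b / c b)) := by
  have hω := L.ω0
  rcases b with e'' | p
  · by_cases hee' : e'' = e'
    · subst hee'
      exact X.fest_inl hA hq he he2 hb hlo hhi
    · exfalso
      obtain ⟨_, ⟨x, hx, rfl⟩, hxb⟩ := hmeet
      obtain ⟨_, ⟨x', hx', rfl⟩, hxb'⟩ := hne
      have h1 := osc_edge hosc ed hbG x hx x' hx' hxb
      have h2 : ω (.inl e') ≤ G.oG e' := L.ωo _
      have h3 := hω (.inl e')
      exact (disjoint_se (W := Wd) (Ne.symm hee')).notMem_of_mem_left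
        (H238.near_inl G hxb (z := h.toFun x') (by linarith))
        (Ze_subset (TB_subset_Ze e'' hxb'))
  · have h1 : p.i = K.a e' ∨ p.i = K.b e' := by
      refine hang_end (h := h) (X := E.seg ed) hω L.ωo (osc_edge hosc ed hbG) ?_ ?_
      · obtain ⟨_, ⟨x, hx, rfl⟩, hxb⟩ := hmeet
        exact ⟨x, hx, hxb⟩
      · obtain ⟨_, ⟨x, hx, rfl⟩, hxb⟩ := hne
        exact ⟨x, hx, hxb⟩
    have h2 := hω (.inl e')
    have h3 : TMid G (.inr p) (ω (.inr p)) ⊆ (L.bxQ c hc0 hc (.inr p)).K := by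
      intro y hy
      rw [bxQ_K L hc0 hc]
      rw [tmid_rtK] at hy
      exact rtK_mono L (by norm_num) hy
    exact FEst.const hA (L.δ0 _).le (mul_nonneg hA (div_nonneg (he _).le (hc0 _).le)) h3
      (X.const hb h1 (by linarith) (by linarith))

/-- **all edges**, one edge -/
theorem t5F_len (L : TLv G E h ω T η A₀ C εE δ) (O : TStageW G M h h' Pr W Act₀ G₀ L.lev ω)
    (hosc : ∀ b ∈ G₀, ∀ k, ∀ x ∈ M.F k, ∀ y ∈ M.F k, h.toFun x ∈ G.TB false b →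
      dist (h.toFun x) (h.toFun y) ≤ ω b) (hΛ : IsOpen Λ) {A : ℝ} (hA : 1 ≤ A)
    {c : TBx K → ℝ} (hc0 : ∀ b, 0 < c b) (hc : ∀ b, c b ≤ δ b / 8) {ed : E.ε}
    (hbands : ∀ b ∈ G₀, ∃ l r, Bands L h' ed b (c b) l r) {κ : V → V}
    (hκ : H345.IsQ (fun b : G₀ => L.bxQ c hc0 hc b.1) κ) {g : ConHomeo Ω Λ}
    (himg : ∀ e, g.toFun '' E.seg e = H579.Pre κ Λ h' (E.seg e))
    (hvert : ∀ x ∈ E.verts, κ (g.toFun x) = h'.toFun x) {e : TBx K → ℝ} (he : ∀ b, 0 < e b)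
    (he2 : ∀ b, 2 * e b < δ b) {ε : ℝ}
    (hsl : ∀ b ∈ G₀, (h'.toFun '' E.seg ed ∩ G.TB false b).Nonempty →
      ENNReal.ofReal (A * (e b / c b)) * len (onS h'.toFun (E.a ed) (E.b ed)) (Icc 0 1) ≤
        ENNReal.ofReal (ε / 2))
    {S : ConHomeo Λ Λ} {φ : G₀ → V → ℝ → ℝ} {τ : G₀ → ℝ → ℝ} {q d : G₀ → ℝ}
    (X : StF L hc0 hc G₀ e S φ A τ q d) (hq : ∀ b, q b ≤ A) {e' : K.G}
    (hbG : (.inl e' : TBx K) ∈ G₀)
    (hmeet : (h.toFun '' E.seg ed ∩ G.TB false (.inl e')).Nonempty) {lo hi : ℝ}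
    (hlo : G.tlo true (.inl e') (K.dir e') + 50 * ω (.inl e') ≤ lo)
    (hhi : hi ≤ G.thi true (.inl e') (K.dir e') - 50 * ω (.inl e')) :
    eVariationOn (fun t : ℝ => clamp lo hi (S.toFun (onS g.toFun (E.a ed) (E.b ed) t)
      (K.dir e'))) (Icc 0 1) ≤
        ENNReal.ofReal (8 * A) * (∑' b : G₀, L.wt h' false ed b.1) +
          ENNReal.ofReal (3 * A) * lenE E h.toFun ed + ENNReal.ofReal ε := by
  have hA0 : 0 ≤ A := by linarith
  have H : H345.Fam Λ (fun b : G₀ => L.bxQ c hc0 hc b.1) :=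
    H579.fam_comp (L.fam345 hc0 hc hΛ) Subtype.val_injective
  have hfc : ContinuousOn (fun y => clamp lo hi (S.toFun y (K.dir e'))) Λ := by
    have h1 : Continuous (clamp lo hi) := by unfold clamp; fun_prop
    exact h1.comp_continuousOn ((continuous_apply _).comp_continuousOn S.cont)
  have hf : ∀ b ∈ G₀, (h.toFun '' E.seg ed ∩ G.TB false b).Nonempty →
      FEst (L.bxQ c hc0 hc b) (TMid G b (ω b)) (fun y => clamp lo hi (S.toFun y (K.dir e'))) A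
        (δ b) (A * (e b / c b)) :=
    fun b hb hne => X.fest_all hosc hA0 hq he he2 hbG hmeet hlo hhi hb hne
  have hfo : FOff (fun b : G₀ => L.bxQ c hc0 hc b.1) Λ
      (fun y => clamp lo hi (S.toFun y (K.dir e'))) A := X.foff hA hΛ (K.dir e') lo hi
  have hio : ∀ b ∈ G₀, 0 ≤ A * (e b / c b) := fun b _ =>
    mul_nonneg hA0 (div_nonneg (he b).le (hc0 b).le)
  generalize hF : (fun y : V => clamp lo hi (S.toFun y (K.dir e'))) = F at hfc hf hfo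
  have key := t5S_len L O hosc hΛ hA0 hc0 hc hbands hκ (isQ_cont H hκ) himg hvert
    (io := fun b => A * (e b / c b)) hio hsl hfc hf hfo
  rw [← hF] at key
  exact key

/-- **the sharp form**, one edge -/
theorem t5F_sharp (L : TLv G E h ω T η A₀ C εE δ) (O : TStageW G M h h' Pr W Act₀ G₀ L.lev ω)
    (hΛ : IsOpen Λ) {c : TBx K → ℝ} (hc0 : ∀ b, 0 < c b) (hc : ∀ b, c b ≤ δ b / 8) {ed : E.ε}
    {κ : V → V} (hκ : H345.IsQ (fun b : G₀ => L.bxQ c hc0 hc b.1) κ) {g : ConHomeo Ω Λ}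
    (himg : ∀ e, g.toFun '' E.seg e = H579.Pre κ Λ h' (E.seg e))
    (hvert : ∀ x ∈ E.verts, κ (g.toFun x) = h'.toFun x) {e : TBx K → ℝ} (he : ∀ b, 0 < e b)
    (he2 : ∀ b, 2 * e b < δ b) {A ε : ℝ}
    {S : ConHomeo Λ Λ} {φ : G₀ → V → ℝ → ℝ} {τ : G₀ → ℝ → ℝ} {q d : G₀ → ℝ}
    (X : StF L hc0 hc G₀ e S φ A τ q d) (b : G₀)
    (hsl : (h'.toFun '' E.seg ed ∩ G.TB false b.1).Nonempty →
      ENNReal.ofReal (q b * (e b.1 / c b.1)) * len (onS h'.toFun (E.a ed) (E.b ed)) (Icc 0 1) ≤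
        ENNReal.ofReal ε)
    (hdeep : ∀ x ∈ E.seg ed, closedBall (h.toFun x) (30 * ω b.1) ⊆ G.TB true b.1) {lo hi : ℝ}
    (hlo : G.tlo true b.1 b.1.ax + 50 * ω b.1 ≤ lo)
    (hhi : hi ≤ G.thi true b.1 b.1.ax - 50 * ω b.1) :
    eVariationOn (fun t : ℝ => clamp lo hi (S.toFun (onS g.toFun (E.a ed) (E.b ed) t)
      b.1.ax)) (Icc 0 1) ≤ ENNReal.ofReal (q b) * L.wt h' true ed b.1 + ENNReal.ofReal ε := by
  have H : H345.Fam Λ (fun b : G₀ => L.bxQ c hc0 hc b.1) :=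
    H579.fam_comp (L.fam345 hc0 hc hΛ) Subtype.val_injective
  have hκc := isQ_cont H hκ
  have hω := L.ω0
  obtain ⟨γ, γm, γc, γI, hγ⟩ := exists_parW L hΛ hc0 hc hκ hκc himg hvert ed
  have hxseg : ∀ s ∈ Icc (0:ℝ) 1, E.a ed + s • (E.b ed - E.a ed) ∈ E.seg ed := fun s hs =>
    Croft.onS_mem hs
  have hωb := hω b.1
  have hZT : ∀ s ∈ Icc (0:ℝ) 1, onS h'.toFun (E.a ed) (E.b ed) s ∈ G.TB true b.1 := by
    intro s hs
    obtain ⟨k, hk⟩ := E.own ed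
    have hxs : E.a ed + s • (E.b ed - E.a ed) ∈ H579.skelW M W :=
      H579.skel_subW M W (mem_iUnion.2 ⟨k, hk (hxseg s hs)⟩)
    have h2 := hdeep _ (hxseg s hs)
    have h3 := O.near b.1 _ hxs (TB_true_subset b.1 (h2 (mem_closedBall_self (by positivity))))
    exact h2 (by
      rw [mem_closedBall]
      exact h3.trans (by linarith))
  have hK : G.TB true b.1 ⊆ (L.bxQ c hc0 hc b.1).K := by
    rw [bxQ_K L hc0 hc]
    exact _root_.P073.H236.TB_sub_rtK L (by norm_num)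
  have hYK : ∀ t ∈ Icc (0:ℝ) 1, onS g.toFun (E.a ed) (E.b ed) t ∈ (L.bxQ c hc0 hc b.1).K :=
    fun t ht => by
    refine (hκ.mem_iff H (g := b)).1 ?_
    rw [hγ t ht]
    exact hK (hZT _ (γI ht))
  have hQ : ∀ t ∈ Icc (0:ℝ) 1, (L.bxQ c hc0 hc b.1).Q (onS g.toFun (E.a ed) (E.b ed) t) =
      onS h'.toFun (E.a ed) (E.b ed) (γ t) := fun t ht => by
    rw [← hγ t ht]
    exact (hκ.on b _ (hYK t ht)).symm
  have hYU : ∀ t ∈ Icc (0:ℝ) 1, onS g.toFun (E.a ed) (E.b ed) t ∈ rtK G ω b.1 12 := by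
    intro t ht
    have h1 := hYK t ht
    rw [bxQ_K L hc0 hc] at h1
    refine ⟨h1.1, fun i hi => ?_⟩
    have h2 := hZT _ (γI ht)
    have h3 : onS h'.toFun (E.a ed) (E.b ed) (γ t) i = onS g.toFun (E.a ed) (E.b ed) t i := by
      rw [← hQ t ht, (L.bxQ c hc0 hc b.1).Q_ne hi]
    have h4 := h2.1 i
    have h5 := h2.2 i
    rw [h3] at h4 h5
    constructor <;> linarith
  have hXfin := L.cross_finW O true ed b.1
  have hcb := hc0 b.1
  have hq0 := X.q0 b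
  have heb := he b.1
  have he2b := he2 b.1
  have hfc : ContinuousOn (fun t => clamp lo hi (S.toFun (onS g.toFun (E.a ed) (E.b ed) t)
      b.1.ax)) (Icc 0 1) := by
    have h1 : Continuous (clamp lo hi) := by unfold clamp; fun_prop
    refine h1.comp_continuousOn ((continuous_apply _).comp_continuousOn ?_)
    exact S.cont.comp (onS_cont g ed) (onS_maps g ed)
  have key := evar_fullF (B := L.bxQ c hc0 hc b.1) (U := rtK G ω b.1 12)
    (f := fun y => clamp lo hi (S.toFun y b.1.ax)) (Y := onS g.toFun (E.a ed) (E.b ed))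
    (Z := onS h'.toFun (E.a ed) (E.b ed)) (γ := γ) (q := q b)
    (om := δ b.1 - 2 * e b.1) (io := q b * (e b.1 / c b.1)) hq0
    (mul_nonneg hq0 (div_nonneg heb.le hcb.le)) (by linarith)
    (fun y hy => L.full_of hc0 hc fun i hi => by
      obtain ⟨h1, h2⟩ := hy.2 i hi
      constructor <;> linarith)
    (fun y hy y' hy' => X.sharp he he2 hlo hhi hy hy') hfc γm γc (onS_cont g ed)
    (onS_inj g ed) hYU hQ hXfin.toFinset (fun t ht hk => by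
      rw [Finite.mem_toFinset]
      obtain ⟨k, hk, hk'⟩ := hk
      exact ⟨γI ht, hZT _ (γI ht), k, hk, hk'⟩)
  refine key.trans (add_le_add ?_ ?_)
  · have e1 : q b * (δ b.1 - 2 * e b.1) +
        q b * (e b.1 / c b.1) * (2 * (L.bxQ c hc0 hc b.1).c) = q b * δ b.1 := by
      show q b * (δ b.1 - 2 * e b.1) + q b * (e b.1 / c b.1) * (2 * c b.1) = q b * δ b.1
      field_simp
      ring
    rw [e1, ENNReal.ofReal_mul hq0, mul_left_comm]
    refine mul_le_mul_right ?_ _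
    exact card_wt L (f := true) (e := ed) fun x hx => (Finite.mem_toFinset _).1 hx
  · have h4 : eVariationOn (fun t => onS h'.toFun (E.a ed) (E.b ed) (γ t)
        (L.bxQ c hc0 hc b.1).j) (Icc 0 1) ≤ len (onS h'.toFun (E.a ed) (E.b ed)) (Icc 0 1) :=
      (eVariationOn.comp_le_of_monotoneOn (fun s => onS h'.toFun (E.a ed) (E.b ed) s
        (L.bxQ c hc0 hc b.1).j) γ γm γI).trans (evar_coord_le_len _ _ _)
    refine (mul_le_mul_right h4 _).trans (hsl ⟨_, ⟨_, E.left_mem ed, rfl⟩,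
      TB_true_subset b.1 ?_⟩)
    have := hZT 0 ⟨le_rfl, zero_le_one⟩
    unfold onS at this
    simpa using this

/-- **(T5) for the clamped level coordinates** -/
theorem exists_t5F (L : TLv G E h ω T η A₀ C εE δ) (O : TStageW G M h h' Pr W Act₀ G₀ L.lev ω)
    (hosc : ∀ b ∈ G₀, ∀ k, ∀ x ∈ M.F k, ∀ y ∈ M.F k, h.toFun x ∈ G.TB false b →
      dist (h.toFun x) (h.toFun y) ≤ ω b) (hΛ : IsOpen Λ) {A : ℝ} (hA : 1 ≤ A) :
    ∃ c₁ : TBx K → ℝ, (∀ b, 0 < c₁ b) ∧ ∀ (c : TBx K → ℝ) (hc0 : ∀ b, 0 < c b)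
      (hc : ∀ b, c b ≤ δ b / 8), (∀ b ∈ G₀, c b ≤ c₁ b) →
    ∀ ε : E.ε → ℝ, (∀ e, 0 < ε e) →
    ∃ e₁ : TBx K → ℝ, (∀ b, 0 < e₁ b) ∧
    ∀ κ, H345.IsQ (fun b : G₀ => L.bxQ c hc0 hc b.1) κ → ∀ g : ConHomeo Ω Λ,
      (∀ e, g.toFun '' E.seg e = H579.Pre κ Λ h' (E.seg e)) →
      (∀ x ∈ E.verts, κ (g.toFun x) = h'.toFun x) →
    ∀ e : TBx K → ℝ, (∀ b, 0 < e b) → (∀ b, 2 * e b < δ b) → (∀ b ∈ G₀, e b ≤ e₁ b) →
    ∀ (S : ConHomeo Λ Λ) (φ : G₀ → V → ℝ → ℝ) (τ : G₀ → ℝ → ℝ) (q d : G₀ → ℝ),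
      StF L hc0 hc G₀ e S φ A τ q d → (∀ b, q b ≤ A) →
    (∀ (ed : E.ε) (e' : K.G), (.inl e' : TBx K) ∈ G₀ →
      (h.toFun '' E.seg ed ∩ G.TB false (.inl e')).Nonempty → ∀ lo hi : ℝ,
      G.tlo true (.inl e') (K.dir e') + 50 * ω (.inl e') ≤ lo →
      hi ≤ G.thi true (.inl e') (K.dir e') - 50 * ω (.inl e') →
      eVariationOn (fun t : ℝ => clamp lo hi ((g.trans S).toFun
        (E.a ed + t • (E.b ed - E.a ed)) (K.dir e'))) (Icc 0 1) ≤
        ENNReal.ofReal (8 * A) * (∑' b : G₀, L.wt h' false ed b.1) +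
          ENNReal.ofReal (3 * A) * lenE E h.toFun ed + ENNReal.ofReal (ε ed)) ∧
    ∀ (ed : E.ε) (b : G₀),
      (∀ x ∈ E.seg ed, closedBall (h.toFun x) (30 * ω b.1) ⊆ G.TB true b.1) → ∀ lo hi : ℝ,
      G.tlo true b.1 b.1.ax + 50 * ω b.1 ≤ lo → hi ≤ G.thi true b.1 b.1.ax - 50 * ω b.1 →
      eVariationOn (fun t : ℝ => clamp lo hi ((g.trans S).toFun
        (E.a ed + t • (E.b ed - E.a ed)) b.1.ax)) (Icc 0 1) ≤
        ENNReal.ofReal (q b) * L.wt h' true ed b.1 + ENNReal.ofReal (ε ed) := by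
  choose c₁ hc₁ hbands using fun b => exists_c1W L O b
  refine ⟨c₁, hc₁, fun c hc0 hc hcc ε hε => ?_⟩
  choose t₁ ht₁ hsliv using fun b => exists_t1 h' (ε := fun e => ε e / 2)
    (fun e => half_pos (hε e)) b
  have hA0 : 0 < A := by linarith
  refine ⟨fun b => c b * t₁ b / A, fun b => div_pos (mul_pos (hc0 b) (ht₁ b)) hA0, ?_⟩
  intro κ hκ g himg hvert e he he2 hee S φ τ q d X hq
  have hio : ∀ b ∈ G₀, A * (e b / c b) ≤ t₁ b := by
    intro b hb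
    have h1 := hee b hb
    have hcb := hc0 b
    rw [← mul_div_assoc, div_le_iff₀ hcb]
    rw [le_div_iff₀ hA0] at h1
    linarith
  have hsl : ∀ b ∈ G₀, ∀ e₀ : E.ε, (h'.toFun '' E.seg e₀ ∩ G.TB false b).Nonempty →
      ENNReal.ofReal (A * (e b / c b)) * len (onS h'.toFun (E.a e₀) (E.b e₀)) (Icc 0 1) ≤
        ENNReal.ofReal (ε e₀ / 2) := by
    intro b hb e₀ hne
    refine le_trans ?_ (hsliv b (t₁ b) (ht₁ b) le_rfl e₀ hne)
    gcongr
    exact hio b hb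
  refine ⟨fun ed e' hbG hmeet lo hi hlo hhi => ?_, fun ed b hdeep lo hi hlo hhi => ?_⟩
  · exact t5F_len L O hosc hΛ hA hc0 hc (fun b hb => hbands b (c b) (hc0 b) (hcc b hb) ed)
      hκ himg hvert he he2 (fun b hb hne => hsl b hb ed hne) X hq hbG hmeet hlo hhi
  · refine t5F_sharp L O hΛ hc0 hc hκ himg hvert he he2 X b (fun hne => ?_) hdeep hlo hhi
    refine le_trans (mul_le_mul' (ENNReal.ofReal_le_ofReal ?_) le_rfl)
      ((hsl b.1 b.2 ed hne).trans (ENNReal.ofReal_le_ofReal (by linarith [hε ed])))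
    exact mul_le_mul_of_nonneg_right (hq b) (div_nonneg (he _).le (hc0 _).le)

end Vale.Agent.P073.H581
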