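import Vale.Agent.P073.H581.T5Sf
import Vale.Agent.P073.H236.SA3

/-!
# P073, ROUND T for `K3C`, (T5): the staircase `S = T ∘ H₁ ∘ H_α` of H236
-/

open Set Metric Topology Filter
open scoped ENNReal

namespace Vale.Agent.P073.H581

open _root_.P073 _root_.P073.Net _root_.P073.PA691 _root_.P073.H236 _root_.P073.H196
open Vale.Agent.P073.St (V)
open Vale.Agent.P073.H471 Vale.Agent.P073.H267 Vale.Agent.P073.H267.Geo
open Vale.Agent.P073.H73 (Mesh)
open Vale.Agent.P073.H193 (Edges)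
open Vale.Agent.P073.H669 (TLv)

variable {Ω Λ : Set V} {v : V} {K : BoxCx Λ v} {S₀ : Rad K} {Wd : Wid K S₀} {B : Boxes Wd}
  {G : Geo B} {M : Mesh Ω} {E : Edges M} {h h' : ConHomeo Ω Λ} {ω : TBx K → ℝ}
  {T : TBx K → Finset (ℝ × ℝ)} {η : ℝ} {τ : Type*} {A : τ → Set V} {C : Set ℝ} {εE : E.ε → ℝ}
  {δ : TBx K → ℝ} {L : TLv G E h ω T η A C εE δ} {G₀ : Set (TBx K)}
  {c : TBx K → ℝ} {hc0 : ∀ b, 0 < c b} {hc : ∀ b, c b ≤ δ b / 8}
  {e : TBx K → ℝ} {he : ∀ b, 0 < e b} {he2 : ∀ b, 2 * e b < δ b}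
  {V₀ : G₀ → Finset ℝ}
  {X : FixD (F1 L hc0 hc he he2 G₀) V₀} {Hα H₁ Tf : ConHomeo Λ Λ}

/-- **the staircase of H236** -/
theorem stF_of_rts (H : RTS L hc0 hc he he2 X Hα H₁ Tf) (N : SNum X) :
    StF L hc0 hc G₀ e ((Hα.trans H₁).trans Tf) (ph X) 35 (fun b => X.τ b)
      (fun b => 1 + 4 * X.d b / X.g b) (fun b => X.d b) where
  vrt := H.vrt
  on := fun b y hy y' hy' => by
    have h1 := abs_ph_sub_le_fl N b y y' (y b.1.ax) (y' b.1.ax)
    have e1 : ∑ a ∈ (thk L b.1).lvs.L, |fl (c b.1) a (y b.1.ax) - fl (c b.1) a (y' b.1.ax)| =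
        wfl (L.bxQ c hc0 hc b.1) (y b.1.ax) (y' b.1.ax) :=
      (thk L b.1).lvs.sum_L fun a => |fl (c b.1) a (y b.1.ax) - fl (c b.1) a (y' b.1.ax)|
    rw [e1] at h1
    have h2 := hgtA_lip (L := L) (hc0 := hc0) (hc := hc) (N.hω b) y y'
    have h3 := hgt1_lip (L := L) (hc0 := hc0) (hc := hc) (he := he) (he2 := he2) (N.hω b) y y'
    have h4 : |y b.1.ax - y' b.1.ax| ≤ ‖y - y'‖ := by
      rw [← Pi.sub_apply, ← Real.norm_eq_abs]; exact norm_le_pi_norm _ _
    have h5 : 0 ≤ wfl (L.bxQ c hc0 hc b.1) (y b.1.ax) (y' b.1.ax) := wfl_nonneg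
    have hcb := hc0 b.1
    have heb := he b.1
    have hδ := L.δ0 b.1
    have h6 : (δ b.1 - 2 * e b.1) / (2 * c b.1) ≤ δ b.1 / (2 * c b.1) := by
      gcongr
      linarith
    have h7 := mul_le_mul_of_nonneg_right h6 h5
    have h8 : 0 ≤ δ b.1 / (2 * c b.1) * wfl (L.bxQ c hc0 hc b.1) (y b.1.ax) (y' b.1.ax) :=
      mul_nonneg (by positivity) h5
    linarith
  out := fun b y hy y' hy' hn hn' => by
    have hz : ∀ y ∈ rtK G ω b.1 60, y ∉ rtK G ω b.1 20 → hgtA L hc0 hc b y = 0 := by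
      intro y hy hn
      refine hgtA_eq_zero ?_
      by_contra hcon
      push Not at hcon
      have h0 := L.ω0 b.1
      exact hn ⟨hy.1, fun i hi => by
        obtain ⟨h1, h2⟩ := hcon i hi
        constructor <;> linarith⟩
    have h1 := abs_ph_sub_le_zero N (hz y hy hn) (hz y' hy' hn') (y b.1.ax) (y' b.1.ax)
    have h3 := hgt1_lip (L := L) (hc0 := hc0) (hc := hc) (he := he) (he2 := he2) (N.hω b) y y'
    have h4 : |y b.1.ax - y' b.1.ax| ≤ ‖y - y'‖ := by
      rw [← Pi.sub_apply, ← Real.norm_eq_abs]; exact norm_le_pi_norm _ _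
    have h5 := norm_nonneg (y - y')
    linarith
  full := fun b y hy => by
    have h1 := H.full hy
    have h2 := H.vrt.on b y (rtK_mono L (by norm_num) hy)
    rw [h1] at h2
    have h3 := congrFun h2 b.1.ax
    rw [Function.update_self] at h3
    have h4 : (Function.update y (jR b) (ph X b y (y (jR b)))) b.1.ax = ph X b y (y b.1.ax) :=
      Function.update_self _ _ _
    rw [h4] at h3
    exact h3.symm
  mono := fun b => (X.fix b).mono.monotone
  lip := fun b s t => (X.fix b).lip s t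
  near := fun b t => (X.fix b).disp t
  q0 := fun b => by
    have h1 := X.d0 b
    have h2 := X.g0 b
    have : 0 ≤ 4 * X.d b / X.g b := by positivity
    linarith
  num := fun b => by
    have h1 := N.hω b
    have h2 := N.he8 b.1
    have h3 : X.d b ≤ dsp (T b.1) (δ b.1) + δ b.1 / 8 := X.dD b
    have h4 := L.ω0 b.1
    linarith

end Vale.Agent.P073.H581
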