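import Vale.Agent.P073.H581.Tve2
import Vale.Agent.P073.H345.QT
import Vale.Agent.P073.H236.Stage3b

/-!
# P073, ROUND T, (T5): the local estimates in one box

`F : BFam` (thin boxes, the flats of `κ` are the flats of the staircase), `κ = Q_b` and `S = S_b` on
the box `b`.
-/

open Set Metric Topology Filter
open scoped ENNReal

namespace Vale.Agent.P073.H581

open _root_.P073 _root_.P073.H236

theorem expd_qm {L : Finset ℝ} {c : ℝ} (hc : 0 ≤ c) (h : Sepd L c) :
    Expd (L : Set ℝ) (qm L c) := by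
  intro t t' ht hno
  have h1 := qm_gap hc h t' t
  have hfl : ∀ a ∈ L, fl c a t' = fl c a t := by
    intro a ha
    have h2 := hno a (Finset.mem_coe.2 ha)
    rw [mem_Icc, not_and_or, not_le, not_le] at h2
    rcases h2 with h2 | h2
    · have h3 : a + c < t := by
        by_contra hcon
        push Not at hcon
        have := qm_monotone hc h hcon
        rw [qm_flat hc h ha (t := a + c) (by rw [add_sub_cancel_left, abs_of_nonneg hc])] at this
        linarith
      rw [fl_of_ge hc h3.le, fl_of_ge hc (h3.le.trans ht)]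
    · have h3 : t' < a - c := by
        by_contra hcon
        push Not at hcon
        have := qm_monotone hc h hcon
        rw [qm_flat hc h ha (t := a - c) (by
          rw [show a - c - a = -c by ring, abs_neg, abs_of_nonneg hc])] at this
        linarith
      rw [fl_of_le h3.le, fl_of_le (ht.trans h3.le)]
  rw [Finset.sum_congr rfl hfl, sub_sub_sub_cancel_right, one_mul,
    abs_of_nonneg (sub_nonneg.2 ht), abs_of_nonneg (sub_nonneg.2 (qm_monotone hc h ht))] at h1
  exact h1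

section lvs

variable {N : ℕ} {a : ℕ → ℝ} {c al be e : ℝ}

theorem four_mul_le_stp (h : Lvs N a c al be) : 4 * c < stp N al be := by
  have hN : (0:ℝ) < N := by exact_mod_cast h.pos
  have key : ∀ k : ℕ, k < N → al + (4 * k + 2) * c < a k := by
    intro k
    induction k with
    | zero => intro _; have := h.first; push_cast; linarith
    | succ k ih =>
      intro hk
      have h1 := ih (by omega)
      have h2 := h.sep k hk
      push_cast
      linarith
  have h1 := key (N - 1) (by have := h.pos; omega)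
  have h2 := h.last
  have h3 : ((N - 1 : ℕ) : ℝ) = N - 1 := by
    rw [Nat.cast_sub h.pos]; simp
  rw [h3] at h1
  unfold stp
  rw [lt_div_iff₀ hN]
  linarith

/-- distance of the other levels -/
theorem other_level (h : Lvs N a c al be) {k k' : ℕ} (hk : k < N) (hk' : k' < N) (hne : k' ≠ k)
    {s : ℝ} (hs : |s - a k| ≤ 2 * c) : (a k' + 2 * c ≤ s ∧ a k' < a k) ∨
      (s ≤ a k' - 2 * c ∧ a k < a k') := by
  have hc := h.c0
  obtain ⟨h1, h2⟩ := abs_le.1 hs
  rcases lt_or_gt_of_ne hne with h3 | h3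
  · left
    have h4 := h.add_le h3 hk
    have h5 := h.strictMono h3 hk
    constructor <;> linarith
  · right
    have h4 := h.add_le h3 hk'
    have h5 := h.strictMono h3 hk'
    constructor <;> linarith

/-- off the bands, between two levels -/
theorem abs_sm_sub_off (h : Lvs N a c al be) (he : 0 < e) (heo : 2 * e < stp N al be) {s t : ℝ}
    (hs : s ∈ Icc al be) (ht : t ∈ Icc al be) (hs' : ∀ k < N, 2 * c ≤ |s - a k|)
    (ht' : ∀ k < N, 2 * c ≤ |t - a k|) (hno : ∀ k < N, a k ∉ uIcc s t) :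
    |sm N a c al be al (stp N al be) e s - sm N a c al be al (stp N al be) e t| ≤
      e / c * |s - t| := by
  have hc := h.c0
  have key := abs_sm_sub_le_win h he heo hs ht
  have h0 : ∑ k ∈ Finset.range N, |fl c (a k) s - fl c (a k) t| = 0 := by
    refine Finset.sum_eq_zero fun k hk => ?_
    rw [Finset.mem_range] at hk
    have h1 := hno k hk
    rw [mem_uIcc] at h1
    push Not at h1
    have h2 := hs' k hk
    have h3 := ht' k hk
    rcases le_total (a k) s with h4 | h4
    · rcases le_total (a k) t with h5 | h5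
      · rw [abs_of_nonneg (sub_nonneg.2 h4)] at h2
        rw [abs_of_nonneg (sub_nonneg.2 h5)] at h3
        rw [fl_of_ge hc.le (by linarith), fl_of_ge hc.le (by linarith), sub_self, abs_zero]
      · exact absurd (h1.2 h5) (not_lt.2 h4)
    · rcases le_total (a k) t with h5 | h5
      · exact absurd (h1.1 h4) (not_lt.2 h5)
      · rw [abs_of_nonpos (sub_nonpos.2 h4)] at h2
        rw [abs_of_nonpos (sub_nonpos.2 h5)] at h3
        rw [fl_of_le (by linarith), fl_of_le (by linarith), sub_self, abs_zero]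
  rwa [h0, mul_zero, zero_add] at key

/-- in one band -/
theorem abs_sm_sub_band (h : Lvs N a c al be) (he : 0 < e) (heo : 2 * e < stp N al be) {s t : ℝ}
    (hs : s ∈ Icc al be) (ht : t ∈ Icc al be) {k : ℕ} (hk : k < N) (hs' : |s - a k| ≤ 2 * c)
    (ht' : |t - a k| ≤ 2 * c) :
    |sm N a c al be al (stp N al be) e s - sm N a c al be al (stp N al be) e t| ≤
      stp N al be / (2 * c) * |s - t| := by
  have hc := h.c0
  have key := abs_sm_sub_le_win h he heo hs ht
  have h0 : ∑ k ∈ Finset.range N, |fl c (a k) s - fl c (a k) t| =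
      |fl c (a k) s - fl c (a k) t| := by
    refine Finset.sum_eq_single k (fun k' hk' hne => ?_) fun hk' => ?_
    · rw [Finset.mem_range] at hk'
      rcases other_level h hk hk' hne hs' with ⟨h1, h3⟩ | ⟨h1, h3⟩ <;>
        rcases other_level h hk hk' hne ht' with ⟨h2, h4⟩ | ⟨h2, h4⟩
      · rw [fl_of_ge hc.le (by linarith), fl_of_ge hc.le (by linarith), sub_self, abs_zero]
      · exact absurd h3 (not_lt.2 h4.le)
      · exact absurd h3 (not_lt.2 h4.le)
      · rw [fl_of_le (by linarith), fl_of_le (by linarith), sub_self, abs_zero]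
    · exact absurd (Finset.mem_range.2 hk) hk'
  have h1 : |fl c (a k) s - fl c (a k) t| ≤ |s - t| := by
    rcases le_total s t with hst | hst
    · rw [abs_sub_comm, abs_sub_comm s, abs_of_nonneg (sub_nonneg.2 (fl_mono c (a k) hst)),
        abs_of_nonneg (sub_nonneg.2 hst)]
      exact fl_sub_le c (a k) hst
    · rw [abs_of_nonneg (sub_nonneg.2 (fl_mono c (a k) hst)), abs_of_nonneg (sub_nonneg.2 hst)]
      exact fl_sub_le c (a k) hst
  rw [h0] at key
  have h2 : 0 ≤ (stp N al be - 2 * e) / (2 * c) := by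
    apply div_nonneg <;> linarith
  calc _ ≤ (stp N al be - 2 * e) / (2 * c) * |fl c (a k) s - fl c (a k) t| + e / c * |s - t| := key
    _ ≤ (stp N al be - 2 * e) / (2 * c) * |s - t| + e / c * |s - t| := by gcongr
    _ = _ := by field_simp; ring

end lvs

section box

variable {ι : Type*} {Λ : Set (Fin 3 → ℝ)} (F : BFam 3 ι Λ) (b : ι) {y y' : Fin 3 → ℝ}

/-- thickness -/
noncomputable def mQ : (Fin 3 → ℝ) → ℝ := bmp (F.B b).j (F.B b).lo (F.B b).hi (F.B b).r (F.B b).c

/-- height of the fade-out of the staircase -/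
noncomputable def mS : (Fin 3 → ℝ) → ℝ := bmp (F.B b).j (F.B b).lo (F.B b).hi (F.B b).r (F.D b)

variable {F b}

theorem mQ_Q (y : Fin 3 → ℝ) : mQ F b ((F.B b).Q y) = mQ F b y := bmp_update _ _

theorem mS_Q (y : Fin 3 → ℝ) : mS F b ((F.B b).Q y) = mS F b y := bmp_update _ _

theorem Q_coord (y : Fin 3 → ℝ) : (F.B b).Q y (F.B b).j =
    cl (qm (F.B b).lvs.L (F.B b).c) (mQ F b y) (y (F.B b).j) := vc_same y

theorem S_coord (y : Fin 3 → ℝ) : (F.Sb b).toFun y (F.B b).j =
    cl (F.σ b) (mS F b y) (y (F.B b).j) := vc_same y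

/-- off the bands, `Q` is the identity -/
theorem eq_of_off (hz : ∀ k < (F.B b).N, 2 * (F.B b).c ≤ |(F.B b).Q y (F.B b).j - (F.B b).a k|) :
    (F.B b).Q y = y := by
  refine H345.Q_eq_self _ fun k hk => ?_
  by_contra hcon
  push Not at hcon
  exact absurd (hz k hk) (not_le.2 (H345.Q_mem_cell _ hk hcon))

/-- in a band -/
theorem band_of_band {k : ℕ} (hk : k < (F.B b).N)
    (hz : |(F.B b).Q y (F.B b).j - (F.B b).a k| ≤ 2 * (F.B b).c) :
    |y (F.B b).j - (F.B b).a k| ≤ 2 * (F.B b).c := by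
  by_cases h : ∃ k' < (F.B b).N, |y (F.B b).j - (F.B b).a k'| < 2 * (F.B b).c
  · obtain ⟨k', hk', h'⟩ := h
    by_cases hkk : k' = k
    · subst hkk; exact h'.le
    · exfalso
      have h1 := H345.Q_mem_cell _ hk' h'
      rcases other_level (F.B b).lvs hk hk' hkk hz with ⟨h2, h3⟩ | ⟨h2, h3⟩
      · have := (abs_lt.1 h1).2; linarith
      · have := (abs_lt.1 h1).1; linarith
  · push Not at h
    rwa [H345.Q_eq_self _ h] at hz

theorem σ_eq : F.σ b = sm (F.B b).N (F.B b).a (F.B b).c (F.B b).al (F.B b).be (F.B b).al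
    (stp (F.B b).N (F.B b).al (F.B b).be) (F.e b) := rfl

/-- **off the bands** -/
theorem off_le (hec : F.e b ≤ (F.B b).c) (hy : y ∈ (F.B b).K) (hy' : y' ∈ (F.B b).K)
    (hs : ∀ k < (F.B b).N, 2 * (F.B b).c ≤ |y (F.B b).j - (F.B b).a k|)
    (hs' : ∀ k < (F.B b).N, 2 * (F.B b).c ≤ |y' (F.B b).j - (F.B b).a k|)
    (hno : ∀ k < (F.B b).N, (F.B b).a k ∉ uIcc (y (F.B b).j) (y' (F.B b).j)) :
    |(F.Sb b).toFun y (F.B b).j - (F.Sb b).toFun y' (F.B b).j| ≤
      |y (F.B b).j - y' (F.B b).j| + |mS F b y - mS F b y'| := by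
  rw [S_coord, S_coord]
  have h1 := abs_sm_sub_off (F.B b).lvs (F.he b) (F.heo b) hy.1 hy'.1 hs hs' hno
  have h2 : F.e b / (F.B b).c ≤ 1 := (div_le_one (F.B b).lvs.c0).2 hec
  have h3 := abs_cl_sub_cl_le (k := F.σ b) (L := 1) (m := mS F b y) (m' := mS F b y')
    (t := y (F.B b).j) (t' := y' (F.B b).j) le_rfl (by
      rw [σ_eq, one_mul]
      refine h1.trans ?_
      have := abs_nonneg (y (F.B b).j - y' (F.B b).j)
      nlinarith)
  rwa [one_mul] at h3

/-- **off the bands, in the full zone** -/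
theorem off_full (hy : y ∈ (F.B b).K) (hy' : y' ∈ (F.B b).K)
    (hf : (F.B b).Full y) (hf' : (F.B b).Full y')
    (hs : ∀ k < (F.B b).N, 2 * (F.B b).c ≤ |y (F.B b).j - (F.B b).a k|)
    (hs' : ∀ k < (F.B b).N, 2 * (F.B b).c ≤ |y' (F.B b).j - (F.B b).a k|)
    (hno : ∀ k < (F.B b).N, (F.B b).a k ∉ uIcc (y (F.B b).j) (y' (F.B b).j)) :
    |(F.Sb b).toFun y (F.B b).j - (F.Sb b).toFun y' (F.B b).j| ≤
      F.e b / (F.B b).c * |y (F.B b).j - y' (F.B b).j| := by
  have e1 : (F.Sb b).toFun y = _ := (F.B b).S_full (F.tgt b) (F.D0 b) (F.hD b) hf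
  have e2 : (F.Sb b).toFun y' = _ := (F.B b).S_full (F.tgt b) (F.D0 b) (F.hD b) hf'
  rw [e1, e2, Function.update_self, Function.update_self]
  exact abs_sm_sub_off (F.B b).lvs (F.he b) (F.heo b) hy.1 hy'.1 hs hs' hno

/-- **in one band** -/
theorem band_le (hy : y ∈ (F.B b).K) (hy' : y' ∈ (F.B b).K) {k : ℕ} (hk : k < (F.B b).N)
    (hz : |(F.B b).Q y (F.B b).j - (F.B b).a k| ≤ 2 * (F.B b).c)
    (hz' : |(F.B b).Q y' (F.B b).j - (F.B b).a k| ≤ 2 * (F.B b).c)
    (hno : ∀ k < (F.B b).N, (F.B b).a k ∉ uIcc ((F.B b).Q y (F.B b).j) ((F.B b).Q y' (F.B b).j)) :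
    |(F.Sb b).toFun y (F.B b).j - (F.Sb b).toFun y' (F.B b).j| ≤
      F.om b / (2 * (F.B b).c) * (|(F.B b).Q y (F.B b).j - (F.B b).Q y' (F.B b).j| +
        |mQ F b y - mQ F b y'|) + |mS F b y - mS F b y'| := by
  have hc := (F.B b).lvs.c0
  have h4 := four_mul_le_stp (F.B b).lvs
  have hΛ : 1 ≤ F.om b / (2 * (F.B b).c) := by
    rw [le_div_iff₀ (by linarith)]
    show _ ≤ stp (F.B b).N (F.B b).al (F.B b).be
    linarith
  rw [S_coord, S_coord]
  have h1 := abs_sm_sub_band (F.B b).lvs (F.he b) (F.heo b) hy.1 hy'.1 hk (band_of_band hk hz)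
    (band_of_band hk hz')
  have h3 := abs_cl_sub_cl_le (k := F.σ b) (m := mS F b y) (m' := mS F b y')
    (t := y (F.B b).j) (t' := y' (F.B b).j) hΛ h1
  refine h3.trans (add_le_add ?_ le_rfl)
  refine mul_le_mul_of_nonneg_left ?_ (by linarith)
  rw [Q_coord, Q_coord] at hno ⊢
  refine abs_sub_le_cl (qm_monotone hc.le (F.B b).lvs.sepd) (expd_qm hc.le (F.B b).lvs.sepd)
    (bmp_nonneg hc.le _) (bmp_nonneg hc.le _) fun a ha => ?_
  obtain ⟨k', hk', rfl⟩ := (F.B b).lvs.mem_L.1 (Finset.mem_coe.1 ha)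
  exact hno k' hk'

/-- the data of the box in the form of `EBx` -/
noncomputable def ebx (F : BFam 3 ι Λ) (b : ι) : EBx 3 where
  j := (F.B b).j
  k := qm (F.B b).lvs.L (F.B b).c
  m := mQ F b
  σ := F.σ b
  m₁ := mS F b
  L := ((F.B b).lvs.L : Set ℝ)
  ω := F.om b

/-- global Lipschitz bound -/
theorem abs_σ_sub_le (F : BFam 3 ι Λ) (b : ι) (t t' : ℝ) :
    |F.σ b t - F.σ b t'| ≤ F.om b / (2 * (F.B b).c) * |t - t'| := by
  have hc := (F.B b).lvs.c0
  have h4 := four_mul_le_stp (F.B b).lvs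
  have hT := F.tgt b
  have hN := (F.B b).lvs.pos
  have hN' : ((F.B b).N : ℝ) ≠ 0 := by positivity
  have hNs : ((F.B b).N : ℝ) * F.om b = (F.B b).be - (F.B b).al := by
    show ((F.B b).N : ℝ) * stp _ _ _ = _
    unfold stp; rw [mul_div_cancel₀ _ hN']
  have hom : 4 * (F.B b).c < F.om b := h4
  have he := F.heo b
  have he' : 2 * F.e b < F.om b := he
  have hA : F.om b / (2 * (F.B b).c) * (F.B b).c = F.om b / 2 := by
    field_simp
  have hA0 : 0 ≤ F.om b / (2 * (F.B b).c) := by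
    apply div_nonneg <;> linarith
  refine abs_sm_sub_le (F.B b).lvs hT (A := F.om b / (2 * (F.B b).c)) ?_ ?_ ?_ ?_ t t'
  · rw [le_div_iff₀ (by linarith)]; linarith
  · have h1 := (F.B b).lvs.first
    have h2 := mul_le_mul_of_nonneg_left (a := F.om b / (2 * (F.B b).c))
      (show (F.B b).c ≤ (F.B b).a 0 - (F.B b).c - (F.B b).al by linarith) hA0
    rw [hA] at h2
    linarith
  · have : F.om b / (2 * (F.B b).c) * (2 * (F.B b).c) = F.om b := by field_simp
    rw [this]
  · have h1 := (F.B b).lvs.last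
    have h2 := mul_le_mul_of_nonneg_left (a := F.om b / (2 * (F.B b).c))
      (show (F.B b).c ≤ (F.B b).be - ((F.B b).a ((F.B b).N - 1) + (F.B b).c) by linarith) hA0
    rw [hA] at h2
    rw [hNs]
    linarith

theorem ebx_ok (F : BFam 3 ι Λ) (b : ι) : (ebx F b).Ok (F.om b / (2 * (F.B b).c)) := by
  have hc := (F.B b).lvs.c0
  have h4 := four_mul_le_stp (F.B b).lvs
  refine ⟨(F.B b).vdQ, (F.B b).lvs.L.finite_toSet.isClosed, expd_qm hc.le (F.B b).lvs.sepd,
    abs_σ_sub_le F b, (F.σ_strictMono b).monotone, fun y t => bmp_update _ _,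
    fun t t' ht hk => ?_⟩
  have hL : qm (F.B b).lvs.L (F.B b).c t ∈ (F.B b).lvs.L := by
    by_contra hcon
    exact ht.ne (qm_inj hc (F.B b).lvs.sepd hk hcon)
  have h1 := (qm_eq_iff hc (F.B b).lvs.sepd hL t).1 rfl
  have h2 := (qm_eq_iff hc (F.B b).lvs.sepd hL t').1 hk.symm
  obtain ⟨k, hk', hke⟩ := (F.B b).lvs.mem_L.1 hL
  rw [← hke] at h1 h2
  have h3 : t' - t ≤ 2 * (F.B b).c := by linarith [h1.1, h2.2]
  have hom : 4 * (F.B b).c < F.om b := h4
  constructor
  · show t' - t ≤ F.om b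
    linarith
  · show F.σ b t' - F.σ b t ≤ F.om b
    have h5 := (le_abs_self _).trans (abs_σ_sub_le F b t' t)
    rw [abs_of_pos (sub_pos.2 ht)] at h5
    have hA0 : 0 ≤ F.om b / (2 * (F.B b).c) := by
      apply div_nonneg <;> linarith
    have h6 := mul_le_mul_of_nonneg_left h3 hA0
    have : F.om b / (2 * (F.B b).c) * (2 * (F.B b).c) = F.om b := by field_simp
    rw [this] at h6
    exact h5.trans h6

end box

end Vale.Agent.P073.H581
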