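import Vale.Agent.P073.H581.T5a

/-!
# P073, ROUND T, (T5): the variation of `S ∘ Y` along one edge

`κ ∘ Y = Z ∘ γ` with `γ` monotone; `Z = q` outside of the interiors of the full zones.
-/

open Set Metric Topology Filter
open scoped ENNReal

namespace Vale.Agent.P073.H581

open _root_.P073 _root_.P073.H236

variable {ι : Type*} {Λ : Set (Fin 3 → ℝ)}

/-- the data of a curve: `T` = the boxes which meet it, all of direction `j`; `X b` = the
parameters of the crossings with the levels of `b`; `[l b x, r b x]` = the parameters of the band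
around the crossing `x` -/
structure Crv (F : BFam 3 ι Λ) (κ : (Fin 3 → ℝ) → Fin 3 → ℝ) (S : ConHomeo Λ Λ)
    (Y Z q : ℝ → Fin 3 → ℝ) (γ : ℝ → ℝ) (T : Finset ι) (j : Fin 3) (X : ι → Finset ℝ)
    (l r : ι → ℝ → ℝ) : Prop where
  κon : ∀ b, ∀ y ∈ (F.B b).K, κ y = (F.B b).Q y
  κoff : ∀ y, (∀ b, y ∉ (F.B b).K) → κ y = y
  κmem : ∀ b y, κ y ∈ (F.B b).K → y ∈ (F.B b).K
  hS : F.IsS S
  hec : ∀ b ∈ T, F.e b ≤ (F.B b).c
  γm : MonotoneOn γ (Icc 0 1)
  γc : ContinuousOn γ (Icc 0 1)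
  γI : MapsTo γ (Icc 0 1) (Icc 0 1)
  Yc : ContinuousOn Y (Icc 0 1)
  Yi : InjOn Y (Icc 0 1)
  YΛ : MapsTo Y (Icc 0 1) Λ
  eq : ∀ t ∈ Icc (0:ℝ) 1, κ (Y t) = Z (γ t)
  Zc : ContinuousOn Z (Icc 0 1)
  mem : ∀ b, ∀ s ∈ Icc (0:ℝ) 1, Z s ∈ (F.B b).K → b ∈ T
  ax : ∀ b ∈ T, (F.B b).j = j
  fade : ∀ s ∈ Icc (0:ℝ) 1, (∀ b, Z s ∉ interior {y | F.FullK b y}) →
    ∀ᶠ s' in 𝓝[Icc 0 1] s, Z s' = q s'
  cross : ∀ b ∈ T, ∀ s ∈ Icc (0:ℝ) 1, Z s ∈ (F.B b).K →
    (∃ k < (F.B b).N, Z s j = (F.B b).a k) → s ∈ X b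
  XK : ∀ b ∈ T, ∀ x ∈ X b, Z x ∈ (F.B b).K
  lr : ∀ b ∈ T, ∀ x ∈ X b, l b x ≤ r b x
  band : ∀ b ∈ T, ∀ s ∈ Icc (0:ℝ) 1, Z s ∈ (F.B b).K →
    (∃ k < (F.B b).N, |Z s j - (F.B b).a k| ≤ 2 * (F.B b).c) → ∃ x ∈ X b, s ∈ Icc (l b x) (r b x)

namespace Crv

variable {F : BFam 3 ι Λ} {κ : (Fin 3 → ℝ) → Fin 3 → ℝ} {S : ConHomeo Λ Λ}
    {Y Z q : ℝ → Fin 3 → ℝ} {γ : ℝ → ℝ} {T : Finset ι} {j : Fin 3} {X : ι → Finset ℝ}
    {l r : ι → ℝ → ℝ}

/-- indices of the cost functions -/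
abbrev Ix (ι : Type*) : Type _ := Option (Σ _ : ι, Bool ⊕ (ℝ × Bool))

/-- the cost functions -/
noncomputable def W (F : BFam 3 ι Λ) (Z q : ℝ → Fin 3 → ℝ) (j : Fin 3) (l r : ι → ℝ → ℝ) :
    Ix ι → ℝ → ℝ
  | none => fun s => q s j
  | some ⟨b, Sum.inl true⟩ => fun s => F.e b / (F.B b).c * Z s j
  | some ⟨b, Sum.inl false⟩ => fun s => mS F b (q s)
  | some ⟨b, Sum.inr (x, true)⟩ => fun s =>
      F.om b / (2 * (F.B b).c) * Z (clamp (l b x) (r b x) s) j
  | some ⟨b, Sum.inr (x, false)⟩ => fun s =>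
      F.om b / (2 * (F.B b).c) * mQ F b (Z (clamp (l b x) (r b x) s))

/-- the index set -/
noncomputable def I (T : Finset ι) (X : ι → Finset ℝ) : Finset (Ix ι) :=
  Finset.insertNone (T.sigma fun b => (Finset.univ : Finset Bool).disjSum (X b ×ˢ Finset.univ))

theorem mem_Z (C : Crv F κ S Y Z q γ T j X l r) {t : ℝ} (ht : t ∈ Icc (0:ℝ) 1) {b : ι} :
    Z (γ t) ∈ (F.B b).K ↔ Y t ∈ (F.B b).K := by
  rw [← C.eq t ht]
  refine ⟨C.κmem b _, fun h => ?_⟩
  rw [C.κon b _ h]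
  exact (F.B b).suppQ.maps h

theorem c_pos (b : ι) : 0 < (F.B b).c := (F.B b).lvs.c0

theorem Λ0 (b : ι) : 0 ≤ F.om b / (2 * (F.B b).c) := by
  have h1 := four_mul_le_stp (F.B b).lvs
  have h2 : 4 * (F.B b).c < F.om b := h1
  have h3 := c_pos (F := F) b
  apply div_nonneg <;> linarith

/-- the value of the fade-out only depends on the other coordinates -/
theorem mS_Y (C : Crv F κ S Y Z q γ T j X l r) {t : ℝ} (ht : t ∈ Icc (0:ℝ) 1) {b : ι}
    (hb : Y t ∈ (F.B b).K) : mS F b (Y t) = mS F b (Z (γ t)) := by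
  rw [← C.eq t ht, C.κon b _ hb, mS_Q]

theorem mQ_Y (C : Crv F κ S Y Z q γ T j X l r) {t : ℝ} (ht : t ∈ Icc (0:ℝ) 1) {b : ι}
    (hb : Y t ∈ (F.B b).K) : mQ F b (Y t) = mQ F b (Z (γ t)) := by
  rw [← C.eq t ht, C.κon b _ hb, mQ_Q]

theorem full_Y (C : Crv F κ S Y Z q γ T j X l r) {t : ℝ} (ht : t ∈ Icc (0:ℝ) 1) {b : ι}
    (hb : Y t ∈ (F.B b).K) : (F.B b).Full (Z (γ t)) ↔ (F.B b).Full (Y t) := by
  rw [← C.eq t ht, C.κon b _ hb]
  constructor
  · intro h i hi
    have := h i hi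
    rwa [(F.B b).Q_ne hi] at this
  · intro h i hi
    rw [(F.B b).Q_ne hi]
    exact h i hi

/-- **the estimate in one box**, for nearby parameters -/
theorem in_box (C : Crv F κ S Y Z q γ T j X l r) {b : ι} {t t' : ℝ} (ht : t ∈ Icc (0:ℝ) 1)
    (ht' : t' ∈ Icc (0:ℝ) 1) (hb : Y t ∈ (F.B b).K) (hb' : Y t' ∈ (F.B b).K)
    (hno : ∀ k < (F.B b).N, (F.B b).a k ∉ uIcc (Z (γ t) j) (Z (γ t') j))
    -- both in the full zone, or both in the zone where `Z = q`
    (hz : ((F.B b).Full (Z (γ t)) ∧ (F.B b).Full (Z (γ t'))) ∨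
      (Z (γ t) = q (γ t) ∧ Z (γ t') = q (γ t')))
    -- both off the bands, or both in one band and in one interval
    (hband : ((∀ k < (F.B b).N, 2 * (F.B b).c ≤ |Z (γ t) j - (F.B b).a k|) ∧
      ∀ k < (F.B b).N, 2 * (F.B b).c ≤ |Z (γ t') j - (F.B b).a k|) ∨
      ∃ k < (F.B b).N, |Z (γ t) j - (F.B b).a k| ≤ 2 * (F.B b).c ∧
        |Z (γ t') j - (F.B b).a k| ≤ 2 * (F.B b).c ∧
        ∃ x ∈ X b, γ t ∈ Icc (l b x) (r b x) ∧ γ t' ∈ Icc (l b x) (r b x)) :
    edist (S.toFun (Y t) j) (S.toFun (Y t') j) ≤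
      ∑ o ∈ I T X, edist (W F Z q j l r o (γ t)) (W F Z q j l r o (γ t')) := by
  classical
  have hbT : b ∈ T := C.mem b (γ t) (C.γI ht) ((C.mem_Z ht).2 hb)
  have hj := C.ax b hbT
  have hc := c_pos (F := F) b
  have eS : S.toFun (Y t) j = (F.Sb b).toFun (Y t) (F.B b).j := by rw [C.hS.on b _ hb, hj]
  have eS' : S.toFun (Y t') j = (F.Sb b).toFun (Y t') (F.B b).j := by rw [C.hS.on b _ hb', hj]
  have eQ : (F.B b).Q (Y t) = Z (γ t) := by rw [← C.κon b _ hb, C.eq t ht]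
  have eQ' : (F.B b).Q (Y t') = Z (γ t') := by rw [← C.κon b _ hb', C.eq t' ht']
  have hsub : ∀ U ⊆ I T X, ∀ R : ℝ, |S.toFun (Y t) j - S.toFun (Y t') j| ≤ R →
      ENNReal.ofReal R ≤ ∑ o ∈ U, edist (W F Z q j l r o (γ t)) (W F Z q j l r o (γ t')) →
      edist (S.toFun (Y t) j) (S.toFun (Y t') j) ≤
        ∑ o ∈ I T X, edist (W F Z q j l r o (γ t)) (W F Z q j l r o (γ t')) := by
    intro U hU R h1 h2
    rw [ofReal_abs_edist]
    exact (ENNReal.ofReal_le_ofReal h1).trans (h2.trans (Finset.sum_le_sum_of_subset hU))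
  rw [eS, eS'] at hsub
  rw [eS, eS']
  -- the fade-out
  have hmS : |mS F b (Y t) - mS F b (Y t')| ≤
      if (F.B b).Full (Z (γ t)) ∧ (F.B b).Full (Z (γ t')) then 0
      else |mS F b (q (γ t)) - mS F b (q (γ t'))| := by
    rw [C.mS_Y ht hb, C.mS_Y ht' hb']
    split_ifs with h
    · have e1 : mS F b (Z (γ t)) = F.D b := bmp_full (F.B b).hr h.1
      have e2 : mS F b (Z (γ t')) = F.D b := bmp_full (F.B b).hr h.2
      rw [e1, e2, sub_self, abs_zero]
    · rcases hz with h1 | ⟨h1, h2⟩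
      · exact absurd h1 h
      · rw [h1, h2]
  have mem0 : none ∈ I T X := by simp [I]
  have mem1 : ∀ β : Bool, (some ⟨b, Sum.inl β⟩ : Ix ι) ∈ I T X := fun β => by simp [I, hbT]
  have mem2 : ∀ x ∈ X b, ∀ β : Bool, (some ⟨b, Sum.inr (x, β)⟩ : Ix ι) ∈ I T X :=
    fun x hx β => by simp [I, hbT, hx]
  rcases hband with ⟨h1, h2⟩ | ⟨k, hk, h1, h2, x, hx, h3, h4⟩
  · -- off the bands
    have e1 : (F.B b).Q (Y t) = Y t := eq_of_off fun k hk => by rw [eQ, hj]; exact h1 k hk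
    have e2 : (F.B b).Q (Y t') = Y t' := eq_of_off fun k hk => by rw [eQ', hj]; exact h2 k hk
    rw [eQ] at e1
    rw [eQ'] at e2
    have g1 : ∀ k < (F.B b).N, 2 * (F.B b).c ≤ |Y t (F.B b).j - (F.B b).a k| := fun k hk => by
      rw [← e1, hj]; exact h1 k hk
    have g2 : ∀ k < (F.B b).N, 2 * (F.B b).c ≤ |Y t' (F.B b).j - (F.B b).a k| := fun k hk => by
      rw [← e2, hj]; exact h2 k hk
    have g3 : ∀ k < (F.B b).N, (F.B b).a k ∉ uIcc (Y t (F.B b).j) (Y t' (F.B b).j) :=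
      fun k hk => by rw [← e1, ← e2, hj]; exact hno k hk
    by_cases hf : (F.B b).Full (Z (γ t)) ∧ (F.B b).Full (Z (γ t'))
    · have h5 := off_full hb hb' ((C.full_Y ht hb).1 hf.1) ((C.full_Y ht' hb').1 hf.2) g1 g2 g3
      have h6 : |Y t (F.B b).j - Y t' (F.B b).j| = |Z (γ t) j - Z (γ t') j| := by
        rw [e1, e2, hj]
      rw [h6] at h5
      refine hsub {some ⟨b, Sum.inl true⟩} (by
        rw [Finset.singleton_subset_iff]; exact mem1 true) _ h5 ?_
      rw [Finset.sum_singleton, ofReal_abs_edist]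
      apply ENNReal.ofReal_le_ofReal
      show _ ≤ |F.e b / (F.B b).c * Z (γ t) j - F.e b / (F.B b).c * Z (γ t') j|
      rw [← mul_sub, abs_mul, abs_of_nonneg (div_nonneg (F.he b).le hc.le)]
    · have h5 := off_le (C.hec b hbT) hb hb' g1 g2 g3
      rw [if_neg hf] at hmS
      rcases hz with h6 | ⟨h6, h7⟩
      · exact absurd h6 hf
      refine hsub {none, some ⟨b, Sum.inl false⟩} (by
        rw [Finset.insert_subset_iff, Finset.singleton_subset_iff]
        exact ⟨mem0, mem1 false⟩) _ (h5.trans (add_le_add le_rfl hmS)) ?_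
      rw [Finset.sum_pair (by simp), ofReal_abs_edist, ofReal_abs_edist,
        ← ENNReal.ofReal_add (abs_nonneg _) (abs_nonneg _)]
      apply ENNReal.ofReal_le_ofReal
      show _ ≤ |q (γ t) j - q (γ t') j| + |mS F b (q (γ t)) - mS F b (q (γ t'))|
      rw [← e1, ← e2, h6, h7, hj]
  · -- in one band
    have h5 := band_le hb hb' hk (by rw [eQ, hj]; exact h1) (by rw [eQ', hj]; exact h2)
      (fun k hk => by rw [eQ, eQ', hj]; exact hno k hk)
    have e0 : |Z (γ t) (F.B b).j - Z (γ t') (F.B b).j| = |Z (γ t) j - Z (γ t') j| := by rw [hj]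
    rw [eQ, eQ', e0, C.mQ_Y ht hb, C.mQ_Y ht' hb'] at h5
    have hA := Λ0 (F := F) b
    have e3 : W F Z q j l r (some ⟨b, Sum.inr (x, true)⟩) (γ t) =
        F.om b / (2 * (F.B b).c) * Z (γ t) j := by
      show F.om b / (2 * (F.B b).c) * Z (clamp (l b x) (r b x) (γ t)) j = _
      rw [clamp_of_mem h3]
    have e4 : W F Z q j l r (some ⟨b, Sum.inr (x, true)⟩) (γ t') =
        F.om b / (2 * (F.B b).c) * Z (γ t') j := by
      show F.om b / (2 * (F.B b).c) * Z (clamp (l b x) (r b x) (γ t')) j = _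
      rw [clamp_of_mem h4]
    have e5 : W F Z q j l r (some ⟨b, Sum.inr (x, false)⟩) (γ t) =
        F.om b / (2 * (F.B b).c) * mQ F b (Z (γ t)) := by
      show F.om b / (2 * (F.B b).c) * mQ F b (Z (clamp (l b x) (r b x) (γ t))) = _
      rw [clamp_of_mem h3]
    have e6 : W F Z q j l r (some ⟨b, Sum.inr (x, false)⟩) (γ t') =
        F.om b / (2 * (F.B b).c) * mQ F b (Z (γ t')) := by
      show F.om b / (2 * (F.B b).c) * mQ F b (Z (clamp (l b x) (r b x) (γ t'))) = _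
      rw [clamp_of_mem h4]
    refine hsub {some ⟨b, Sum.inr (x, true)⟩, some ⟨b, Sum.inr (x, false)⟩,
      some ⟨b, Sum.inl false⟩} (by
        rw [Finset.insert_subset_iff, Finset.insert_subset_iff, Finset.singleton_subset_iff]
        exact ⟨mem2 x hx true, mem2 x hx false, mem1 false⟩) _
        (h5.trans (add_le_add le_rfl hmS)) ?_
    rw [Finset.sum_insert (by simp), Finset.sum_pair (by simp), ofReal_abs_edist,
      ofReal_abs_edist, ofReal_abs_edist, ← ENNReal.ofReal_add (abs_nonneg _) (abs_nonneg _),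
      ← ENNReal.ofReal_add (abs_nonneg _) (by positivity)]
    apply ENNReal.ofReal_le_ofReal
    rw [e3, e4, e5, e6, ← mul_sub, ← mul_sub, abs_mul, abs_mul, abs_of_nonneg hA, mul_add,
      add_assoc]
    refine add_le_add le_rfl (add_le_add le_rfl ?_)
    split_ifs
    · exact abs_nonneg _
    · exact le_rfl

/-- the boxes are locally finite along the curve -/
theorem near_box (C : Crv F κ S Y Z q γ T j X l r) {t : ℝ} (ht : t ∈ Icc (0:ℝ) 1) :
    ∀ᶠ t' in 𝓝[Icc 0 1] t, ∀ b, Y t' ∈ (F.B b).K → Y t ∈ (F.B b).K := by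
  obtain ⟨U, hU, hf⟩ := F.lf _ (C.YΛ ht)
  have h1 : ∀ᶠ y in 𝓝 (Y t), ∀ b ∈ {b | ((F.B b).K ∩ U).Nonempty}, y ∈ (F.B b).K →
      Y t ∈ (F.B b).K := by
    refine (eventually_all_finite hf).2 fun b _ => ?_
    by_cases hb : Y t ∈ (F.B b).K
    · exact Eventually.of_forall fun _ _ => hb
    · filter_upwards [(F.B b).isCompact_K.isClosed.isOpen_compl.mem_nhds hb] with y hy hy'
      exact absurd hy' hy
  have h2 : ∀ᶠ y in 𝓝 (Y t), ∀ b, y ∈ (F.B b).K → Y t ∈ (F.B b).K := by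
    filter_upwards [h1, hU] with y hy hyU b hb
    exact hy b ⟨y, hb, hyU⟩ hb
  exact (C.Yc t ht).eventually h2

/-- a point of the boundary of all boxes which contain it is fixed -/
theorem fixed (C : Crv F κ S Y Z q γ T j X l r) {t : ℝ} (h : ∀ b, Y t ∉ interior (F.B b).K) :
    S.toFun (Y t) = Y t ∧ κ (Y t) = Y t := by
  by_cases h1 : ∃ b, Y t ∈ (F.B b).K
  · obtain ⟨b, hb⟩ := h1
    rw [C.hS.on b _ hb, C.κon b _ hb]
    exact ⟨(F.supp b).bdry (h b), (F.B b).suppQ.bdry (h b)⟩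
  · push Not at h1
    exact ⟨C.hS.off _ h1, C.κoff _ h1⟩

theorem fullK_sub (b : ι) : {y | F.FullK b y} ⊆ (F.B b).K := fun _ hy => hy.mem

/-- **the local estimate** -/
theorem loc (C : Crv F κ S Y Z q γ T j X l r) {t : ℝ} (ht : t ∈ Icc (0:ℝ) 1)
    (htX : γ t ∉ T.biUnion X) : ∀ᶠ t' in 𝓝[Icc 0 1] t,
      edist (S.toFun (Y t) j) (S.toFun (Y t') j) ≤
      ∑ o ∈ I T X, edist (W F Z q j l r o (γ t)) (W F Z q j l r o (γ t')) := by
  classical
  have hγt : Tendsto γ (𝓝[Icc 0 1] t) (𝓝[Icc 0 1] (γ t)) :=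
    tendsto_nhdsWithin_of_tendsto_nhds_of_eventually_within _ (C.γc t ht)
      (eventually_nhdsWithin_of_forall fun t' ht' => C.γI ht')
  have hs := C.γI ht
  set s := γ t with hsdef
  have hZc : Tendsto (fun s' => Z s' j) (𝓝[Icc 0 1] s) (𝓝 (Z s j)) :=
    ((continuous_apply j).continuousAt.tendsto.comp (C.Zc s hs))
  -- no levels
  have f1 : ∀ b ∈ T, Z s ∈ (F.B b).K → ∀ᶠ s' in 𝓝[Icc 0 1] s, ∀ k < (F.B b).N,
      (F.B b).a k ∉ uIcc (Z s j) (Z s' j) := by
    intro b hb hbK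
    have h1 : ∀ᶠ s' in 𝓝[Icc 0 1] s, ∀ k ∈ {k | k < (F.B b).N},
        (F.B b).a k ∉ uIcc (Z s j) (Z s' j) := by
      refine (eventually_all_finite (finite_lt_nat _)).2 fun k hk => ?_
      have hne : Z s j ≠ (F.B b).a k := fun h => htX
        (Finset.mem_biUnion.2 ⟨b, hb, C.cross b hb s hs hbK ⟨k, hk, h⟩⟩)
      have h2 : ∀ᶠ y in 𝓝 (Z s j), |y - Z s j| < |(F.B b).a k - Z s j| := by
        have h3 : 0 < |(F.B b).a k - Z s j| := abs_pos.2 (sub_ne_zero.2 hne.symm)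
        filter_upwards [Metric.ball_mem_nhds _ h3] with y hy
        rwa [Metric.mem_ball, Real.dist_eq] at hy
      filter_upwards [hZc.eventually h2] with s' h4 h5
      have h6 := abs_sub_left_of_mem_uIcc h5
      exact absurd h6 (not_le.2 h4)
    filter_upwards [h1] with s' h2 k hk
    exact h2 k hk
  -- full or faded
  have f2 : ∀ b, Z s ∈ (F.B b).K → ∀ᶠ s' in 𝓝[Icc 0 1] s,
      ((F.B b).Full (Z s) ∧ (F.B b).Full (Z s')) ∨ (Z s = q s ∧ Z s' = q s') := by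
    intro b hbK
    by_cases h : ∃ b0, Z s ∈ interior {y | F.FullK b0 y}
    · obtain ⟨b0, hb0⟩ := h
      have hbb : b = b0 := by
        by_contra hne
        exact (F.dis b0 b (Ne.symm hne)).notMem_of_mem_left
          (interior_mono (fullK_sub b0) hb0) hbK
      subst hbb
      have h1 : ∀ᶠ s' in 𝓝[Icc 0 1] s, Z s' ∈ interior {y | F.FullK b y} :=
        (C.Zc s hs).eventually (isOpen_interior.mem_nhds hb0)
      filter_upwards [h1] with s' h2
      left
      have h3 : Z s ∈ {y | F.FullK b y} := interior_subset hb0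
      have h4 : Z s' ∈ {y | F.FullK b y} := interior_subset h2
      exact ⟨(show F.FullK b (Z s) from h3).2, (show F.FullK b (Z s') from h4).2⟩
    · push Not at h
      have h1 := C.fade s hs h
      filter_upwards [h1] with s' h2
      exact Or.inr ⟨h1.self_of_nhdsWithin hs, h2⟩
  -- bands
  have f3 : ∀ b ∈ T, Z s ∈ (F.B b).K → ∀ᶠ s' in 𝓝[Icc 0 1] s, s' ∈ Icc (0:ℝ) 1 →
      Z s' ∈ (F.B b).K →
      ((∀ k < (F.B b).N, 2 * (F.B b).c ≤ |Z s j - (F.B b).a k|) ∧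
      ∀ k < (F.B b).N, 2 * (F.B b).c ≤ |Z s' j - (F.B b).a k|) ∨
      ∃ k < (F.B b).N, |Z s j - (F.B b).a k| ≤ 2 * (F.B b).c ∧
        |Z s' j - (F.B b).a k| ≤ 2 * (F.B b).c ∧
        ∃ x ∈ X b, s ∈ Icc (l b x) (r b x) ∧ s' ∈ Icc (l b x) (r b x) := by
    intro b hb hbK
    have g1 : ∀ k, Tendsto (fun s' => |Z s' j - (F.B b).a k|) (𝓝[Icc 0 1] s)
        (𝓝 |Z s j - (F.B b).a k|) := fun k => (hZc.sub_const _).abs
    have h1 : ∀ᶠ s' in 𝓝[Icc 0 1] s, ∀ k ∈ {k | k < (F.B b).N},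
        (2 * (F.B b).c < |Z s j - (F.B b).a k| → 2 * (F.B b).c < |Z s' j - (F.B b).a k|) ∧
        (|Z s j - (F.B b).a k| < 2 * (F.B b).c → |Z s' j - (F.B b).a k| < 2 * (F.B b).c) := by
      refine (eventually_all_finite (finite_lt_nat _)).2 fun k _ => ?_
      refine Filter.Eventually.and ?_ ?_
      · by_cases h : 2 * (F.B b).c < |Z s j - (F.B b).a k|
        · filter_upwards [(g1 k).eventually (lt_mem_nhds h)] with s' h2 _ using h2
        · exact Eventually.of_forall fun _ h2 => absurd h2 h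
      · by_cases h : |Z s j - (F.B b).a k| < 2 * (F.B b).c
        · filter_upwards [(g1 k).eventually (gt_mem_nhds h)] with s' h2 _ using h2
        · exact Eventually.of_forall fun _ h2 => absurd h2 h
    have h2 : ∀ᶠ s' in 𝓝[Icc 0 1] s, ∀ x ∈ X b, s' ∈ Icc (l b x) (r b x) →
        s ∈ Icc (l b x) (r b x) := by
      refine (Finset.eventually_all _).2 fun x _ => ?_
      by_cases h : s ∈ Icc (l b x) (r b x)
      · exact Eventually.of_forall fun _ _ => h
      · filter_upwards [mem_nhdsWithin_of_mem_nhds (isClosed_Icc.isOpen_compl.mem_nhds h)]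
          with s' h3 h4
        exact absurd h4 h3
    filter_upwards [h1, h2] with s' h3 h4 hs' hsK
    by_cases h5 : ∃ k < (F.B b).N, |Z s' j - (F.B b).a k| < 2 * (F.B b).c
    · right
      obtain ⟨k, hk, h6⟩ := h5
      obtain ⟨x, hx, h7⟩ := C.band b hb s' hs' hsK ⟨k, hk, h6.le⟩
      refine ⟨k, hk, ?_, h6.le, x, hx, h4 x hx h7, h7⟩
      by_contra h8
      exact absurd ((h3 k hk).1 (not_le.1 h8)) (not_lt.2 h6.le)
    · push Not at h5
      left
      refine ⟨fun k hk => ?_, h5⟩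
      by_contra h8
      exact absurd ((h3 k hk).2 (not_le.1 h8)) (not_lt.2 (h5 k hk))
  have F' : ∀ b ∈ T, Z s ∈ (F.B b).K → ∀ᶠ t' in 𝓝[Icc 0 1] t, Y t' ∈ (F.B b).K →
      edist (S.toFun (Y t) j) (S.toFun (Y t') j) ≤
      ∑ o ∈ I T X, edist (W F Z q j l r o (γ t)) (W F Z q j l r o (γ t')) := by
    intro b hb hbK
    filter_upwards [hγt.eventually (f1 b hb hbK), hγt.eventually (f2 b hbK),
      hγt.eventually (f3 b hb hbK), self_mem_nhdsWithin] with t' h1 h2 h3 ht' hK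
    exact C.in_box ht ht' ((C.mem_Z ht).1 hbK) hK h1 h2
      (h3 (C.γI ht') ((C.mem_Z ht').2 hK))
  have F'' : ∀ᶠ t' in 𝓝[Icc 0 1] t, ∀ b ∈ T, Z s ∈ (F.B b).K → Y t' ∈ (F.B b).K →
      edist (S.toFun (Y t) j) (S.toFun (Y t') j) ≤
      ∑ o ∈ I T X, edist (W F Z q j l r o (γ t)) (W F Z q j l r o (γ t')) := by
    refine (Finset.eventually_all _).2 fun b hb => ?_
    by_cases h : Z s ∈ (F.B b).K
    · filter_upwards [F' b hb h] with t' h1 _ using h1
    · exact Eventually.of_forall fun _ h1 => absurd h1 h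
  by_cases hint : ∃ b, Y t ∈ interior (F.B b).K
  · obtain ⟨b, hb⟩ := hint
    have hbK : Z s ∈ (F.B b).K := (C.mem_Z ht).2 (interior_subset hb)
    have h1 : ∀ᶠ t' in 𝓝[Icc 0 1] t, Y t' ∈ interior (F.B b).K :=
      (C.Yc t ht).eventually (isOpen_interior.mem_nhds hb)
    filter_upwards [F'', h1] with t' h2 h3
    exact h2 b (C.mem b s hs hbK) hbK (interior_subset h3)
  · push Not at hint
    obtain ⟨e1, e2⟩ := C.fixed hint
    have e3 : Z s = Y t := by rw [hsdef, ← C.eq t ht, e2]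
    have h1 := C.fade s hs fun b hb => hint b (by
      rw [e3] at hb; exact interior_mono (fullK_sub b) hb)
    filter_upwards [F'', C.near_box ht, hγt.eventually h1, self_mem_nhdsWithin]
      with t' h2 h3 h4 ht'
    by_cases h5 : ∃ b, Y t' ∈ (F.B b).K
    · obtain ⟨b, hb⟩ := h5
      have hbK : Z s ∈ (F.B b).K := (C.mem_Z ht).2 (h3 b hb)
      exact h2 b (C.mem b s hs hbK) hbK hb
    · push Not at h5
      have e4 : S.toFun (Y t') = Y t' := C.hS.off _ h5
      have e5 : Y t' = q (γ t') := by rw [← h4, ← C.eq t' ht', C.κoff _ h5]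
      have e6 : Y t = q (γ t) := by rw [← e3]; exact h1.self_of_nhdsWithin hs
      refine le_trans ?_ (Finset.single_le_sum (f := fun o =>
        edist (W F Z q j l r o (γ t)) (W F Z q j l r o (γ t'))) (fun _ _ => zero_le)
        (show none ∈ I T X by simp [I]))
      show _ ≤ edist (q (γ t) j) (q (γ t') j)
      rw [e4, e1, e5, e6]

/-- **[T5]**, the variation of one coordinate along an edge -/
theorem evar_le (C : Crv F κ S Y Z q γ T j X l r) :
    eVariationOn (fun t => S.toFun (Y t) j) (Icc 0 1) ≤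
      ∑ b ∈ T, ((X b).card * ENNReal.ofReal (F.om b)) +
      (eVariationOn (fun s => q s j) (Icc 0 1) +
      ∑ b ∈ T, (ENNReal.ofReal (F.e b / (F.B b).c) * eVariationOn (fun s => Z s j) (Icc 0 1) +
        eVariationOn (fun s => mS F b (q s)) (Icc 0 1) +
        ∑ x ∈ X b, ENNReal.ofReal (F.om b / (2 * (F.B b).c)) *
          (eVariationOn (fun s => Z s j) (Icc (l b x) (r b x)) +
          eVariationOn (fun s => mQ F b (Z s)) (Icc (l b x) (r b x))))) := by
  classical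
  have hSY : ContinuousOn (fun t => S.toFun (Y t) j) (Icc 0 1) :=
    (continuous_apply j).comp_continuousOn (S.cont.comp C.Yc C.YΛ)
  have key := evar_le_cross (I T X) (Z := W F Z q j l r) C.γm C.γc hSY (T.biUnion X)
    (fun x => ∑ b ∈ T with x ∈ X b, ENNReal.ofReal (F.om b)) ?_ (fun s hs hsX => C.loc hs hsX)
  · refine key.trans (add_le_add ?_ ?_)
    · -- crossings
      refine le_of_eq ?_
      simp only [Finset.sum_filter]
      rw [Finset.sum_comm]
      refine Finset.sum_congr rfl fun b hb => ?_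
      rw [← Finset.sum_filter, Finset.sum_const, nsmul_eq_mul]
      congr 3
      ext x
      rw [Finset.mem_filter, Finset.mem_biUnion]
      exact ⟨fun h => h.2, fun h => ⟨⟨b, hb, h⟩, h⟩⟩
    · have hcomp : ∀ f : ℝ → ℝ, eVariationOn (fun s => f (γ s)) (Icc 0 1) ≤
          eVariationOn f (Icc 0 1) := fun f =>
        eVariationOn.comp_le_of_monotoneOn f γ C.γm C.γI
      unfold I
      rw [Finset.sum_insertNone, Finset.sum_sigma]
      refine add_le_add (hcomp _) (Finset.sum_le_sum fun b hb => ?_)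
      rw [Finset.sum_disjSum, Finset.sum_product, Fintype.sum_bool]
      refine add_le_add (add_le_add ?_ (hcomp _)) (Finset.sum_le_sum fun x hx => ?_)
      · refine (hcomp _).trans ?_
        exact evar_smul _ (div_nonneg (F.he b).le (c_pos (F := F) b).le) _ _
      · rw [Fintype.sum_bool, mul_add]
        have hA := Λ0 (F := F) b
        refine add_le_add ?_ ?_
        · refine (hcomp _).trans ((evar_smul _ hA _ _).trans ?_)
          gcongr
          exact evar_clamp (fun s => Z s j) (C.lr b hb x hx) _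
        · refine (hcomp _).trans ((evar_smul _ hA _ _).trans ?_)
          gcongr
          exact evar_clamp (fun s => mQ F b (Z s)) (C.lr b hb x hx) _
  · intro x hx
    obtain ⟨b, hb, hbx⟩ := Finset.mem_biUnion.1 hx
    have h1 := evar_fibre (ebx_ok F b) (κ := κ) (S := S.toFun) C.γm C.γc C.Yc C.Yi
      (x := x) (z := Z x) (fun t ht htx => ?_) j
    · refine h1.trans ?_
      have hj : (ebx F b).j = j := C.ax b hb
      rw [if_pos hj]
      exact Finset.single_le_sum (f := fun b => ENNReal.ofReal (F.om b)) (fun _ _ => zero_le)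
        (Finset.mem_filter.2 ⟨hb, hbx⟩)
    · have h2 : Y t ∈ (F.B b).K := (C.mem_Z ht).1 (by rw [htx]; exact C.XK b hb x hbx)
      refine ⟨by rw [C.eq t ht, htx], C.κon b _ h2, C.hS.on b _ h2⟩

end Crv

end Vale.Agent.P073.H581
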