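import Vale.Agent.P073.H581.T5H

/-!
# P073, ROUND T for `K3C`, **[T-END]**, the variation of the coordinates for `S⁺ = S.trans Ψ`

`PsE`: what is used about the map `Ψ` at the ends of the windows. `exists_t5E`: (T5) for
`(g.trans (S.trans Ψ))`, clamped at the ends of the window.
-/

open Set Metric Topology Filter
open scoped ENNReal

namespace Vale.Agent.P073.H581

open _root_.P073 _root_.P073.Net _root_.P073.PA691 _root_.P073.H236 _root_.P073.H196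
open Vale.Agent.P073.St (V)
open Vale.Agent.P073.H471 Vale.Agent.P073.H267 Vale.Agent.P073.H267.Geo
open Vale.Agent.P073.H73 (Mesh)
open Vale.Agent.P073.H193 (Edges)
open Vale.Agent.P073.H238 (oT TMid)
open _root_.P073.Croft (onS)
open Vale.Agent.P073.H579 (TStageW)
open Vale.Agent.P073.H669 (TLv)
open _root_.P073.H267 (tvE lenE)

variable {Ω Λ : Set V} {v : V} {K : BoxCx Λ v} {S₀ : Rad K} {Wd : Wid K S₀} {B : Boxes Wd}
  {G : Geo B} {M : Mesh Ω} {E : Edges M} {h h' : ConHomeo Ω Λ} {ω : TBx K → ℝ}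
  {T : TBx K → Finset (ℝ × ℝ)} {η : ℝ} {τ₀ : Type*} {A₀ : τ₀ → Set V} {C : Set ℝ} {εE : E.ε → ℝ}
  {δ : TBx K → ℝ} {Pr W : Set M.ι} {Act₀ : Set M.κ} {G₀ : Set (TBx K)}

/-- **what is used about the map at the ends of the windows**: full in `rtK 60`, slope `r` near the
ends, `16/15` in the middle -/
structure PsE (G : Geo B) (ω : TBx K → ℝ) (G₀ : Set (TBx K)) (Ψ : ConHomeo Λ Λ) (k : G₀ → ℝ → ℝ)
    (r : G₀ → ℝ) : Prop where
  full : ∀ b : G₀, ∀ y ∈ rtK G ω b.1 60,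
    Ψ.toFun y = Function.update y b.1.ax (k b (y b.1.ax))
  win : ∀ b : G₀, ∀ t ∈ Icc (G.tlo true b.1 b.1.ax) (G.thi true b.1 b.1.ax),
    k b t ∈ Icc (G.tlo true b.1 b.1.ax) (G.thi true b.1 b.1.ax)
  key : ∀ b : G₀, ∀ s ∈ Icc (G.tlo true b.1 b.1.ax) (G.thi true b.1 b.1.ax),
    ∀ t ∈ Icc (G.tlo true b.1 b.1.ax) (G.thi true b.1 b.1.ax), |k b s - k b t| ≤
    16 / 15 * |clamp (G.tlo true b.1 b.1.ax + 2048 * ω b.1) (G.thi true b.1 b.1.ax - 2048 * ω b.1)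
      s - clamp (G.tlo true b.1 b.1.ax + 2048 * ω b.1) (G.thi true b.1 b.1.ax - 2048 * ω b.1) t| +
      r b * |s - t|
  lip : ∀ y ∈ Λ, ∀ᶠ y' in 𝓝 y, ‖Ψ.toFun y' - Ψ.toFun y‖ ≤ 2 * ‖y' - y‖
  r0 : ∀ b, 0 ≤ r b
  r1 : ∀ b, r b ≤ 1 / 2
  mid : ∀ b : G₀, ∀ t, G.tlo true b.1 b.1.ax + 32768 * ω b.1 ≤ t →
    t ≤ G.thi true b.1 b.1.ax - 32768 * ω b.1 → k b t = t

/-- in the box of a hanging vertex the clamped coordinate of a tube is constant -/
theorem const_inl {F : V → V} {e' : K.G} {p : Hang K}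
    (L : TLv G E h ω T η A₀ C εE δ)
    (hF : ∀ y ∈ rtK G ω (.inr p) 60, F y ∈ rtK G ω (.inr p) 60)
    (hi' : p.i = K.a e' ∨ p.i = K.b e') {lo hi : ℝ}
    (hlo : G.tlo true (.inl e') (K.dir e') ≤ lo) (hhi : hi ≤ G.thi true (.inl e') (K.dir e')) :
    ∀ y ∈ rtK G ω (.inr p) 60, ∀ y' ∈ rtK G ω (.inr p) 60,
      clamp lo hi (F y (K.dir e')) = clamp lo hi (F y' (K.dir e')) := by
  have key : ∀ y ∈ rtK G ω (.inr p) 60, |F y (K.dir e') - K.w p.i (K.dir e')| ≤ G.be p.i := by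
    intro y hy
    have h3 := TB_inr_ball p (rtK_sub L (by norm_num) (hF y hy))
    rw [mem_closedBall, dist_pi_le_iff (G.be_pos _).le] at h3
    have h4 := h3 (K.dir e')
    rwa [Real.dist_eq] at h4
  have e1 : G.tlo true (.inl e') (K.dir e') = K.w (K.a e') (K.dir e') + G.be (K.a e') := by
    simp [Geo.tlo]
  have e2 : G.thi true (.inl e') (K.dir e') = K.w (K.b e') (K.dir e') - G.be (K.b e') := by
    simp [Geo.thi]
  intro y hy y' hy'
  have h1 := abs_le.1 (key y hy)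
  have h2 := abs_le.1 (key y' hy')
  unfold clamp
  rcases hi' with hi' | hi'
  · rw [hi'] at h1 h2
    rw [max_eq_left ((min_le_right _ _).trans (by linarith [h1.2])),
      max_eq_left ((min_le_right _ _).trans (by linarith [h2.2]))]
  · rw [hi'] at h1 h2
    rw [min_eq_left (by linarith [h1.1] : hi ≤ F y (K.dir e')),
      min_eq_left (by linarith [h2.1] : hi ≤ F y' (K.dir e'))]

/-- in the box of a tube which ends at the hanging vertex the clamped coordinate is constant -/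
theorem const_inr {F : V → V} {e' : K.G} {p : Hang K} (L : TLv G E h ω T η A₀ C εE δ)
    (hF : ∀ y ∈ rtK G ω (.inl e') 60, F y ∈ rtK G ω (.inl e') 60)
    (hdir : K.dir e' = p.l) (hi' : p.i = K.a e' ∨ p.i = K.b e')
    {lo hi : ℝ} (hlo : G.tlo true (.inr p) p.l ≤ lo) (hhi : hi ≤ G.thi true (.inr p) p.l) :
    ∀ y ∈ rtK G ω (.inl e') 60, ∀ y' ∈ rtK G ω (.inl e') 60,
      clamp lo hi (F y p.l) = clamp lo hi (F y' p.l) := by
  have key : ∀ y ∈ rtK G ω (.inl e') 60,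
      K.w (K.a e') p.l + G.be (K.a e') ≤ F y p.l ∧
        F y p.l ≤ K.w (K.b e') p.l - G.be (K.b e') := by
    intro y hy
    have h3 := (mem_inl.1 (rtK_sub L (by norm_num) (hF y hy))).1
    rwa [hdir] at h3
  have e1 : G.tlo true (.inr p) p.l = K.w p.i p.l - G.be p.i := by simp [Geo.tlo]
  have e2 : G.thi true (.inr p) p.l = K.w p.i p.l + G.be p.i := by simp [Geo.thi]
  intro y hy y' hy'
  have h1 := key y hy
  have h2 := key y' hy'
  unfold clamp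
  rcases hi' with hi' | hi'
  · rw [← hi'] at h1 h2
    rw [min_eq_left (by linarith [h1.1] : hi ≤ F y p.l),
      min_eq_left (by linarith [h2.1] : hi ≤ F y' p.l)]
  · rw [← hi'] at h1 h2
    rw [max_eq_left ((min_le_right _ _).trans (by linarith [h1.2])),
      max_eq_left ((min_le_right _ _).trans (by linarith [h2.2]))]

theorem norm_sub_update (y : V) (i : Fin 3) (t : ℝ) :
    ‖y - Function.update y i t‖ ≤ |y i - t| := by
  rw [pi_norm_le_iff_of_nonneg (abs_nonneg _)]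
  intro j
  by_cases hj : j = i
  · subst hj
    rw [Pi.sub_apply, Function.update_self, Real.norm_eq_abs]
  · rw [Pi.sub_apply, Function.update_of_ne hj, sub_self, norm_zero]
    exact abs_nonneg _

section

variable {L : TLv G E h ω T η A₀ C εE δ} {c : TBx K → ℝ} {hc0 : ∀ b, 0 < c b}
  {hc : ∀ b, c b ≤ δ b / 8} {e : TBx K → ℝ} {S : ConHomeo Λ Λ} {φ : G₀ → V → ℝ → ℝ} {A : ℝ}
  {τ : G₀ → ℝ → ℝ} {q d : G₀ → ℝ} {Ψ : ConHomeo Λ Λ} {k : G₀ → ℝ → ℝ} {r : G₀ → ℝ}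

/-- the value of `Ψ ∘ S` in the box -/
theorem PsE.val (Y : PsE G ω G₀ Ψ k r) (X : StF L hc0 hc G₀ e S φ A τ q d) {b : G₀} {y : V}
    (hy : y ∈ rtK G ω b.1 60) :
    (S.trans Ψ).toFun y b.1.ax = k b (φ b y (y b.1.ax)) ∧
      φ b y (y b.1.ax) ∈ Icc (G.tlo true b.1 b.1.ax) (G.thi true b.1 b.1.ax) := by
  have h1 : S.toFun y ∈ rtK G ω b.1 60 := X.vrt.mem (b := b) hy
  have h2 : Ψ.toFun (S.toFun y) b.1.ax = k b (S.toFun y b.1.ax) := by
    rw [Y.full b _ h1, Function.update_self]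
  rw [X.val hy] at h2
  exact ⟨h2, X.vrt.win b y hy⟩

theorem PsE.maps (Y : PsE G ω G₀ Ψ k r) (X : StF L hc0 hc G₀ e S φ A τ q d) (b : G₀) :
    ∀ y ∈ rtK G ω b.1 60, (S.trans Ψ).toFun y ∈ rtK G ω b.1 60 := by
  intro y hy
  have h1 : S.toFun y ∈ rtK G ω b.1 60 := X.vrt.mem (b := b) hy
  show Ψ.toFun (S.toFun y) ∈ _
  rw [Y.full b _ h1]
  exact upd_rtK h1 (Y.win b _ h1.1)

/-- **the estimates in the box** -/
theorem PsE.fest (Y : PsE G ω G₀ Ψ k r) (X : StF L hc0 hc G₀ e S φ A τ q d) (hA : 0 ≤ A)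
    (hq : ∀ b, q b ≤ A) (he : ∀ b, 0 < e b) (he2 : ∀ b, 2 * e b < δ b) (b : G₀) :
    FEst (L.bxQ c hc0 hc b.1) (TMid G b.1 (ω b.1))
      (fun y => clamp (G.tlo true b.1 b.1.ax) (G.thi true b.1 b.1.ax)
        ((S.trans Ψ).toFun y b.1.ax)) (2 * A) (δ b.1) (2 * (A * (e b.1 / c b.1)) + r b * A) := by
  have hω := L.ω0 b.1
  have hr0 := Y.r0 b
  have hr1 := Y.r1 b
  have hval : ∀ y ∈ rtK G ω b.1 60, clamp (G.tlo true b.1 b.1.ax) (G.thi true b.1 b.1.ax)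
      ((S.trans Ψ).toFun y b.1.ax) = k b (S.toFun y b.1.ax) ∧
      S.toFun y b.1.ax ∈ Icc (G.tlo true b.1 b.1.ax) (G.thi true b.1 b.1.ax) := by
    intro y hy
    obtain ⟨h1, h2⟩ := Y.val X hy
    rw [X.val hy]
    exact ⟨by rw [h1, clamp_of_mem (Y.win b _ h2)], h2⟩
  refine ⟨fun y hy y' hy' => ?_, fun y hy y' hy' => ?_⟩
  · rw [bxQ_K L hc0 hc] at hy hy'
    have h60 := rtK_mono L (b := b.1) (show (40:ℝ) ≤ 60 by norm_num)
    obtain ⟨h1, h2⟩ := hval y (h60 hy)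
    obtain ⟨h1', h2'⟩ := hval y' (h60 hy')
    show |clamp _ _ ((S.trans Ψ).toFun y b.1.ax) - clamp _ _ ((S.trans Ψ).toFun y' b.1.ax)| ≤ _
    rw [h1, h1']
    refine (Y.key b _ h2 _ h2').trans ?_
    have h3 := abs_clamp_sub_le (G.tlo true b.1 b.1.ax + 2048 * ω b.1)
      (G.thi true b.1 b.1.ax - 2048 * ω b.1) (S.toFun y b.1.ax) (S.toFun y' b.1.ax)
    have h4 := X.on b y (h60 hy) y' (h60 hy')
    rw [← X.val (h60 hy), ← X.val (h60 hy')] at h4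
    have h5 := abs_nonneg (S.toFun y b.1.ax - S.toFun y' b.1.ax)
    have h6 : r b * |S.toFun y b.1.ax - S.toFun y' b.1.ax| ≤
        1 / 2 * |S.toFun y b.1.ax - S.toFun y' b.1.ax| := mul_le_mul_of_nonneg_right hr1 h5
    have h7 : 2 * |S.toFun y b.1.ax - S.toFun y' b.1.ax| ≤ 2 * (A * (‖y - y'‖ +
      δ b.1 / (2 * c b.1) * wfl (L.bxQ c hc0 hc b.1) (y b.1.ax) (y' b.1.ax))) := by linarith
    have e1 : 2 * A * (‖y - y'‖ + δ b.1 / (2 * (L.bxQ c hc0 hc b.1).c) *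
        wfl (L.bxQ c hc0 hc b.1) (y (L.bxQ c hc0 hc b.1).j) (y' (L.bxQ c hc0 hc b.1).j)) =
        2 * (A * (‖y - y'‖ +
      δ b.1 / (2 * c b.1) * wfl (L.bxQ c hc0 hc b.1) (y b.1.ax) (y' b.1.ax))) := mul_assoc _ _ _
    rw [e1]
    linarith
  · rw [tmid_rtK] at hy hy'
    have h12 := rtK_mono L (b := b.1) (show (10:ℝ) ≤ 12 by norm_num)
    have h60 := rtK_mono L (b := b.1) (show (12:ℝ) ≤ 60 by norm_num)
    obtain ⟨h1, h2⟩ := hval y (h60 (h12 hy))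
    obtain ⟨h1', h2'⟩ := hval y' (h60 (h12 hy'))
    show |clamp _ _ ((S.trans Ψ).toFun y b.1.ax) - clamp _ _ ((S.trans Ψ).toFun y' b.1.ax)| ≤ _
    rw [h1, h1']
    refine (Y.key b _ h2 _ h2').trans ?_
    have h3 := (X.fest hA hq he he2 b (lo := G.tlo true b.1 b.1.ax + 2048 * ω b.1)
      (hi := G.thi true b.1 b.1.ax - 2048 * ω b.1) (by linarith) (by linarith)).full y
      (by rw [tmid_rtK]; exact hy) y' (by rw [tmid_rtK]; exact hy')
    -- the coordinate in the full zone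
    have hy'' : Function.update y b.1.ax (y' b.1.ax) ∈ rtK G ω b.1 12 := upd_rtK (h12 hy) hy'.1
    have h4 := X.on b y (h60 (h12 hy)) _ (h60 hy'')
    have e2 : φ b (Function.update y b.1.ax (y' b.1.ax))
        (Function.update y b.1.ax (y' b.1.ax) b.1.ax) = S.toFun y' b.1.ax := by
      rw [X.val (h60 (h12 hy')), X.full b _ hy'', X.full b _ (h12 hy'), Function.update_self]
    rw [e2, ← X.val (h60 (h12 hy)), Function.update_self] at h4
    have h5 := norm_sub_update y b.1.ax (y' b.1.ax)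
    have h6 : 0 ≤ δ b.1 / (2 * c b.1) * wfl (L.bxQ c hc0 hc b.1) (y b.1.ax) (y' b.1.ax) :=
      mul_nonneg (div_nonneg (L.δ0 _).le (by have := hc0 b.1; linarith)) wfl_nonneg
    have e3 : δ b.1 / (2 * (L.bxQ c hc0 hc b.1).c) *
        wfl (L.bxQ c hc0 hc b.1) (y (L.bxQ c hc0 hc b.1).j) (y' (L.bxQ c hc0 hc b.1).j) =
        δ b.1 / (2 * c b.1) * wfl (L.bxQ c hc0 hc b.1) (y b.1.ax) (y' b.1.ax) := rfl
    have e4 : |y (L.bxQ c hc0 hc b.1).j - y' (L.bxQ c hc0 hc b.1).j| =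
        |y b.1.ax - y' b.1.ax| := rfl
    rw [e3, e4] at h3 ⊢
    generalize hw : δ b.1 / (2 * c b.1) *
      wfl (L.bxQ c hc0 hc b.1) (y b.1.ax) (y' b.1.ax) = w at h3 h4 h6 ⊢
    generalize hD : |y b.1.ax - y' b.1.ax| = D at h3 h5 ⊢
    have hD0 : 0 ≤ D := by rw [← hD]; exact abs_nonneg _
    have hi0 : 0 ≤ A * (e b.1 / c b.1) := mul_nonneg hA (div_nonneg (he _).le (hc0 _).le)
    have h7 : |S.toFun y b.1.ax - S.toFun y' b.1.ax| ≤ A * (D + w) :=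
      h4.trans (mul_le_mul_of_nonneg_left (by linarith) hA)
    have h8 : r b * |S.toFun y b.1.ax - S.toFun y' b.1.ax| ≤ r b * (A * (D + w)) :=
      mul_le_mul_of_nonneg_left h7 hr0
    have h9 : r b * (A * w) ≤ 1 / 2 * (A * w) :=
      mul_le_mul_of_nonneg_right hr1 (mul_nonneg hA h6)
    have h10 : 0 ≤ A * w := mul_nonneg hA h6
    have h11 : 0 ≤ A * (e b.1 / c b.1) * D := mul_nonneg hi0 hD0
    have h12' : (2 * (A * (e b.1 / c b.1)) + r b * A) * D =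
        2 * (A * (e b.1 / c b.1) * D) + r b * (A * D) := by ring
    have h13 : r b * (A * (D + w)) = r b * (A * D) + r b * (A * w) := by ring
    rw [h12']
    rw [h13] at h8
    have h14 : 2 * A * w = 2 * (A * w) := by ring
    rw [h14]
    linarith

/-- the estimates in all boxes which meet an edge -/
theorem PsE.fest_any (Y : PsE G ω G₀ Ψ k r)
    (hosc : ∀ b ∈ G₀, ∀ k, ∀ x ∈ M.F k, ∀ y ∈ M.F k, h.toFun x ∈ G.TB false b →
      dist (h.toFun x) (h.toFun y) ≤ ω b)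
    (X : StF L hc0 hc G₀ e S φ A τ q d) (hA : 0 ≤ A)
    (hq : ∀ b, q b ≤ A) (he : ∀ b, 0 < e b) (he2 : ∀ b, 2 * e b < δ b) {ed : E.ε} {b₀ : TBx K}
    (hbG : b₀ ∈ G₀) (hmeet : (h.toFun '' E.seg ed ∩ G.TB false b₀).Nonempty)
    {b : TBx K} (hb : b ∈ G₀) (hne : (h.toFun '' E.seg ed ∩ G.TB false b).Nonempty) :
    FEst (L.bxQ c hc0 hc b) (TMid G b (ω b))
      (fun y => clamp (G.tlo true b₀ b₀.ax) (G.thi true b₀ b₀.ax)
        ((S.trans Ψ).toFun y b₀.ax)) (2 * A)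
        (δ b) (2 * (A * (e b / c b)) + r ⟨b, hb⟩ * A) := by
  have hω := L.ω0
  have hio : 0 ≤ 2 * (A * (e b / c b)) + r ⟨b, hb⟩ * A := by
    have h1 := Y.r0 ⟨b, hb⟩
    have h2 : 0 ≤ e b / c b := div_nonneg (he _).le (hc0 _).le
    positivity
  by_cases hbb : b = b₀
  · subst hbb
    exact Y.fest X hA hq he he2 ⟨b, hbG⟩
  -- another box: the clamped coordinate is constant
  have hsub : TMid G b (ω b) ⊆ (L.bxQ c hc0 hc b).K := by
    intro y hy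
    rw [bxQ_K L hc0 hc]
    rw [tmid_rtK] at hy
    exact rtK_mono L (by norm_num) hy
  have hK60 : ∀ y ∈ (L.bxQ c hc0 hc b).K, y ∈ rtK G ω b 60 := by
    intro y hy
    rw [bxQ_K L hc0 hc] at hy
    exact rtK_mono L (by norm_num) hy
  have hmaps := Y.maps X ⟨b, hb⟩
  refine FEst.const (by linarith) (L.δ0 _).le hio hsub fun y hy y' hy' => ?_
  rcases b₀ with e' | p
  · rcases b with e'' | p
    · exfalso
      obtain ⟨_, ⟨x, hx, rfl⟩, hxb⟩ := hmeet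
      obtain ⟨_, ⟨x', hx', rfl⟩, hxb'⟩ := hne
      have h1 := osc_edge hosc ed hbG x hx x' hx' hxb
      have h2 : ω (.inl e') ≤ G.oG e' := L.ωo _
      have h3 := hω (.inl e')
      have hee' : e'' ≠ e' := fun h => hbb (by rw [h])
      exact (disjoint_se (W := Wd) (Ne.symm hee')).notMem_of_mem_left
        (H238.near_inl G hxb (z := h.toFun x') (by linarith))
        (Ze_subset (TB_subset_Ze e'' hxb'))
    · have h1 : p.i = K.a e' ∨ p.i = K.b e' := by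
        refine hang_end (h := h) (X := E.seg ed) hω L.ωo (osc_edge hosc ed hbG) ?_ ?_
        · obtain ⟨_, ⟨x, hx, rfl⟩, hxb⟩ := hmeet
          exact ⟨x, hx, hxb⟩
        · obtain ⟨_, ⟨x, hx, rfl⟩, hxb⟩ := hne
          exact ⟨x, hx, hxb⟩
      exact const_inl L hmaps h1 le_rfl le_rfl y (hK60 y hy) y' (hK60 y' hy')
  · obtain ⟨_, ⟨x, hx, rfl⟩, hxb⟩ := hmeet
    obtain ⟨_, ⟨x', hx', rfl⟩, hxb'⟩ := hne
    have h1 := osc_edge hosc ed hbG x hx x' hx' hxb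
    have hωp := hω (.inr p)
    have hωb := hω b
    obtain ⟨e', rfl, hdir, hi'⟩ := hang_near G (Ne.symm hbb) hxb hxb' hωp (L.ωo _) hωb
      (L.ωo _) (by linarith)
    exact const_inr L hmaps hdir hi' le_rfl le_rfl y (hK60 y hy) y' (hK60 y' hy')

/-- **the estimate off the boxes**, vector form -/
theorem StF.foff_vec (X : StF L hc0 hc G₀ e S φ A τ q d) (hA : 1 ≤ A) (hΛ : IsOpen Λ) {y : V}
    (hy : y ∈ Λ) (hyK : ∀ b : G₀, y ∉ interior (L.bxQ c hc0 hc b.1).K) :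
    ∀ᶠ y' in 𝓝 y, (∀ b : G₀, y' ∉ (L.bxQ c hc0 hc b.1).K) →
      ‖S.toFun y' - S.toFun y‖ ≤ A * ‖y' - y‖ := by
  have hcont : ContinuousAt S.toFun y := S.cont.continuousAt (hΛ.mem_nhds hy)
  have h1 : ∀ᶠ y' in 𝓝 y, ∀ i : Fin 3, |S.toFun y' i - S.toFun y i| < 1 := by
    refine eventually_all.2 fun i => ?_
    have h2 : ContinuousAt (fun y' => S.toFun y' i) y := (continuous_apply i).continuousAt.comp
      hcont
    have h3 := Metric.continuousAt_iff'.1 h2 1 one_pos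
    filter_upwards [h3] with y' hy'
    rwa [Real.dist_eq] at hy'
  have h2 : ∀ i : Fin 3, ∀ᶠ y' in 𝓝 y, (∀ b : G₀, y' ∉ (L.bxQ c hc0 hc b.1).K) →
      |clamp (S.toFun y i - 1) (S.toFun y i + 1) (S.toFun y i) -
        clamp (S.toFun y i - 1) (S.toFun y i + 1) (S.toFun y' i)| ≤ A * ‖y - y'‖ := fun i =>
    X.foff hA hΛ i (S.toFun y i - 1) (S.toFun y i + 1) y hy hyK
  filter_upwards [h1, eventually_all.2 h2] with y' h3 h4 hno
  have h0 : 0 ≤ A * ‖y' - y‖ := by positivity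
  rw [pi_norm_le_iff_of_nonneg h0]
  intro i
  have h5 := h4 i hno
  obtain ⟨h6, h7⟩ := abs_lt.1 (h3 i)
  rw [clamp_of_mem ⟨by linarith, by linarith⟩, clamp_of_mem ⟨by linarith, by linarith⟩,
    norm_sub_rev y y'] at h5
  rw [Pi.sub_apply, Real.norm_eq_abs, abs_sub_comm]
  exact h5

/-- **the estimate off the boxes** -/
theorem PsE.foff (Y : PsE G ω G₀ Ψ k r) (X : StF L hc0 hc G₀ e S φ A τ q d) (hA : 1 ≤ A)
    (hΛ : IsOpen Λ) (j' : Fin 3) (lo hi : ℝ) :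
    FOff (fun b : G₀ => L.bxQ c hc0 hc b.1) Λ
      (fun y => clamp lo hi ((S.trans Ψ).toFun y j')) (2 * A) := by
  intro y hy hyK
  have hcont : ContinuousAt S.toFun y := S.cont.continuousAt (hΛ.mem_nhds hy)
  have h1 := hcont.eventually (Y.lip (S.toFun y) (S.mapsTo hy))
  filter_upwards [h1, X.foff_vec hA hΛ hy hyK] with y' h2 h3 hno
  refine (abs_clamp_sub_le _ _ _ _).trans ?_
  have h4 := h3 hno
  have h5 := norm_le_pi_norm (Ψ.toFun (S.toFun y') - Ψ.toFun (S.toFun y)) j'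
  rw [Pi.sub_apply, Real.norm_eq_abs, abs_sub_comm] at h5
  show |Ψ.toFun (S.toFun y) j' - Ψ.toFun (S.toFun y') j'| ≤ 2 * A * ‖y - y'‖
  rw [norm_sub_rev y y']
  calc |Ψ.toFun (S.toFun y) j' - Ψ.toFun (S.toFun y') j'|
      ≤ ‖Ψ.toFun (S.toFun y') - Ψ.toFun (S.toFun y)‖ := h5
    _ ≤ 2 * ‖S.toFun y' - S.toFun y‖ := h2
    _ ≤ 2 * (A * ‖y' - y‖) := by linarith
    _ = 2 * A * ‖y' - y‖ := by ring

end

/-- **all edges**, one edge, `S⁺` -/
theorem t5E_any (L : TLv G E h ω T η A₀ C εE δ) (O : TStageW G M h h' Pr W Act₀ G₀ L.lev ω)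
    (hosc : ∀ b ∈ G₀, ∀ k, ∀ x ∈ M.F k, ∀ y ∈ M.F k, h.toFun x ∈ G.TB false b →
      dist (h.toFun x) (h.toFun y) ≤ ω b) (hΛ : IsOpen Λ) {A : ℝ} (hA : 1 ≤ A)
    {c : TBx K → ℝ} (hc0 : ∀ b, 0 < c b) (hc : ∀ b, c b ≤ δ b / 8) {ed : E.ε}
    (hbands : ∀ b ∈ G₀, ∃ l r, Bands L h' ed b (c b) l r) {κ : V → V}
    (hκ : H345.IsQ (fun b : G₀ => L.bxQ c hc0 hc b.1) κ) {g : ConHomeo Ω Λ}
    (himg : ∀ e, g.toFun '' E.seg e = H579.Pre κ Λ h' (E.seg e))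
    (hvert : ∀ x ∈ E.verts, κ (g.toFun x) = h'.toFun x) {e : TBx K → ℝ} (he : ∀ b, 0 < e b)
    (he2 : ∀ b, 2 * e b < δ b) {ε : ℝ}
    {S : ConHomeo Λ Λ} {φ : G₀ → V → ℝ → ℝ} {τ : G₀ → ℝ → ℝ} {q d : G₀ → ℝ}
    (X : StF L hc0 hc G₀ e S φ A τ q d) (hq : ∀ b, q b ≤ A)
    {Ψ : ConHomeo Λ Λ} {k : G₀ → ℝ → ℝ} {r : G₀ → ℝ} (Y : PsE G ω G₀ Ψ k r)
    (hsl : ∀ b (hb : b ∈ G₀), (h'.toFun '' E.seg ed ∩ G.TB false b).Nonempty →
      ENNReal.ofReal (2 * (A * (e b / c b)) + r ⟨b, hb⟩ * A) *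
        len (onS h'.toFun (E.a ed) (E.b ed)) (Icc 0 1) ≤ ENNReal.ofReal (ε / 2))
    {b₀ : TBx K} (hbG : b₀ ∈ G₀)
    (hmeet : (h.toFun '' E.seg ed ∩ G.TB false b₀).Nonempty) :
    eVariationOn (fun t : ℝ => clamp (G.tlo true b₀ b₀.ax) (G.thi true b₀ b₀.ax)
      ((S.trans Ψ).toFun (onS g.toFun (E.a ed) (E.b ed) t) b₀.ax)) (Icc 0 1) ≤
        ENNReal.ofReal (8 * (2 * A)) * (∑' b : G₀, L.wt h' false ed b.1) +
          ENNReal.ofReal (3 * (2 * A)) * lenE E h.toFun ed + ENNReal.ofReal ε := by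
  classical
  have hA0 : 0 ≤ A := by linarith
  have H : H345.Fam Λ (fun b : G₀ => L.bxQ c hc0 hc b.1) :=
    H579.fam_comp (L.fam345 hc0 hc hΛ) Subtype.val_injective
  have hfc : ContinuousOn (fun y => clamp (G.tlo true b₀ b₀.ax) (G.thi true b₀ b₀.ax)
      ((S.trans Ψ).toFun y b₀.ax)) Λ := by
    have h1 : Continuous (clamp (G.tlo true b₀ b₀.ax) (G.thi true b₀ b₀.ax)) := by
      unfold clamp; fun_prop
    exact h1.comp_continuousOn ((continuous_apply _).comp_continuousOn (S.trans Ψ).cont)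
  set io : TBx K → ℝ := fun b =>
    if hb : b ∈ G₀ then 2 * (A * (e b / c b)) + r ⟨b, hb⟩ * A else 0 with hio'
  have hioe : ∀ b (hb : b ∈ G₀), io b = 2 * (A * (e b / c b)) + r ⟨b, hb⟩ * A := fun b hb => by
    rw [hio']
    exact dif_pos hb
  have hf : ∀ b ∈ G₀, (h.toFun '' E.seg ed ∩ G.TB false b).Nonempty →
      FEst (L.bxQ c hc0 hc b) (TMid G b (ω b))
        (fun y => clamp (G.tlo true b₀ b₀.ax) (G.thi true b₀ b₀.ax)
          ((S.trans Ψ).toFun y b₀.ax)) (2 * A) (δ b) (io b) :=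
    fun b hb hne => by
      rw [hioe b hb]
      exact Y.fest_any hosc X hA0 hq he he2 hbG hmeet hb hne
  have hfo : FOff (fun b : G₀ => L.bxQ c hc0 hc b.1) Λ
      (fun y => clamp (G.tlo true b₀ b₀.ax) (G.thi true b₀ b₀.ax)
        ((S.trans Ψ).toFun y b₀.ax)) (2 * A) := Y.foff X hA hΛ b₀.ax _ _
  have hio : ∀ b ∈ G₀, 0 ≤ io b := fun b hb => by
    rw [hioe b hb]
    have h1 := Y.r0 ⟨b, hb⟩
    have h2 : 0 ≤ e b / c b := div_nonneg (he _).le (hc0 _).le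
    positivity
  have hsl' : ∀ b ∈ G₀, (h'.toFun '' E.seg ed ∩ G.TB false b).Nonempty →
      ENNReal.ofReal (io b) * len (onS h'.toFun (E.a ed) (E.b ed)) (Icc 0 1) ≤
        ENNReal.ofReal (ε / 2) := fun b hb hne => by
    rw [hioe b hb]
    exact hsl b hb hne
  generalize hF : (fun y : V => clamp (G.tlo true b₀ b₀.ax) (G.thi true b₀ b₀.ax)
    ((S.trans Ψ).toFun y b₀.ax)) = F at hfc hf hfo
  have key := t5S_len L O hosc hΛ (a := 2 * A) (by linarith) hc0 hc hbands hκ (isQ_cont H hκ)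
    himg hvert (io := io) hio hsl' hfc hf hfo
  rw [← hF] at key
  exact key

end Vale.Agent.P073.H581
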