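import Vale.Agent.P073.H581.T5Sf
import Vale.Agent.P073.H238.RT1B

/-!
# P073, ROUND T for `K3C`, **[WALL-T]**: the lateral coordinates where STEP S changes nothing

`κ` and the staircase `S` change only the coordinate `b.ax` in the box `b`. So for the sets `X` of
the mesh with `h' = h` on `X` the sets `h1_l '' X` and `h_l '' X` are the same, if `l` is not the
axis of a box which `h '' X` meets.
-/

open Set Metric Topology Filter
open scoped ENNReal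

namespace Vale.Agent.P073.H581

open _root_.P073 _root_.P073.Net _root_.P073.PA691 _root_.P073.H236 _root_.P073.H196
open Vale.Agent.P073.St (V)
open Vale.Agent.P073.H471 Vale.Agent.P073.H267 Vale.Agent.P073.H267.Geo
open Vale.Agent.P073.H73 (Mesh)
open Vale.Agent.P073.H193 (Edges)
open Vale.Agent.P073.H669 (TLv)

variable {Ω Λ : Set V} {v : V} {K : BoxCx Λ v} {S₀ : Rad K} {Wd : Wid K S₀} {B : Boxes Wd}
  {G : Geo B} {M : Mesh Ω} {E : Edges M} {h h' : ConHomeo Ω Λ} {ω : TBx K → ℝ}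
  {T : TBx K → Finset (ℝ × ℝ)} {η : ℝ} {τ₀ : Type*} {A₀ : τ₀ → Set V} {C : Set ℝ} {εE : E.ε → ℝ}
  {δ : TBx K → ℝ} {Pr W : Set M.ι} {Act₀ : Set M.κ} {G₀ : Set (TBx K)}
  {L : TLv G E h ω T η A₀ C εE δ} {c : TBx K → ℝ} {hc0 : ∀ b, 0 < c b} {hc : ∀ b, c b ≤ δ b / 8}

/-- a map which changes only the axis coordinates of the boxes, in the boxes -/
def LatS (_L : TLv G E h ω T η A₀ C εE δ) (G₀ : Set (TBx K)) (S : V → V) : Prop :=
  ∀ y ∈ Λ, ∀ l, (∀ b ∈ G₀, y ∈ G.TB false b → b.ax ≠ l) → S y l = y l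

theorem LatS.of_vrt {S : V → V} {al be : G₀ → ℝ} {lo hi : G₀ → V} {φ : G₀ → V → ℝ → ℝ}
    (H : Vrt S (fun b : G₀ => b.1.ax) al be lo hi φ)
    (hZ : ∀ b : G₀, bigBox b.1.ax (al b) (be b) (lo b) (hi b) ⊆ G.TB false b.1) :
    LatS L G₀ S := by
  intro y _ l hl
  by_cases hex : ∃ b : G₀, y ∈ bigBox b.1.ax (al b) (be b) (lo b) (hi b)
  · obtain ⟨b, hb⟩ := hex
    rw [H.on b y hb]
    exact Function.update_of_ne (Ne.symm (hl b.1 b.2 (hZ b hb))) _ _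
  · push Not at hex
    rw [H.off y hex]

theorem LatS.comp {S Ψ : V → V} (h2 : LatS L G₀ Ψ) (h1 : LatS L G₀ S) (hS : MapsTo S Λ Λ)
    (hm : ∀ b ∈ G₀, ∀ y ∈ Λ, S y ∈ G.TB false b → y ∈ G.TB false b) :
    LatS L G₀ fun y => Ψ (S y) := fun y hyΛ l hl =>
  (h2 (S y) (hS hyΛ) l fun b hb hy => hl b hb (hm b hb y hyΛ hy)).trans (h1 y hyΛ l hl)

theorem kap_mem {κ : V → V} (hκ : H345.IsQ (fun b : G₀ => L.bxQ c hc0 hc b.1) κ) {b : TBx K}
    {y : V} (hyT : y ∈ G.TB false b) : κ y ∈ G.TB false b := by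
  by_cases hex : ∃ b' : G₀, y ∈ (L.bxQ c hc0 hc b'.1).K
  · obtain ⟨b', hb'⟩ := hex
    rw [hκ.on b' y hb']
    by_cases hbb : b'.1 = b
    · subst hbb
      exact L.K_sub hc0 hc _ ((L.bxQ c hc0 hc b'.1).suppQ.maps hb')
    · have h1 : y ∈ rtK G ω b'.1 60 := by
        rw [bxQ_K L hc0 hc] at hb'
        exact rtK_mono L (by norm_num) hb'
      have h2 := end_of_other L hbb hyT h1
      have h3 : (L.bxQ c hc0 hc b'.1).Q y = y := H345.Q_eq_self_of_end _ h2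
      rw [h3]
      exact hyT
  · push Not at hex
    rw [hκ.off y hex]
    exact hyT

theorem kap_ne {κ : V → V} (hκ : H345.IsQ (fun b : G₀ => L.bxQ c hc0 hc b.1) κ) {y : V} {l : Fin 3}
    (hl : ∀ b ∈ G₀, κ y ∈ G.TB false b → b.ax ≠ l) : κ y l = y l := by
  by_cases hex : ∃ b' : G₀, y ∈ (L.bxQ c hc0 hc b'.1).K
  · obtain ⟨b', hb'⟩ := hex
    have h1 : κ y ∈ G.TB false b'.1 := by
      rw [hκ.on b' y hb']
      exact L.K_sub hc0 hc _ ((L.bxQ c hc0 hc b'.1).suppQ.maps hb')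
    have h2 := hl b'.1 b'.2 h1
    rw [hκ.on b' y hb']
    exact (L.bxQ c hc0 hc b'.1).Q_ne (Ne.symm h2) y
  · push Not at hex
    rw [hκ.off y hex]

/-- the coordinate `l` of the output against the coordinate `l` of `κ` -/
theorem LatS.coord {S : V → V} (HS : LatS L G₀ S) {κ : V → V}
    (hκ : H345.IsQ (fun b : G₀ => L.bxQ c hc0 hc b.1) κ) {y : V} (hyΛ : y ∈ Λ) {l : Fin 3}
    (hl : ∀ b ∈ G₀, κ y ∈ G.TB false b → b.ax ≠ l) : S y l = κ y l :=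
  (HS y hyΛ l fun b hb hy => hl b hb (kap_mem hκ hy)).trans (kap_ne hκ hl).symm

/-- **[WALL-T]**, cells, faces, edges: any set with `g '' X = Pre κ Λ h' X` -/
theorem wallT (hΛ : IsOpen Λ) {S : V → V} (HS : LatS L G₀ S) {κ : V → V}
    (hκ : H345.IsQ (fun b : G₀ => L.bxQ c hc0 hc b.1) κ) {g : ConHomeo Ω Λ} {X : Set V}
    (hXΩ : X ⊆ Ω) (hX : g.toFun '' X = H579.Pre κ Λ h' X)
    (heq : ∀ x ∈ X, h'.toFun x = h.toFun x) {l : Fin 3}
    (hl : ∀ b ∈ G₀, (h.toFun '' X ∩ G.TB false b).Nonempty → b.ax ≠ l) :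
    (fun x => S (g.toFun x) l) '' X = (fun x => h.toFun x l) '' X := by
  have H : H345.Fam Λ (fun b : G₀ => L.bxQ c hc0 hc b.1) :=
    H579.fam_comp (L.fam345 hc0 hc hΛ) Subtype.val_injective
  have hI : H579.InsMap κ Λ Λ := by
    obtain ⟨κ₀, h1, h2, -⟩ := H.exists_isQ
    have h3 : κ = κ₀ := by
      funext y
      by_cases hy : ∃ g, y ∈ (L.bxQ c hc0 hc (g : G₀).1).K
      · obtain ⟨g, hg⟩ := hy
        rw [hκ.on g y hg, h1.on g y hg]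
      · push Not at hy
        rw [hκ.off y hy, h1.off y hy]
    rw [h3]
    exact h2
  have key : ∀ y ∈ Λ, κ y ∈ h'.toFun '' X →
      ∃ x' ∈ X, κ y = h.toFun x' ∧ S y l = h.toFun x' l := by
    rintro y hyΛ ⟨x', hx', hxy⟩
    rw [heq x' hx'] at hxy
    refine ⟨x', hx', hxy.symm, ?_⟩
    rw [HS.coord hκ hyΛ (fun b hb hyb => hl b hb ⟨κ y, ⟨x', hx', hxy⟩, hyb⟩), ← hxy]
  apply Subset.antisymm
  · rintro _ ⟨x, hx, rfl⟩
    have h1 : g.toFun x ∈ H579.Pre κ Λ h' X := by rw [← hX]; exact ⟨x, hx, rfl⟩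
    obtain ⟨x', hx', -, h2⟩ := key _ (g.mapsTo (hXΩ hx)) h1.2
    exact ⟨x', hx', h2.symm⟩
  · rintro _ ⟨x', hx', rfl⟩
    obtain ⟨y, hy, hyx⟩ := hI.surj (h'.mapsTo (hXΩ hx'))
    have h1 : y ∈ H579.Pre κ Λ h' X := ⟨hy, ⟨x', hx', hyx.symm⟩⟩
    rw [← hX] at h1
    obtain ⟨x, hx, rfl⟩ := h1
    refine ⟨x, hx, ?_⟩
    have h2 : κ (g.toFun x) = h.toFun x' := by rw [hyx, heq x' hx']
    show S (g.toFun x) l = h.toFun x' l
    rw [HS.coord hκ (g.mapsTo (hXΩ hx))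
      (fun b hb hyb => hl b hb ⟨κ (g.toFun x), ⟨x', hx', h2.symm⟩, hyb⟩), h2]

/-- **[WALL-T]**, vertices -/
theorem wallT_vert {S : V → V} (HS : LatS L G₀ S) {κ : V → V}
    (hκ : H345.IsQ (fun b : G₀ => L.bxQ c hc0 hc b.1) κ) {g : ConHomeo Ω Λ} {x : V} (hxΩ : x ∈ Ω)
    (hx : κ (g.toFun x) = h'.toFun x) (heq : h'.toFun x = h.toFun x) {l : Fin 3}
    (hl : ∀ b ∈ G₀, h.toFun x ∈ G.TB false b → b.ax ≠ l) :
    S (g.toFun x) l = h.toFun x l := by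
  rw [HS.coord hκ (g.mapsTo hxΩ) (fun b hb hyb => hl b hb (by rw [← heq, ← hx]; exact hyb)), hx,
    heq]

end Vale.Agent.P073.H581

namespace Vale.Agent.P073.H238.K3.RTD

open _root_.P073 _root_.P073.Net _root_.P073.PA691 _root_.P073.H236 _root_.P073.H579
open _root_.P073.H267
open _root_.P073.H196 (FixD)
open _root_.P073.H142 (FStar)
open Vale.Agent.P073.St (V)
open Vale.Agent.P073.H471 Vale.Agent.P073.H267 Vale.Agent.P073.H267.Geo
open Vale.Agent.P073.H73 (Mesh)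
open Vale.Agent.P073.H193 (Edges Cyc)
open Vale.Agent.P073.H926

variable {c₀ n δ : ℝ} {j : ℕ} {Ω Λ : Set V} {v w : V} {ρ : V → ℝ} {M : Mesh Ω} {h : ConHomeo Ω Λ}
  {J₀ J : Set (ℕ × (Fin 3 → ℤ))} {P Z : Set M.ι} {K : BoxCx Λ w}
  {D : KIn3 c₀ n j δ v w ρ M h J₀ J P Z} {C : Cells ρ w K} {E : Edges M}
  {T : ∀ k, FStar E k} {A₁ C₅ μ₁ : ℝ} {ε : E.ε → ℝ} {εd : pB C J₀ → ℝ}
  (R : RTD D C E T A₁ C₅ μ₁ ε εd) {e : TBx K → ℝ} {he : ∀ b, 0 < e b} {he2 : ∀ b, 2 * e b < R.dl b}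
  {hμ1 : μ₁ ≤ 1} {Hα H₁ Tf : ConHomeo Λ Λ}

/-- the staircase changes only the axis coordinates of the boxes -/
theorem latS (HR : RTS R.L R.hc0 R.hc he he2 (R.X hμ1 he he2) Hα H₁ Tf) :
    H581.LatS R.L (pB C J₀) ((Hα.trans H₁).trans Tf).toFun :=
  H581.LatS.of_vrt HR.vrt fun b => rtK_sub R.L (u := 60) (by norm_num)

/-- the staircase preserves the boxes -/
theorem S_memB (HR : RTS R.L R.hc0 R.hc he he2 (R.X hμ1 he he2) Hα H₁ Tf) {b : TBx K} {y : V}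
    (hyΛ : y ∈ Λ) (hSy : ((Hα.trans H₁).trans Tf).toFun y ∈ (D.G C).TB false b) :
    y ∈ (D.G C).TB false b := by
  by_cases hex : ∃ b' : pB C J₀, y ∈ rtK (D.G C) (ω3T δ C) b'.1 60
  · obtain ⟨b', hb'⟩ := hex
    by_cases hbb : b'.1 = b
    · subst hbb
      exact rtK_sub R.L (u := 60) (by norm_num) hb'
    · have h1 := HR.vrt.mem (b := b') hb'
      have h2 := R.S_other HR hbb hSy h1
      have h3 := ((Hα.trans H₁).trans Tf).injOn (((Hα.trans H₁).trans Tf).mapsTo hyΛ) hyΛ h2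
      rwa [h3] at hSy
  · push Not at hex
    rwa [HR.vrt.off y hex] at hSy

/-- the staircase followed by a map of the same kind -/
theorem latS_trans (HR : RTS R.L R.hc0 R.hc he he2 (R.X hμ1 he he2) Hα H₁ Tf) {Ψ : ConHomeo Λ Λ}
    (hΨ : H581.LatS R.L (pB C J₀) Ψ.toFun) :
    H581.LatS R.L (pB C J₀) (((Hα.trans H₁).trans Tf).trans Ψ).toFun := by
  have h1 : H581.LatS R.L (pB C J₀) fun y => Ψ.toFun (((Hα.trans H₁).trans Tf).toFun y) :=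
    H581.LatS.comp hΨ (R.latS HR) (fun _ hy => ((Hα.trans H₁).trans Tf).mapsTo hy)
      fun _ _ _ hyΛ hy => R.S_memB HR hyΛ hy
  exact h1

/-- **[WALL-T]** for the output of ROUND T: cells, faces, edges, vertices. `Qz`: a set where STEP S
changes nothing; `S`: the staircase, or the staircase followed by a map of the same kind -/
theorem wall3 {S : ConHomeo Λ Λ} (HS : H581.LatS R.L (pB C J₀) S.toFun) {Qz : Set V}
    (hQz : ∀ x ∈ Ω, h.toFun x ∈ Qz → R.h'.toFun x = h.toFun x) {X : Set V}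
    (hX : (∃ i, X = M.Q i) ∨ (∃ k, X = M.F k) ∨ (∃ e, X = E.seg e) ∨ ∃ x ∈ E.verts, X = {x})
    (hXQ : h.toFun '' X ⊆ Qz) {l : Fin 3}
    (hl : ∀ b ∈ pB C J₀, (h.toFun '' X ∩ (D.G C).TB false b).Nonempty → b.ax ≠ l) :
    (fun x => (R.g.trans S).toFun x l) '' X = (fun x => h.toFun x l) '' X := by
  have hΛ : IsOpen Λ := D.bΛ.1
  have hFΩ : ∀ k, M.F k ⊆ Ω := fun k => by
    obtain ⟨i, -, hi⟩ := D.exists_cell C k
    exact hi.trans (M.sub i)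
  have gen : ∀ X : Set V, X ⊆ Ω → R.g.toFun '' X = H579.Pre R.κ Λ R.h' X →
      h.toFun '' X ⊆ Qz →
      (∀ b ∈ pB C J₀, (h.toFun '' X ∩ (D.G C).TB false b).Nonempty → b.ax ≠ l) →
      (fun x => (R.g.trans S).toFun x l) '' X = (fun x => h.toFun x l) '' X :=
    fun X hXΩ hXp hXQ hl => H581.wallT hΛ HS R.D2.isQ hXΩ hXp
      (fun x hx => hQz x (hXΩ hx) (hXQ ⟨x, hx, rfl⟩)) hl
  rcases hX with ⟨i, rfl⟩ | ⟨k, rfl⟩ | ⟨e, rfl⟩ | ⟨x, hx, rfl⟩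
  · exact gen _ (M.sub i) (R.D2.cell i) hXQ hl
  · exact gen _ (hFΩ k) (R.D2.face k) hXQ hl
  · obtain ⟨k, hk⟩ := E.own e
    exact gen _ (hk.trans (hFΩ k)) (R.D2.edge e) hXQ hl
  · have hxΩ : x ∈ Ω := by
      obtain ⟨i, hi⟩ : ∃ i, x ∈ M.Q i := by
        obtain ⟨e, he⟩ : ∃ e, x ∈ E.seg e := by
          rcases hx with ⟨e, rfl⟩ | ⟨e, rfl⟩
          · exact ⟨e, E.left_mem e⟩
          · exact ⟨e, E.right_mem e⟩
        obtain ⟨k, hk⟩ := E.own e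
        obtain ⟨i, -, hi⟩ := D.exists_cell C k
        exact ⟨i, hi (hk he)⟩
      exact M.sub i hi
    rw [image_singleton, image_singleton]
    congr 1
    refine H581.wallT_vert HS R.D2.isQ hxΩ (R.D2.vert x hx)
      (hQz x hxΩ (hXQ ⟨x, rfl, rfl⟩)) fun b hb hxb => hl b hb ⟨_, ⟨x, rfl, rfl⟩, hxb⟩

end Vale.Agent.P073.H238.K3.RTD
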