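import Vale.Agent.P073.H581.T5H
import Vale.Agent.P073.H581.WallT

/-!
# P073, ROUND T for `K3C`, **[TVG]**: the unclamped coordinate, off the end zones of the boxes

An edge `e₀` which meets only boxes of the axis `l`; `f` is `1`-Lipschitz and constant on the end
zones `[tlo, tlo + 50 ω]`, `[thi - 50 ω, thi]` of these boxes. Then `f ∘ (S ∘ g)_l ∘ e₀` has small
variation.
-/

open Set Metric Topology Filter
open scoped ENNReal

namespace Vale.Agent.P073.H581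

open _root_.P073 _root_.P073.Net _root_.P073.PA691 _root_.P073.H236 _root_.P073.H196
open Vale.Agent.P073.St (V)
open Vale.Agent.P073.H471 Vale.Agent.P073.H267 Vale.Agent.P073.H267.Geo
open Vale.Agent.P073.H73 (Mesh)
open Vale.Agent.P073.H193 (Edges)
open Vale.Agent.P073.H238 (oT TMid)
open _root_.P073.Croft (onS)
open Vale.Agent.P073.H579 (TStageW)
open Vale.Agent.P073.H669 (TLv)
open _root_.P073.H267 (tvE lenE)

/-! ### variation -/

theorem evar_zero (A : Set ℝ) : eVariationOn (fun _ : ℝ => (0:ℝ)) A = 0 :=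
  eVariationOn.constant_on (by
    rintro _ ⟨x, -, rfl⟩ _ ⟨y, -, rfl⟩
    rfl)

theorem evar_add2 (f g : ℝ → ℝ) (A : Set ℝ) : eVariationOn (fun s => f s + g s) A ≤
    eVariationOn f A + eVariationOn g A := by
  refine iSup_le fun p => ?_
  have h1 : ∀ i ∈ Finset.range p.1, edist (f (p.2.1 (i + 1)) + g (p.2.1 (i + 1)))
      (f (p.2.1 i) + g (p.2.1 i)) ≤
      edist (f (p.2.1 (i + 1))) (f (p.2.1 i)) + edist (g (p.2.1 (i + 1))) (g (p.2.1 i)) :=
    fun i _ => edist_add_add_le _ _ _ _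
  refine (Finset.sum_le_sum h1).trans ?_
  rw [Finset.sum_add_distrib]
  exact add_le_add (le_iSup (fun p : ℕ × { u : ℕ → ℝ // Monotone u ∧ ∀ i, u i ∈ A } =>
    ∑ i ∈ Finset.range p.1, edist (f (p.2.1 (i + 1))) (f (p.2.1 i))) p)
    (le_iSup (fun p : ℕ × { u : ℕ → ℝ // Monotone u ∧ ∀ i, u i ∈ A } =>
    ∑ i ∈ Finset.range p.1, edist (g (p.2.1 (i + 1))) (g (p.2.1 i))) p)

theorem evar_sum2 {ι : Type*} (T : Finset ι) (f : ι → ℝ → ℝ) (A : Set ℝ) :
    eVariationOn (fun s => ∑ i ∈ T, f i s) A ≤ ∑ i ∈ T, eVariationOn (f i) A := by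
  classical
  induction T using Finset.induction_on with
  | empty => simp [evar_zero]
  | insert a T ha ih =>
    have h1 : (fun s => ∑ i ∈ insert a T, f i s) = fun s => f a s + ∑ i ∈ T, f i s := by
      funext s
      rw [Finset.sum_insert ha]
    rw [h1, Finset.sum_insert ha]
    exact (evar_add2 _ _ _).trans (add_le_add le_rfl ih)

/-- a Lipschitz function of a function -/
theorem evar_comp_lip {F : ℝ → ℝ} {A : ℝ} (hA : 0 ≤ A) (hF : ∀ s t, |F s - F t| ≤ A * |s - t|)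
    (q : ℝ → ℝ) (s : Set ℝ) :
    eVariationOn (fun t => F (q t)) s ≤ ENNReal.ofReal A * eVariationOn q s := by
  have h1 : LipschitzOnWith (Real.toNNReal A) F univ := by
    refine LipschitzOnWith.of_dist_le_mul fun s _ t _ => ?_
    rw [Real.dist_eq, Real.dist_eq, Real.coe_toNNReal _ hA]
    exact hF s t
  exact h1.comp_eVariationOn_le (mapsTo_univ _ _)

/-! ### the clamps -/

theorem clamp_lo' {lo hi t : ℝ} (h : lo ≤ hi) (ht : t ≤ lo) : clamp lo hi t = lo := by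
  unfold clamp
  rw [min_eq_right (ht.trans h), max_eq_left ht]

theorem clamp_hi' {lo hi t : ℝ} (h : lo ≤ hi) (ht : hi ≤ t) : clamp lo hi t = hi := by
  unfold clamp
  rw [min_eq_left ht, max_eq_right h]

theorem clamp_mem' {lo hi : ℝ} (h : lo ≤ hi) (t : ℝ) : clamp lo hi t ∈ Icc lo hi := by
  unfold clamp
  exact ⟨le_max_left _ _, max_le h (min_le_left _ _)⟩

/-- the other clamps are constant on a window -/
theorem clamp_other {lo hi lo' hi' s t : ℝ} (h' : lo' ≤ hi') (hs : s ∈ Icc lo hi)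
    (ht : t ∈ Icc lo hi) (hd : hi ≤ lo' ∨ hi' ≤ lo) : clamp lo' hi' s = clamp lo' hi' t := by
  rcases hd with hd | hd
  · rw [clamp_lo' h' (hs.2.trans hd), clamp_lo' h' (ht.2.trans hd)]
  · rw [clamp_hi' h' (hd.trans hs.1), clamp_hi' h' (hd.trans ht.1)]

/-- a function which is constant on the end zones does not see them -/
theorem clamp_ends {f : ℝ → ℝ} {lo hi w : ℝ} (hw : 0 ≤ w) (hlh : lo + w ≤ hi - w)
    (h1 : ∀ s ∈ Icc lo (lo + w), f s = f lo) (h2 : ∀ s ∈ Icc (hi - w) hi, f s = f hi) (t : ℝ) :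
    f (clamp lo hi t) = f (clamp (lo + w) (hi - w) t) := by
  rcases le_total t (lo + w) with ht | ht
  · rw [clamp_lo' hlh ht, h1 _ ⟨by linarith, le_rfl⟩]
    have h3 : clamp lo hi t ≤ lo + w := by
      unfold clamp
      exact max_le (by linarith) ((min_le_right _ _).trans ht)
    exact h1 _ ⟨(clamp_mem' (by linarith) t).1, h3⟩
  · rcases le_total (hi - w) t with ht' | ht'
    · rw [clamp_hi' hlh ht', h2 _ ⟨le_rfl, by linarith⟩]
      have h3 : hi - w ≤ clamp lo hi t := by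
        unfold clamp
        exact le_max_of_le_right (le_min (by linarith) ht')
      exact h2 _ ⟨h3, (clamp_mem' (by linarith) t).2⟩
    · rw [clamp_of_mem ⟨ht, ht'⟩, clamp_of_mem ⟨by linarith, by linarith⟩]

/-- **the decomposition** -/
theorem evar_windows {ι : Type*} [DecidableEq ι] (T : Finset ι) {N : ℕ} (hT : T.card ≤ N)
    {lo hi w : ι → ℝ} (hw : ∀ i ∈ T, 0 ≤ w i) (hlh : ∀ i ∈ T, lo i + w i ≤ hi i - w i)
    (hadj : ∀ i ∈ T, ∀ i' ∈ T, i ≠ i' → hi i ≤ lo i' ∨ hi i' ≤ lo i) {f : ℝ → ℝ}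
    (hf : ∀ s t, |f s - f t| ≤ |s - t|) (h1 : ∀ i ∈ T, ∀ s ∈ Icc (lo i) (lo i + w i), f s = f (lo i))
    (h2 : ∀ i ∈ T, ∀ s ∈ Icc (hi i - w i) (hi i), f s = f (hi i)) {q : ℝ → ℝ} {A : Set ℝ}
    {X Y : ℝ≥0∞}
    (hX : ∀ F : ℝ → ℝ, (∀ s t, |F s - F t| ≤ (1 + N) * |s - t|) →
      (∀ i ∈ T, ∀ s ∈ Icc (lo i) (hi i), F s = F (lo i)) →
      eVariationOn (fun t => F (q t)) A ≤ X)
    (hY : ∀ i ∈ T, eVariationOn (fun t => clamp (lo i + w i) (hi i - w i) (q t)) A ≤ Y) :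
    eVariationOn (fun t => f (q t)) A ≤ X + N * Y := by
  have hle : ∀ i ∈ T, lo i ≤ hi i := fun i hi' => by
    have := hw i hi'
    have := hlh i hi'
    linarith
  set F : ℝ → ℝ := fun s => f s - ∑ i ∈ T, f (clamp (lo i) (hi i) s) with hF
  have hclip : ∀ i s t, |f (clamp (lo i) (hi i) s) - f (clamp (lo i) (hi i) t)| ≤ |s - t| :=
    fun i s t => (hf _ _).trans (abs_clamp_sub_le _ _ _ _)
  have hFl : ∀ s t, |F s - F t| ≤ (1 + N) * |s - t| := by
    intro s t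
    have e1 : F s - F t = (f s - f t) -
        ∑ i ∈ T, (f (clamp (lo i) (hi i) s) - f (clamp (lo i) (hi i) t)) := by
      rw [hF, Finset.sum_sub_distrib]
      ring
    rw [e1]
    have h3 : |∑ i ∈ T, (f (clamp (lo i) (hi i) s) - f (clamp (lo i) (hi i) t))| ≤
        N * |s - t| := by
      refine (Finset.abs_sum_le_sum_abs _ _).trans ?_
      refine (Finset.sum_le_sum fun i _ => hclip i s t).trans ?_
      rw [Finset.sum_const, nsmul_eq_mul]
      exact mul_le_mul_of_nonneg_right (by exact_mod_cast hT) (abs_nonneg _)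
    have h4 := hf s t
    have h5 := abs_sub (f s - f t)
      (∑ i ∈ T, (f (clamp (lo i) (hi i) s) - f (clamp (lo i) (hi i) t)))
    linarith
  have hFc : ∀ i ∈ T, ∀ s ∈ Icc (lo i) (hi i), F s = F (lo i) := by
    intro i hi' s hs
    have hlo : lo i ∈ Icc (lo i) (hi i) := ⟨le_rfl, hle i hi'⟩
    have e1 : ∑ i' ∈ T, (f (clamp (lo i') (hi i') s) - f (clamp (lo i') (hi i') (lo i))) =
        f s - f (lo i) := by
      rw [Finset.sum_eq_single_of_mem i hi' (fun i' hi'' hne => ?_)]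
      · rw [clamp_of_mem hs, clamp_of_mem hlo]
      · rw [clamp_other (hle i' hi'') hs hlo (hadj i hi' i' hi'' (Ne.symm hne)), sub_self]
    rw [Finset.sum_sub_distrib] at e1
    show f s - ∑ i ∈ T, f (clamp (lo i) (hi i) s) =
      f (lo i) - ∑ i' ∈ T, f (clamp (lo i') (hi i') (lo i))
    linarith
  have e2 : (fun t => f (q t)) = fun t => F (q t) +
      ∑ i ∈ T, f (clamp (lo i + w i) (hi i - w i) (q t)) := by
    funext t
    have e3 : ∑ i ∈ T, f (clamp (lo i) (hi i) (q t)) =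
        ∑ i ∈ T, f (clamp (lo i + w i) (hi i - w i) (q t)) :=
      Finset.sum_congr rfl fun i hi' => clamp_ends (hw i hi') (hlh i hi') (h1 i hi') (h2 i hi') _
    rw [← e3, hF]
    ring
  rw [e2]
  refine (evar_add2 _ _ _).trans (add_le_add (hX F hFl hFc) ?_)
  refine (evar_sum2 _ _ _).trans ?_
  have h3 : ∀ i ∈ T, eVariationOn (fun t => f (clamp (lo i + w i) (hi i - w i) (q t))) A ≤ Y :=
    fun i hi' => by
      have h4 := evar_comp_lip (F := f) zero_le_one (fun s t => by rw [one_mul]; exact hf s t)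
        (fun t => clamp (lo i + w i) (hi i - w i) (q t)) A
      rw [ENNReal.ofReal_one, one_mul] at h4
      exact h4.trans (hY i hi')
  refine (Finset.sum_le_sum h3).trans ?_
  rw [Finset.sum_const, nsmul_eq_mul]
  gcongr

variable {Ω Λ : Set V} {v : V} {K : BoxCx Λ v} {S₀ : Rad K} {Wd : Wid K S₀} {B : Boxes Wd}
  {G : Geo B} {M : Mesh Ω} {E : Edges M} {h h' : ConHomeo Ω Λ} {ω : TBx K → ℝ}
  {T : TBx K → Finset (ℝ × ℝ)} {η : ℝ} {τ₀ : Type*} {A₀ : τ₀ → Set V} {C : Set ℝ} {εE : E.ε → ℝ}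
  {δ : TBx K → ℝ} {Pr W : Set M.ι} {Act₀ : Set M.κ} {G₀ : Set (TBx K)}

/-! ### the boxes which an edge meets -/

/-- the boxes which an edge meets -/
def Met (G : Geo B) (h : ConHomeo Ω Λ) (G₀ : Set (TBx K)) (e₀ : E.ε) : Set (TBx K) :=
  {b | b ∈ G₀ ∧ (h.toFun '' E.seg e₀ ∩ G.TB false b).Nonempty}

section

variable (L : TLv G E h ω T η A₀ C εE δ)
  (hosc : ∀ b ∈ G₀, ∀ k, ∀ x ∈ M.F k, ∀ y ∈ M.F k, h.toFun x ∈ G.TB false b →
      dist (h.toFun x) (h.toFun y) ≤ ω b)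
include L hosc

/-- one of the two boxes is a hanging vertex, the other one is a tube which ends there -/
theorem met_pair {e₀ : E.ε} {b b' : TBx K} (hb : b ∈ Met G h G₀ e₀) (hb' : b' ∈ Met G h G₀ e₀)
    (hne : b ≠ b') : ∃ (e' : K.G) (p : Hang K), K.dir e' = p.l ∧ (p.i = K.a e' ∨ p.i = K.b e') ∧
      ((b = .inl e' ∧ b' = .inr p) ∨ (b = .inr p ∧ b' = .inl e')) := by
  have hω := L.ω0
  have key : ∀ (p : Hang K) (b' : TBx K), (.inr p : TBx K) ∈ Met G h G₀ e₀ →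
      b' ∈ Met G h G₀ e₀ → (.inr p : TBx K) ≠ b' →
      ∃ e', b' = .inl e' ∧ K.dir e' = p.l ∧ (p.i = K.a e' ∨ p.i = K.b e') := by
    rintro p b' ⟨hpG, _, ⟨x, hx, rfl⟩, hxb⟩ ⟨-, _, ⟨x', hx', rfl⟩, hxb'⟩ hne
    have h1 := osc_edge hosc e₀ hpG x hx x' hx' hxb
    have hωp := hω (.inr p)
    have hωb := hω b'
    exact hang_near G hne hxb hxb' hωp (L.ωo _) hωb (L.ωo _) (by linarith)
  rcases b with e' | p
  · rcases b' with e'' | p
    · exfalso
      obtain ⟨hbG, _, ⟨x, hx, rfl⟩, hxb⟩ := hb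
      obtain ⟨-, _, ⟨x', hx', rfl⟩, hxb'⟩ := hb'
      have h1 := osc_edge hosc e₀ hbG x hx x' hx' hxb
      have h2 : ω (.inl e') ≤ G.oG e' := L.ωo _
      have h3 := hω (.inl e')
      have hee' : e' ≠ e'' := fun h => hne (by rw [h])
      exact (disjoint_se (W := Wd) hee').notMem_of_mem_left
        (H238.near_inl G hxb (z := h.toFun x') (by linarith))
        (Ze_subset (TB_subset_Ze e'' hxb'))
    · obtain ⟨e₁, he₁, h2, h3⟩ := key p _ hb' hb (Ne.symm hne)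
      rw [Sum.inl.injEq] at he₁
      subst he₁
      exact ⟨e', p, h2, h3, Or.inl ⟨rfl, rfl⟩⟩
  · obtain ⟨e', rfl, h2, h3⟩ := key p _ hb hb' hne
    exact ⟨e', p, h2, h3, Or.inr ⟨rfl, rfl⟩⟩

/-- the windows of two boxes are adjacent -/
theorem met_adj {e₀ : E.ε} {b b' : TBx K} (hb : b ∈ Met G h G₀ e₀) (hb' : b' ∈ Met G h G₀ e₀)
    (hne : b ≠ b') : G.thi true b b.ax ≤ G.tlo true b' b'.ax ∨
      G.thi true b' b'.ax ≤ G.tlo true b b.ax := by
  obtain ⟨e', p, hdir, hi', h1⟩ := met_pair L hosc hb hb' hne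
  have e1 : G.tlo true (.inl e') (K.dir e') = K.w (K.a e') (K.dir e') + G.be (K.a e') := by
    simp [Geo.tlo]
  have e2 : G.thi true (.inl e') (K.dir e') = K.w (K.b e') (K.dir e') - G.be (K.b e') := by
    simp [Geo.thi]
  have e3 : G.tlo true (.inr p) p.l = K.w p.i p.l - G.be p.i := by simp [Geo.tlo]
  have e4 : G.thi true (.inr p) p.l = K.w p.i p.l + G.be p.i := by simp [Geo.thi]
  have a1 : (TBx.ax (.inl e' : TBx K)) = K.dir e' := rfl
  have a2 : (TBx.ax (.inr p : TBx K)) = p.l := rfl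
  have key : G.thi true (.inl e') (K.dir e') ≤ G.tlo true (.inr p) p.l ∨
      G.thi true (.inr p) p.l ≤ G.tlo true (.inl e') (K.dir e') := by
    rw [e1, e2, e3, e4, hdir]
    rcases hi' with hi' | hi'
    · rw [hi']
      exact Or.inr le_rfl
    · rw [hi']
      exact Or.inl le_rfl
  rcases h1 with ⟨rfl, rfl⟩ | ⟨rfl, rfl⟩
  · rw [a1, a2]
    exact key
  · rw [a1, a2]
    exact key.symm

/-- at most two boxes -/
theorem met_card {e₀ : E.ε} {s : Finset (TBx K)} (hs : ∀ b ∈ s, b ∈ Met G h G₀ e₀) :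
    s.card ≤ 2 := by
  classical
  by_contra hcon
  push Not at hcon
  obtain ⟨b₁, h₁, b₂, h₂, b₃, h₃, h12, h13, h23⟩ := Finset.two_lt_card.1 hcon
  obtain ⟨e, p, -, -, h4⟩ := met_pair L hosc (hs _ h₁) (hs _ h₂) h12
  obtain ⟨e', p', -, -, h5⟩ := met_pair L hosc (hs _ h₁) (hs _ h₃) h13
  obtain ⟨e'', p'', -, -, h6⟩ := met_pair L hosc (hs _ h₂) (hs _ h₃) h23
  rcases h4 with ⟨rfl, rfl⟩ | ⟨rfl, rfl⟩ <;> rcases h5 with ⟨h5, rfl⟩ | ⟨h5, rfl⟩ <;>
    rcases h6 with ⟨h6, h7⟩ | ⟨h6, h7⟩ <;> simp_all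

end

/-! ### functions which are constant on the windows -/

section

variable (L : TLv G E h ω T η A₀ C εE δ) (O : TStageW G M h h' Pr W Act₀ G₀ L.lev ω)
  (hΛ : IsOpen Λ) {c : TBx K → ℝ} (hc0 : ∀ b, 0 < c b) (hc : ∀ b, c b ≤ δ b / 8) {κ : V → V}
  (hκ : H345.IsQ (fun b : G₀ => L.bxQ c hc0 hc b.1) κ) {g : ConHomeo Ω Λ}
  (himg : ∀ e, g.toFun '' E.seg e = H579.Pre κ Λ h' (E.seg e))
  (hvert : ∀ x ∈ E.verts, κ (g.toFun x) = h'.toFun x) {S : ConHomeo Λ Λ}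
  (hS1 : ∀ b : G₀, ∀ y ∈ rtK G ω b.1 60, S.toFun y ∈ rtK G ω b.1 60)
  (hS2 : ∀ y, (∀ b : G₀, y ∉ rtK G ω b.1 60) → S.toFun y = y)
include O hΛ hκ himg hvert hS1 hS2

/-- **functions which are constant on the windows of the boxes** -/
theorem tvo_of {e₀ : E.ε} {l : Fin 3} (hl : ∀ b ∈ Met G h G₀ e₀, b.ax = l) {F : ℝ → ℝ} {A : ℝ}
    (hA : 0 ≤ A) (hF : ∀ s t, |F s - F t| ≤ A * |s - t|)
    (hFc : ∀ b ∈ Met G h G₀ e₀, ∀ s ∈ Icc (G.tlo true b b.ax) (G.thi true b b.ax),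
      F s = F (G.tlo true b b.ax)) :
    eVariationOn (fun t => F (S.toFun (onS g.toFun (E.a e₀) (E.b e₀) t) l)) (Icc 0 1) ≤
      ENNReal.ofReal A * lenE E h.toFun e₀ := by
  have H : H345.Fam Λ (fun b : G₀ => L.bxQ c hc0 hc b.1) :=
    H579.fam_comp (L.fam345 hc0 hc hΛ) Subtype.val_injective
  obtain ⟨γ, γm, γc, γI, hγ⟩ := exists_parW L hΛ hc0 hc hκ (isQ_cont H hκ) himg hvert e₀
  have hwin : ∀ (b : TBx K) (f : Bool) y, y ∈ G.TB f b →
      y b.ax ∈ Icc (G.tlo true b b.ax) (G.thi true b b.ax) := by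
    intro b f y hy
    have h1 := H669.mem_TB.1 hy b.ax
    rw [(H236.tlo_ax (G := G) (b := b) (f := f)).1, (H236.tlo_ax (G := G) (b := b) (f := f)).2]
      at h1
    exact h1
  have key : ∀ t ∈ Icc (0:ℝ) 1, F (S.toFun (onS g.toFun (E.a e₀) (E.b e₀) t) l) =
      F (onS h.toFun (E.a e₀) (E.b e₀) (γ t) l) := by
    intro t ht
    have hxs : E.a e₀ + γ t • (E.b e₀ - E.a e₀) ∈ E.seg e₀ := Croft.onS_mem (γI ht)
    have hxΩ := E.seg_sub_Ω e₀ hxs
    have h1 := hγ t ht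
    -- a box at the point
    have box : ∀ b' ∈ G₀, h'.toFun (E.a e₀ + γ t • (E.b e₀ - E.a e₀)) ∈ G.TB false b' →
        b' ∈ Met G h G₀ e₀ ∧ h.toFun (E.a e₀ + γ t • (E.b e₀ - E.a e₀)) l ∈
          Icc (G.tlo true b' b'.ax) (G.thi true b' b'.ax) := by
      intro b' hb' hyb
      have h2 := (O.mem b' _ hxΩ).1 hyb
      have h3 : b' ∈ Met G h G₀ e₀ := ⟨hb', _, ⟨_, hxs, rfl⟩, h2⟩
      refine ⟨h3, ?_⟩
      rw [← hl b' h3]
      exact hwin b' false _ h2
    by_cases hex : ∃ b' : G₀, onS g.toFun (E.a e₀) (E.b e₀) t ∈ rtK G ω b'.1 60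
    · obtain ⟨b', hb'⟩ := hex
      have h2 : h'.toFun (E.a e₀ + γ t • (E.b e₀ - E.a e₀)) ∈ G.TB false b'.1 := by
        have h3 := kap_mem (L := L) (hc0 := hc0) (hc := hc) hκ (rtK_sub L (u := 60) (by norm_num) hb')
        rw [h1] at h3
        exact h3
      obtain ⟨h3, h4⟩ := box b'.1 b'.2 h2
      have h5 := (hS1 b' _ hb').1
      have e5 : b'.1.ax = l := hl b'.1 h3
      have h6 : S.toFun (onS g.toFun (E.a e₀) (E.b e₀) t) l ∈
          Icc (G.tlo true b'.1 b'.1.ax) (G.thi true b'.1 b'.1.ax) := by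
        rw [← e5]
        exact h5
      rw [hFc b'.1 h3 _ h6]
      exact (hFc b'.1 h3 _ h4).symm
    · push Not at hex
      have h2 : κ (onS g.toFun (E.a e₀) (E.b e₀) t) = onS g.toFun (E.a e₀) (E.b e₀) t := by
        refine hκ.off _ fun b hb => hex b ?_
        rw [bxQ_K L hc0 hc] at hb
        exact rtK_mono L (by norm_num) hb
      rw [h2] at h1
      rw [hS2 _ hex, h1]
      show F (h'.toFun (E.a e₀ + γ t • (E.b e₀ - E.a e₀)) l) =
        F (h.toFun (E.a e₀ + γ t • (E.b e₀ - E.a e₀)) l)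
      by_cases hin : ∃ b' ∈ G₀, h'.toFun (E.a e₀ + γ t • (E.b e₀ - E.a e₀)) ∈ G.TB false b'
      · obtain ⟨b', hb', hyb⟩ := hin
        obtain ⟨h3, h4⟩ := box b' hb' hyb
        have h5 := hwin b' false _ hyb
        rw [hl b' h3] at h5
        rw [hFc b' h3 _ h4, hFc b' h3]
        rw [hl b' h3]
        exact h5
      · push Not at hin
        rw [(O.off _ hxΩ fun b' hb' h3 => hin b' hb' ((O.mem b' _ hxΩ).2
          (interior_subset h3))).self_of_nhds]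
  have e1 : eVariationOn (fun t => F (S.toFun (onS g.toFun (E.a e₀) (E.b e₀) t) l)) (Icc 0 1) =
      eVariationOn (fun t => F (onS h.toFun (E.a e₀) (E.b e₀) (γ t) l)) (Icc 0 1) :=
    eVariationOn.eq_of_eqOn fun t ht => key t ht
  rw [e1]
  refine (evar_comp_lip hA hF (fun t => onS h.toFun (E.a e₀) (E.b e₀) (γ t) l) _).trans ?_
  refine mul_le_mul_right ?_ _
  refine (eVariationOn.comp_le_of_monotoneOn (fun s => onS h.toFun (E.a e₀) (E.b e₀) s l) γ γm
    γI).trans ?_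
  exact evar_coord_le_len _ _ _

end

end Vale.Agent.P073.H581
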