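import Vale.Agent.P073.Net.Defs

/-!
# P073, A14.11 (TVE), part 1: variation along edges, abstract part

* `evar_le_of_local`: local-to-global principle for the variation.
* `evar_le_cross`: a curve which is controlled by `Z ∘ γ` off finitely many collapsed intervals of
  the monotone map `γ`, and monotone on these.
-/

open Set Filter Topology
open scoped ENNReal

namespace Vale.Agent.P073.H581

section L2G

variable {ι : Type*} {E : Type*} [PseudoEMetricSpace E] {M : ι → Type*}
  [∀ i, PseudoEMetricSpace (M i)]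

theorem edist_le_of_local (T : Finset ι) {G : ℝ → E} {f : ∀ i, ℝ → M i} {a b : ℝ} (hab : a ≤ b)
    (h : ∀ s ∈ Icc a b, ∀ᶠ s' in 𝓝[Icc a b] s,
      edist (G s) (G s') ≤ ∑ i ∈ T, eVariationOn (f i) (uIcc s s')) :
    edist (G a) (G b) ≤ ∑ i ∈ T, eVariationOn (f i) (Icc a b) := by
  set S : Set ℝ := {t | t ∈ Icc a b ∧ edist (G a) (G t) ≤ ∑ i ∈ T, eVariationOn (f i) (Icc a t)}
    with hS
  have haS : a ∈ S := ⟨left_mem_Icc.2 hab, by simp⟩
  have hbd : BddAbove S := ⟨b, fun t ht => ht.1.2⟩
  set c := sSup S with hc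
  have hac : a ≤ c := le_csSup hbd haS
  have hcb : c ≤ b := csSup_le ⟨a, haS⟩ fun t ht => ht.1.2
  have step : ∀ s t, a ≤ s → s ≤ t → t ≤ b → s ∈ S →
      edist (G s) (G t) ≤ ∑ i ∈ T, eVariationOn (f i) (Icc s t) → t ∈ S := by
    intro s t h1 h2 h3 hs h4
    refine ⟨⟨h1.trans h2, h3⟩, (edist_triangle _ (G s) _).trans ?_⟩
    refine (add_le_add hs.2 h4).trans ?_
    rw [← Finset.sum_add_distrib]
    refine Finset.sum_le_sum fun i _ => ?_
    have h5 := eVariationOn.Icc_add_Icc (f i) (s := univ) h1 h2 (mem_univ s)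
    simp only [univ_inter] at h5
    rw [← h5]
  -- `c ∈ S`
  have hcS : c ∈ S := by
    have h1 := h c ⟨hac, hcb⟩
    obtain ⟨ε, hε, h2⟩ := Metric.mem_nhdsWithin_iff.1 h1
    obtain ⟨t, ht, htc⟩ := exists_lt_of_lt_csSup ⟨a, haS⟩ (show c - ε < sSup S by linarith)
    have htc' : t ≤ c := le_csSup hbd ht
    refine step t c ht.1.1 htc' hcb ht ?_
    have h3 : t ∈ Metric.ball c ε ∩ Icc a b := by
      refine ⟨?_, ht.1⟩
      rw [Metric.mem_ball, Real.dist_eq, abs_sub_lt_iff]
      constructor <;> linarith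
    have h4 := h2 h3
    simp only [mem_ofPred_eq] at h4
    rw [edist_comm (G c) (G t), uIcc_of_ge htc'] at h4
    exact h4
  rcases hcb.lt_or_eq with hlt | heq
  · exfalso
    have h1 := h c ⟨hac, hcb⟩
    obtain ⟨ε, hε, h2⟩ := Metric.mem_nhdsWithin_iff.1 h1
    set t := min (c + ε / 2) b with htd
    have hct : c < t := lt_min (by linarith) hlt
    have htb : t ≤ b := min_le_right _ _
    have h3 : t ∈ Metric.ball c ε ∩ Icc a b := by
      refine ⟨?_, ⟨hac.trans hct.le, htb⟩⟩
      rw [Metric.mem_ball, Real.dist_eq, abs_sub_lt_iff]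
      have := min_le_left (c + ε / 2) b
      constructor <;> linarith
    have h6 := h2 h3
    simp only [mem_ofPred_eq] at h6
    rw [uIcc_of_le hct.le] at h6
    have h5 : t ∈ S := step c t hac hct.le htb hcS h6
    exact absurd (le_csSup hbd h5) (not_le.2 hct)
  · rw [← heq]; exact hcS.2

/-- **local-to-global principle for the variation** -/
theorem evar_le_of_local (T : Finset ι) {G : ℝ → E} {f : ∀ i, ℝ → M i} {a b : ℝ}
    (h : ∀ s ∈ Icc a b, ∀ᶠ s' in 𝓝[Icc a b] s,
      edist (G s) (G s') ≤ ∑ i ∈ T, eVariationOn (f i) (uIcc s s')) :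
    eVariationOn G (Icc a b) ≤ ∑ i ∈ T, eVariationOn (f i) (Icc a b) := by
  refine iSup_le ?_
  rintro ⟨n, u, hu, hm⟩
  have h1 : ∀ k, edist (G (u (k + 1))) (G (u k)) ≤
      ∑ i ∈ T, eVariationOn (f i) (Icc a b ∩ Icc (u k) (u (k + 1))) := by
    intro k
    have h2 : Icc (u k) (u (k + 1)) ⊆ Icc a b := Icc_subset_Icc (hm k).1 (hm _).2
    rw [edist_comm, inter_eq_self_of_subset_right h2]
    refine edist_le_of_local T (hu (Nat.le_succ k)) fun s hs => ?_
    exact (h s (h2 hs)).filter_mono (nhdsWithin_mono _ h2)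
  calc ∑ k ∈ Finset.range n, edist (G (u (k + 1))) (G (u k))
      ≤ ∑ k ∈ Finset.range n, ∑ i ∈ T,
          eVariationOn (f i) (Icc a b ∩ Icc (u k) (u (k + 1))) :=
        Finset.sum_le_sum fun k _ => h1 k
    _ = ∑ i ∈ T, ∑ k ∈ Finset.range n,
          eVariationOn (f i) (Icc a b ∩ Icc (u k) (u (k + 1))) := Finset.sum_comm
    _ = ∑ i ∈ T, eVariationOn (f i) (Icc a b ∩ Icc (u 0) (u n)) := by
        refine Finset.sum_congr rfl fun i _ => ?_
        exact eVariationOn.sum (f i) hu fun k _ _ => hm k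
    _ ≤ _ := Finset.sum_le_sum fun i _ => eVariationOn.mono _ inter_subset_left

end L2G

/-- clamping to the interval `[l, r]` -/
noncomputable def clamp (l r s : ℝ) : ℝ := max l (min r s)

theorem clamp_mono (l r : ℝ) : Monotone (clamp l r) := fun _ _ h =>
  max_le_max le_rfl (min_le_min le_rfl h)

theorem clamp_mem {l r : ℝ} (h : l ≤ r) (s : ℝ) : clamp l r s ∈ Icc l r :=
  ⟨le_max_left _ _, max_le h (min_le_left _ _)⟩

theorem clamp_of_mem {l r s : ℝ} (h : s ∈ Icc l r) : clamp l r s = s := by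
  unfold clamp
  rw [min_eq_right h.2, max_eq_right h.1]

theorem evar_clamp {E : Type*} [PseudoEMetricSpace E] (G : ℝ → E) {l r : ℝ} (h : l ≤ r)
    (s : Set ℝ) : eVariationOn (fun t => G (clamp l r t)) s ≤ eVariationOn G (Icc l r) :=
  eVariationOn.comp_le_of_monotoneOn G (clamp l r) ((clamp_mono l r).monotoneOn _)
    fun t _ => clamp_mem h t

/-- **Variation with crossings.** `γ` is monotone; off the finite set `X`, the curve `G` is
locally controlled by `Z ∘ γ`; on the fibres over `X` the variation of `G` is at most `w x`. -/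
theorem evar_le_cross {κ : Type*} (T : Finset κ) {G : ℝ → ℝ} {Z : κ → ℝ → ℝ} {γ : ℝ → ℝ}
    {a b : ℝ} (hγ : MonotoneOn γ (Icc a b)) (hγc : ContinuousOn γ (Icc a b))
    (hG : ContinuousOn G (Icc a b)) (X : Finset ℝ) (w : ℝ → ℝ≥0∞)
    (hfib : ∀ x ∈ X, eVariationOn G (Icc a b ∩ γ ⁻¹' {x}) ≤ w x)
    (hoff : ∀ s ∈ Icc a b, γ s ∉ X → ∀ᶠ s' in 𝓝[Icc a b] s,
      edist (G s) (G s') ≤ ∑ i ∈ T, edist (Z i (γ s)) (Z i (γ s'))) :
    eVariationOn G (Icc a b) ≤
      ∑ x ∈ X, w x + ∑ i ∈ T, eVariationOn (fun s => Z i (γ s)) (Icc a b) := by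
  classical
  rcases lt_or_ge b a with hba | hab
  · rw [Icc_eq_empty (not_le.2 hba)]; simp
  -- the variations
  set V : ℝ → ℝ → ℝ≥0∞ := fun s t => ∑ i ∈ T, eVariationOn (fun s => Z i (γ s)) (Icc s t) with hV
  have hVmono : ∀ {s t s' t'}, s ≤ s' → t' ≤ t → V s' t' ≤ V s t := fun h1 h2 =>
    Finset.sum_le_sum fun i _ => eVariationOn.mono _ (Icc_subset_Icc h1 h2)
  -- between the crossings
  have hseg : ∀ s ∈ Icc a b, ∀ s' ∈ Icc a b, s ≤ s' → (∀ t ∈ Icc s s', γ t ∉ X) →
      edist (G s) (G s') ≤ V s s' := by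
    intro s hs s' hs' hss hX
    have hsub : Icc s s' ⊆ Icc a b := Icc_subset_Icc hs.1 hs'.2
    refine edist_le_of_local T (f := fun i s => Z i (γ s)) hss fun t ht => ?_
    filter_upwards [(hoff t (hsub ht) (hX t ht)).filter_mono (nhdsWithin_mono _ hsub)] with t' h1
    exact h1.trans (Finset.sum_le_sum fun i _ =>
      eVariationOn.edist_le (fun s => Z i (γ s)) left_mem_uIcc right_mem_uIcc)
  -- the part of `X` which is met
  set X' := X.filter fun x => (Icc a b ∩ γ ⁻¹' {x}).Nonempty with hX'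
  have hfibc : ∀ x, IsCompact (Icc a b ∩ γ ⁻¹' {x}) := fun x =>
    isCompact_Icc.of_isClosed_subset
      (hγc.preimage_isClosed_of_isClosed isClosed_Icc isClosed_singleton) inter_subset_left
  set l : ℝ → ℝ := fun x => sInf (Icc a b ∩ γ ⁻¹' {x}) with hl
  set r : ℝ → ℝ := fun x => sSup (Icc a b ∩ γ ⁻¹' {x}) with hr
  have hlm : ∀ x ∈ X', l x ∈ Icc a b ∩ γ ⁻¹' {x} := fun x hx =>
    (hfibc x).sInf_mem (Finset.mem_filter.1 hx).2
  have hrm : ∀ x ∈ X', r x ∈ Icc a b ∩ γ ⁻¹' {x} := fun x hx =>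
    (hfibc x).sSup_mem (Finset.mem_filter.1 hx).2
  have hlr : ∀ x ∈ X', l x ≤ r x := fun x hx =>
    csInf_le_csSup (Finset.mem_filter.1 hx).2 (hfibc x).bddBelow (hfibc x).bddAbove
  have hIcc : ∀ x ∈ X', Icc a b ∩ γ ⁻¹' {x} = Icc (l x) (r x) := by
    intro x hx
    apply Subset.antisymm
    · exact fun s hs => ⟨csInf_le (hfibc x).bddBelow hs, le_csSup (hfibc x).bddAbove hs⟩
    · intro s hs
      have h1 : s ∈ Icc a b := ⟨(hlm x hx).1.1.trans hs.1, hs.2.trans (hrm x hx).1.2⟩
      refine ⟨h1, le_antisymm ?_ ?_⟩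
      · exact (hγ h1 (hrm x hx).1 hs.2).trans_eq (hrm x hx).2
      · exact (hlm x hx).2.symm.le.trans (hγ (hlm x hx).1 h1 hs.1)
  have hcont : ∀ x, x ∈ X' → ∀ s ∈ Icc a b, γ s = x → s ∈ Icc (l x) (r x) := by
    intro x hx s hs hsx
    rw [← hIcc x hx]; exact ⟨hs, hsx⟩
  -- the functions
  let f : κ ⊕ ℝ → ℝ → ℝ := fun i => match i with
    | Sum.inl i => fun s => Z i (γ s)
    | Sum.inr x => fun s => G (clamp (l x) (r x) s)
  have key := evar_le_of_local (T.disjSum X') (G := G) (f := f) (a := a) (b := b) ?_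
  · rw [Finset.sum_disjSum] at key
    refine key.trans ?_
    rw [add_comm]
    refine add_le_add ?_ le_rfl
    refine (Finset.sum_le_sum (g := w) fun x hx => ?_).trans
      (Finset.sum_le_sum_of_subset (Finset.filter_subset _ _))
    refine (evar_clamp G (hlr x hx) _).trans ?_
    rw [← hIcc x hx]
    exact hfib x (Finset.mem_filter.1 hx).1
  intro s hs
  simp only [Finset.sum_disjSum]
  have hinl : ∀ s', ∑ i ∈ T, eVariationOn (f (Sum.inl i)) (uIcc s s') =
      ∑ i ∈ T, eVariationOn (fun s => Z i (γ s)) (uIcc s s') := fun s' => rfl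
  -- the finite set of values is closed: off the value `γ s` there are no others nearby
  have hnear : ∀ᶠ s' in 𝓝[Icc a b] s, ∀ x ∈ X, x ≠ γ s → ∀ t ∈ Icc a b,
      t ∈ uIcc s s' → γ t ≠ x := by
    have h1 : ((X.erase (γ s) : Finset ℝ) : Set ℝ)ᶜ ∈ 𝓝 (γ s) := by
      apply (Finset.finite_toSet _).isClosed.isOpen_compl.mem_nhds
      simp
    have h2 := (hγc s hs) h1
    obtain ⟨ε, hε, h3⟩ := Metric.mem_nhdsWithin_iff.1 h2
    refine Metric.mem_nhdsWithin_iff.2 ⟨ε, hε, ?_⟩
    rintro s' ⟨hs', hs'I⟩ x hx hxs t ht htt hγt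
    have h4 : t ∈ Metric.ball s ε ∩ Icc a b := by
      refine ⟨?_, ht⟩
      rw [Metric.mem_ball, Real.dist_eq] at hs' ⊢
      have := abs_sub_left_of_mem_uIcc htt
      exact lt_of_le_of_lt this hs'
    have h5 := h3 h4
    rw [mem_preimage, hγt, mem_compl_iff, Finset.mem_coe, Finset.mem_erase] at h5
    exact h5 ⟨hxs, hx⟩
  by_cases hsX : γ s ∈ X
  · -- a fibre
    have hx' : γ s ∈ X' := Finset.mem_filter.2 ⟨hsX, s, hs, rfl⟩
    have hsm := hcont _ hx' s hs rfl
    have hcl := clamp_of_mem hsm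
    -- the part in the fibre
    have hpart : ∀ s' t', clamp (l (γ s)) (r (γ s)) s' = t' → edist (G s) (G t') ≤
        ∑ x ∈ X', eVariationOn (f (Sum.inr x)) (uIcc s s') := by
      intro s' t' ht'
      calc edist (G s) (G t') = edist (f (Sum.inr (γ s)) s) (f (Sum.inr (γ s)) s') := by
            show edist (G s) (G t') = edist (G (clamp _ _ s)) (G (clamp _ _ s'))
            rw [hcl, ht']
        _ ≤ eVariationOn (f (Sum.inr (γ s))) (uIcc s s') :=
            eVariationOn.edist_le _ left_mem_uIcc right_mem_uIcc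
        _ ≤ _ := Finset.single_le_sum
            (f := fun x => eVariationOn (f (Sum.inr x)) (uIcc s s')) (fun _ _ => zero_le) hx'
    filter_upwards [hnear, self_mem_nhdsWithin] with s' h1 hs'
    by_cases hs's : γ s' = γ s
    · exact (hpart s' s' (clamp_of_mem (hcont _ hx' s' hs' hs's))).trans le_add_self
    · -- by continuity, from the end point of the fibre
      rcases lt_or_gt_of_ne hs's with hlt | hgt
      · -- `s' < l`
        have hs's : s' ≤ s := by
          by_contra hcon
          exact absurd (hγ hs hs' (not_le.1 hcon).le) (not_le.2 hlt)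
        have hs'l : s' < l (γ s) := by
          by_contra hcon
          have : s' ∈ Icc (l (γ s)) (r (γ s)) := ⟨not_lt.1 hcon, hs's.trans hsm.2⟩
          rw [← hIcc _ hx'] at this
          exact hlt.ne this.2
        have hls := hsm.1
        have h5 : edist (G (l (γ s))) (G s') ≤ V s' s := by
          have hlI := (hlm _ hx').1
          have hne : (𝓝[Ioo s' (l (γ s))] (l (γ s))).NeBot := by
            rw [← mem_closure_iff_nhdsWithin_neBot, closure_Ioo hs'l.ne]
            exact right_mem_Icc.2 hs'l.le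
          have hsub : Ioo s' (l (γ s)) ⊆ Icc a b := fun t ht =>
            ⟨hs'.1.trans ht.1.le, ht.2.le.trans hlI.2⟩
          have hc1 : Tendsto (fun t => edist (G t) (G s')) (𝓝[Ioo s' (l (γ s))] (l (γ s)))
              (𝓝 (edist (G (l (γ s))) (G s'))) :=
            ((hG _ hlI).mono hsub).tendsto.edist tendsto_const_nhds
          refine le_of_tendsto hc1 ?_
          filter_upwards [self_mem_nhdsWithin] with t ht
          rw [edist_comm (G t)]
          refine (hseg s' hs' t (hsub ht) ht.1.le ?_).trans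
            (hVmono le_rfl (ht.2.le.trans hls))
          intro t' ht' hX
          have ht'I : t' ∈ Icc a b := ⟨hs'.1.trans ht'.1, ht'.2.trans (hsub ht).2⟩
          have hne' : γ t' ≠ γ s := by
            intro h7
            have := hcont _ hx' t' ht'I h7
            exact absurd (this.1.trans ht'.2) (not_le.2 ht.2)
          refine h1 _ hX hne' t' ht'I ?_ rfl
          rw [uIcc_of_ge hs's]
          exact ⟨ht'.1, ht'.2.trans (ht.2.le.trans hls)⟩
        have h9 : clamp (l (γ s)) (r (γ s)) s' = l (γ s) := by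
          unfold clamp
          exact max_eq_left ((min_le_right _ _).trans hs'l.le)
        calc edist (G s) (G s') ≤ edist (G s) (G (l (γ s))) + edist (G (l (γ s))) (G s') :=
              edist_triangle _ _ _
          _ ≤ ∑ x ∈ X', eVariationOn (f (Sum.inr x)) (uIcc s s') +
                ∑ i ∈ T, eVariationOn (f (Sum.inl i)) (uIcc s s') := by
              refine add_le_add (hpart s' _ h9) (h5.trans (le_of_eq ?_))
              rw [hinl, uIcc_of_ge hs's]
          _ = _ := add_comm _ _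
      · -- `r < s'`
        have hss' : s ≤ s' := by
          by_contra hcon
          exact absurd (hγ hs' hs (not_le.1 hcon).le) (not_le.2 hgt)
        have hs'r : r (γ s) < s' := by
          by_contra hcon
          have : s' ∈ Icc (l (γ s)) (r (γ s)) := ⟨hsm.1.trans hss', not_lt.1 hcon⟩
          rw [← hIcc _ hx'] at this
          exact hgt.ne' this.2
        have hrs := hsm.2
        have h5 : edist (G (r (γ s))) (G s') ≤ V s s' := by
          have hrI := (hrm _ hx').1
          have hne : (𝓝[Ioo (r (γ s)) s'] (r (γ s))).NeBot := by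
            rw [← mem_closure_iff_nhdsWithin_neBot, closure_Ioo hs'r.ne]
            exact left_mem_Icc.2 hs'r.le
          have hsub : Ioo (r (γ s)) s' ⊆ Icc a b := fun t ht =>
            ⟨hrI.1.trans ht.1.le, ht.2.le.trans hs'.2⟩
          have hc1 : Tendsto (fun t => edist (G t) (G s')) (𝓝[Ioo (r (γ s)) s'] (r (γ s)))
              (𝓝 (edist (G (r (γ s))) (G s'))) :=
            ((hG _ hrI).mono hsub).tendsto.edist tendsto_const_nhds
          refine le_of_tendsto hc1 ?_
          filter_upwards [self_mem_nhdsWithin] with t ht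
          refine (hseg t (hsub ht) s' hs' ht.2.le ?_).trans (hVmono (hrs.trans ht.1.le) le_rfl)
          intro t' ht' hX
          have ht'I : t' ∈ Icc a b := ⟨(hsub ht).1.trans ht'.1, ht'.2.trans hs'.2⟩
          have hne' : γ t' ≠ γ s := by
            intro h7
            have := hcont _ hx' t' ht'I h7
            exact absurd (ht'.1.trans this.2) (not_le.2 ht.1)
          refine h1 _ hX hne' t' ht'I ?_ rfl
          rw [uIcc_of_le hss']
          exact ⟨hrs.trans (ht.1.le.trans ht'.1), ht'.2⟩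
        have h9 : clamp (l (γ s)) (r (γ s)) s' = r (γ s) := by
          unfold clamp
          rw [min_eq_left hs'r.le, max_eq_right (hlr _ hx')]
        calc edist (G s) (G s') ≤ edist (G s) (G (r (γ s))) + edist (G (r (γ s))) (G s') :=
              edist_triangle _ _ _
          _ ≤ ∑ x ∈ X', eVariationOn (f (Sum.inr x)) (uIcc s s') +
                ∑ i ∈ T, eVariationOn (f (Sum.inl i)) (uIcc s s') := by
              refine add_le_add (hpart s' _ h9) (h5.trans (le_of_eq ?_))
              rw [hinl, uIcc_of_le hss']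
          _ = _ := add_comm _ _
  · -- off the fibres
    filter_upwards [hoff s hs hsX] with s' h1
    refine h1.trans (le_trans ?_ le_self_add)
    exact Finset.sum_le_sum fun i _ =>
      eVariationOn.edist_le (f (Sum.inl i)) left_mem_uIcc right_mem_uIcc

end Vale.Agent.P073.H581
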